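import Vale.Agent.P354.H251.Cau
import Vale.Agent.P354.H251.DefsC

set_option linter.unusedSectionVars false

open scoped ContDiff
open MeasureTheory Set Filter Topology

namespace Vale.Agent.P354v.C

open Vale.Agent.P354c
open Vale.Agent.P354p.Ex (Prm LLe kk kk_meas norm_R4_lt LLe_nonneg LLe_meas)
open Vale.Agent.P354c.Ex (kk_integrable kk_unbounded)

variable [Prm]

/-- the example -/
noncomputable abbrev M0 : Spc := Dn (VV 0)

/-- vacuum -/
theorem vacuum : IsVacuum M0 := by
  rintro ⟨⟩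
  refine ⟨GC, fun y hy => ⟨?_, fun i => E1 i, fun i => E2 y i, ?_, ?_⟩⟩
  · exact conn hy
  · intro i j
    have h := dual y i.1 i.2 j.1 j.2
    have e : (if i = j then (1:ℝ) else 0) = if i.1 = j.1 then 1 else 0 := by
      by_cases hij : i = j
      · rw [if_pos hij, if_pos (by rw [hij])]
      · rw [if_neg hij, if_neg (fun h => hij (Fin.ext h))]
    rw [e]
    exact h
  · intro b c
    have h := ricci hy b c
    rw [Finset.sum_range] at h
    exact h

/-- the coefficients -/
noncomputable def CN : ℕ → R4 → ℝ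
  | 0 => fun x => AA (cv x)
  | 2 => fun x => BB (cv x)
  | 3 => fun _ => 2
  | _ => fun _ => 0

lemma CN_smooth (i : ℕ) : ContDiffOn ℝ ∞ (CN i) (Db 0) := by
  match i with
  | 0 => exact FF_smooth 1
  | 1 => exact contDiffOn_const
  | 2 => exact FF_smooth (-1)
  | 3 => exact contDiffOn_const
  | (n + 4) => exact contDiffOn_const

lemma form_CN (x a : R4) : gg x a a = form CN x a := by
  simp only [gg, form, h1, h2, CN, P354p.cu, P354p.cv, P354p.c1, P354p.c2, cu, cv, c1, c2]
  ring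

/-- the weight -/
noncomputable def kw (v : ℝ) : ℝ := 34 * KK * kk v

lemma kw_meas : Measurable kw := kk_meas.const_mul _

lemma box_sub {z : R4} (hz : cv z = 0) : nullBox z (1 / 2) ⊆ Db 0 := by
  rintro x ⟨hx, hxv⟩
  have hx' : x ∈ Metric.ball z (1 / 2) := hx
  rw [mem_ball_iff_norm] at hx'
  obtain ⟨h3, h4⟩ := norm_R4_lt hx'
  have e2 : cv (x - z) = cv x - cv z := rfl
  have h4' : |cv (x - z)| < 1 / 2 := h4
  rw [e2, hz, sub_zero, abs_lt] at h4'
  refine ⟨show -1 < cv x by linarith only [h4'], ?_⟩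
  rw [Nat.cast_zero]
  exact hxv

lemma dd (i : ℕ) (x a : R4) (h : cv a = 0) : deriv (CN i) x a = 0 := by
  match i with
  | 0 => exact ld_tan AA x h
  | 1 => exact ld_tan (fun _ => 0) x h
  | 2 => exact ld_tan BB x h
  | 3 => exact ld_tan (fun _ => 2) x h
  | (n + 4) => exact ld_tan (fun _ => 0) x h

lemma dnbox {z : R4} (hz : cv z = 0) :
    IsDNBox M0 () CN (nullBox z (1 / 2)) KK kw (fun _ => KK) where
  subset := box_sub hz
  smooth := fun i => (CN_smooth i).mono (box_sub hz)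
  metric := by
    intro x hx
    have hx0 := box_sub hz hx
    have hx1 : -1 < cv x := hx0.1
    have hx2 : cv x < 0 := hx.2
    have hA := AA_bd (cv x)
    have hB := BB_bd (cv x)
    have hK := KK_ge
    have hk := Vale.Agent.P354p.Ex.kk_nonneg (cv x)
    have hkw : 0 ≤ kw (cv x) := by unfold kw; positivity
    refine ⟨fun a => form_CN x a, by show (0:ℝ) < 1; norm_num1, ?_, ?_, ?_, ?_⟩
    · show 1 ≤ KK * 2
      linarith
    · intro a ha hb
      refine ⟨?_, ?_⟩
      · have e1 : form CN x a = AA (cv x) * c1 a ^ 2 + BB (cv x) * c2 a ^ 2 := by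
          simp only [form, CN, h1, hb, ha, h2]
          ring
        have e2 : ‖a‖ ^ 2 ≤ c1 a ^ 2 + c2 a ^ 2 := by
          have h1 : ‖a‖ = max |c1 a| |c2 a| := by
            have k1 : ‖a‖ = max |cu a| (max |cv a| (max |c1 a| |c2 a|)) := rfl
            rw [k1, ha, hb, abs_zero, max_eq_right (le_max_of_le_left (abs_nonneg (c1 a))),
              max_eq_right (le_max_of_le_left (abs_nonneg (c1 a)))]
          rw [h1]
          rcases max_cases |c1 a| |c2 a| with ⟨h2, _⟩ | ⟨h2, _⟩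
          · rw [h2, sq_abs]; linarith only [sq_nonneg (c2 a)]
          · rw [h2, sq_abs]; linarith only [sq_nonneg (c1 a)]
        rw [e1]
        have h1 : 1 ≤ KK * AA (cv x) := by nlinarith only [hK, hA.1]
        have h2 : 1 ≤ KK * BB (cv x) := by nlinarith only [hK, hB.1]
        have h3 := mul_le_mul_of_nonneg_right h1 (sq_nonneg (c1 a))
        have h4 := mul_le_mul_of_nonneg_right h2 (sq_nonneg (c2 a))
        linarith
      · intro i hi
        have hKa : 0 ≤ KK * ‖a‖ := by positivity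
        have hc' : |deriv (CN i) x a| ≤ KK * ‖a‖ := by
          rw [dd i x a hb, abs_zero]
          exact hKa
        refine ⟨?_, hc'⟩
        have h0 : |(0:ℝ)| ≤ KK := by rw [abs_zero]; linarith only [hK]
        have h2 : |(2:ℝ)| ≤ KK := by rw [abs_of_pos (by norm_num : (0:ℝ) < 2)]; exact hK
        have hAb : |AA (cv x)| ≤ KK := by rw [abs_of_nonneg (by linarith)]; exact hA.2
        have hBb : |BB (cv x)| ≤ KK := by rw [abs_of_nonneg (by linarith)]; exact hB.2
        interval_cases i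
        · exact hAb
        · exact h0
        · exact hBb
        · exact h2
        · exact h0
        · exact h0
        · exact h0
        · exact h0
    · have h0 : deriv (fun _ => (0:ℝ)) x du - deriv (fun _ => (0:ℝ)) x dv = 0 := by
        have k1 : ∀ a : R4, deriv (fun _ => (0:ℝ)) x a = 0 := fun a =>
          HasLineDerivAt.lineDeriv (hasDerivAt_const (0:ℝ) (0:ℝ))
        rw [k1, k1, sub_zero]
      rintro i (rfl | rfl)
      · show |deriv (fun _ => 0) x du - deriv (fun _ => 0) x dv| ≤ KK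
        rw [h0, abs_zero]; linarith
      · show |deriv (fun _ => 0) x du - deriv (fun _ => 0) x dv| ≤ KK
        rw [h0, abs_zero]; linarith
    · intro i hi
      constructor
      · have kA : |deriv (CN 0) x dv| ≤ kw (cv x) := by
          have : deriv (CN 0) x dv = DD Prm.a 1 (cv x) := ld_dv AA x
          rw [this]
          exact DD_le Prm.a0 Prm.a1 (by simp) hx1.ne' hx2.ne
        have kB : |deriv (CN 2) x dv| ≤ kw (cv x) := by
          have : deriv (CN 2) x dv = DD Prm.a (-1) (cv x) := ld_dv BB x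
          rw [this]
          exact DD_le Prm.a0 Prm.a1 (by simp) hx1.ne' hx2.ne
        have h2 : ∀ c : ℝ, |deriv (fun _ => c) x dv| ≤ kw (cv x) := by
          intro c
          have k1 : deriv (fun _ => c) x dv = 0 :=
            HasLineDerivAt.lineDeriv (hasDerivAt_const (0:ℝ) c)
          rw [k1, abs_zero]; exact hkw
        interval_cases i
        · exact kA
        · exact h2 0
        · exact kB
        · exact h2 2
      · rw [dd i x du rfl, abs_zero]
        linarith
  integrable := ⟨kw_meas, kk_integrable.const_mul _⟩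

lemma int_DD : Integrable (fun v => -DD Prm.a 1 v) := by
  refine Integrable.neg (Integrable.mono' (kk_integrable.const_mul (34 * KK))
    (DD_meas 1).aestronglyMeasurable ?_)
  have h1 : ∀ᵐ v : ℝ, v ≠ -1 := (Set.countable_singleton (-1:ℝ)).ae_notMem volume
  have h2 : ∀ᵐ v : ℝ, v ≠ 0 := (Set.countable_singleton (0:ℝ)).ae_notMem volume
  filter_upwards [h1, h2] with v h1 h2
  rw [Real.norm_eq_abs]
  exact DD_le Prm.a0 Prm.a1 (by simp) h1 h2

lemma isBig_neg {D : Set R4} {s : ℝ} {h F : R4 → ℝ} (hF : IsBig D s h fun y => -F y) :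
    IsBig D s h F := by
  intro L
  obtain ⟨φ, h1, h2, h3⟩ := hF L
  refine ⟨φ, h1, h2, h3.trans_le (le_of_eq ?_)⟩
  have : (int fun x => φ x * -F x) = -int fun x => φ x * F x := by
    unfold int
    rw [← integral_neg]
    congr 1
    funext x
    ring
  rw [this, abs_neg]

/-- curves which tend to a point of v = 0 -/
lemma front (hpp : Prm.a = 0) {a : ℝ → M0.pt} {z : R4} (hz : cv z = 0)
    (ht : Tendsto (fun t => (a t).1) (𝓝[<] 1) (𝓝 z)) : EndsAtFront M0 a := by
  refine ⟨(), CN, z, 1 / 2, KK, kw, GC, dnbox hz, hz, ⟨?_, ht⟩,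
    fun x hx => ⟨rfl, rfl, conn (box_sub hz hx)⟩, fun x hx _ c hc => Or.inr ⟨0, by norm_num, ?_⟩⟩
  · have h3 : ∀ᶠ t in 𝓝[<] (1:ℝ), (a t).1 ∈ Metric.ball z (1 / 2) :=
      ht.eventually (Metric.ball_mem_nhds _ (by norm_num))
    filter_upwards [h3] with t ht'
    have h4 := (a t).2.2
    rw [Nat.cast_zero] at h4
    exact ⟨mem_univ _, ht', h4⟩
  · refine isBig_neg (big_of_unbounded hc hx int_DD (fun y _ _ => ?_) fun m => ?_)
    · exact congrArg (fun z => -z) (ld_dv AA y)
    · obtain ⟨δ, hδ, h⟩ := kk_unbounded hpp (4 * m)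
      refine ⟨min δ 1, lt_min hδ one_pos, fun v hv => ?_⟩
      have h1 : -1 < v := by have := min_le_right δ 1; linarith [hv.1]
      have h2 := h v ⟨by have := min_le_left δ 1; linarith [hv.1], hv.2⟩
      have k1 := DD_lower (a := Prm.a) Prm.a0 Prm.a1 h1 hv.2
      have k3 : kk v = LLe Prm.a 0 v := rfl
      rw [k3] at h2
      linarith

/-- curves along which u is unbounded -/
lemma far {a : ℝ → M0.pt} (hb : CD (fun t => (a t).1))
    (hun : ∀ C, ∃ t ∈ Ioo (0:ℝ) 1, C < cu (a t).1) : IsFar M0 a := by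
  intro b hb1
  set s : ℝ := (max b 0 + 1) / 2 with hs
  have hmax : max b 0 < 1 := max_lt hb1 one_pos
  have hs0 : 0 < s := by have := le_max_right b 0; linarith
  have hs1 : s < 1 := by linarith
  have hbs : b < s := by have := le_max_left b 0; linarith
  refine ⟨s, ⟨hbs, hs1⟩, fun L => ?_⟩
  obtain ⟨t, ht, H, h1, h2, h3⟩ := far_raw hb hun ⟨hs0, hs1⟩ L
  have hcont : ∀ y ∈ Icc (0:ℝ) 1, ContinuousOn (fun x => H y x) (Icc 0 1) := by
    intro y hy
    exact h1.comp (f := fun x : ℝ => (y, x)) (by fun_prop) fun x hx => ⟨hy, hx⟩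
  refine ⟨t, ht, H, h1, h2, fun y hy => ⟨⟨hcont y hy, ?_⟩, (h3 y hy).1,
    (h3 y hy).2.1⟩, ⟨hcont 1 ⟨zero_le_one, le_rfl⟩, ?_⟩⟩
  · rintro x hx ⟨⟩ _
    obtain ⟨k1, k2⟩ := (h3 y hy).2.2 x hx
    refine ⟨k1, ?_⟩
    rintro _ w rfl hw
    obtain ⟨k3, k4, -⟩ := k2 w hw
    exact ⟨by rw [neg_zero]; exact k3, k4⟩
  · rintro x hx ⟨⟩ _
    obtain ⟨k1, k2⟩ := (h3 1 ⟨zero_le_one, le_rfl⟩).2.2 x hx
    refine ⟨k1, ?_⟩
    rintro _ w rfl hw
    obtain ⟨k3, k4, k5⟩ := k2 w hw
    exact ⟨k5 rfl, k4⟩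

/-- all curves end -/
theorem ends (hpp : Prm.a = 0)
    {a : ℝ → M0.pt} (ha : IsFutureCurve M0 0 J a)
    (hno : ∀ p, ¬ Tendsto a (𝓝[<] 1) (𝓝 p)) : Ends M0 a := by
  have ha' : P354p.IsFutureCurve (VV 0) 0 (Ico 0 1) a := ha.up le_rfl
  by_cases hbd : ∃ B, ∀ t ∈ Ioo (1 / 2 : ℝ) 1, cu (a t).1 ≤ B
  · obtain ⟨B, hB⟩ := hbd
    obtain ⟨z, hz, h1, h2⟩ := lim_exists ha' hB
    rcases lt_or_eq_of_le h2 with h2 | h2
    · exfalso
      have hz0 : z ∈ Db 0 := ⟨h1, by rw [Nat.cast_zero]; exact h2⟩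
      refine hno (⟨z, hz0⟩ : Pb 0) ?_
      exact tendsto_subtype_rng.2 hz
    · exact Or.inl (front hpp h2 hz)
  · push Not at hbd
    refine Or.inr (Or.inr (far (curve_data ha').1 fun C => ?_))
    obtain ⟨t, ht, h⟩ := hbd C
    exact ⟨t, ⟨by linarith [ht.1], ht.2⟩, h⟩

/-- global hyperbolicity -/
theorem gh : IsGH M0 :=
  ⟨SS, fun _ h1 h2 => cauchy (h1.up le_rfl) (fun x => (h2 x).1) fun x => (h2 x).2⟩

omit [Prm] in
lemma conn_pb (n : ℕ) : ConnectedSpace (Pb n) := by
  rw [← isConnected_iff_connectedSpace]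
  refine (Convex.isPathConnected ?_ ⟨_, (pb n).2⟩).isConnected
  intro x hx y hy a b ha hb hab
  obtain ⟨h1, h2⟩ := hx
  obtain ⟨h3, h4⟩ := hy
  have e : P354p.cv (a • x + b • y) = a * P354p.cv x + b * P354p.cv y := rfl
  refine ⟨?_, ?_⟩
  · rw [e]
    rcases eq_or_lt_of_le ha with h | h
    · have : b = 1 := by linarith
      rw [← h, this]; linarith
    · nlinarith
  · rw [e]
    rcases eq_or_lt_of_le ha with h | h
    · have : b = 1 := by linarith
      rw [← h, this]; linarith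
    · nlinarith

omit [Prm] in
/-- **Sharpness in vacuum.** -/
theorem sharp : ∃ M N ι c, IsSpacetime IsSmooth M ∧ IsVacuum M ∧ IsGH M ∧ AllEnd M ∧
    ConnectedSpace M.pt ∧ ConnectedSpace N.pt ∧
      ∀ q < ⊤, IsFutureExtension (IsC0W1 q) M N ι c := by
  let _ : Prm := ⟨0, le_rfl, by norm_num⟩
  refine ⟨M0, Dn (VV 1), io, c0, isSpacetime_dn (spacetime fun a b => gg_smooth a b)
    (fun _ _ h => h), vacuum, gh,
    fun _ h1 h2 => ends rfl h1 h2, conn_pb 0, conn_pb 1, fun q hq => ?_⟩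
  have hqt : q ≠ ⊤ := ne_top_of_lt hq
  refine isFutureExtension_dn (extension (r := max 1 q.toReal) (le_max_left _ _) ?_ ?_)
  · rw [ENNReal.le_ofReal_iff_toReal_le hqt (by positivity)]
    exact le_max_right _ _
  · show (0:ℝ) * max 1 q.toReal < 1
    simp only [zero_mul, zero_lt_one]

end Vale.Agent.P354v.C
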