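import Vale.Agent.P354.H251.Lim2

set_option linter.unusedSectionVars false

open scoped ContDiff
open MeasureTheory Set Filter Topology

namespace Vale.Agent.P354v.T

open Vale.Agent.P354p
open Vale.Agent.P354p.Ex (LLe mono_lim)

variable [PD]

/-- the data of a future curve in the example -/
lemma curve_data' {a : ℝ → (VV 0).pt} (ha : IsFutureCurve (VV 0) 0 (Ioo 0 1) a) :
    CD (fun t => (a t).1) ∧ ∀ t ∈ Ioo (0:ℝ) 1,
      |c1 (_root_.deriv (fun t => (a t).1) t)| ≤ cu (_root_.deriv (fun t => (a t).1) t) +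
        cv (_root_.deriv (fun t => (a t).1) t) ∧
      |c2 (_root_.deriv (fun t => (a t).1) t)| ≤ cu (_root_.deriv (fun t => (a t).1) t) +
        cv (_root_.deriv (fun t => (a t).1) t) := by
  set b : ℝ → R4 := fun t => (a t).1 with hb
  have hd : ∀ t ∈ Ioo (0:ℝ) 1, (HasDerivAt b (_root_.deriv b t) t ∧
      gg (b t) (_root_.deriv b t) (_root_.deriv b t) < 0) ∧
      0 < cu (_root_.deriv b t) ∧ 0 < cv (_root_.deriv b t) ∧
      |c1 (_root_.deriv b t)| ≤ cu (_root_.deriv b t) + cv (_root_.deriv b t) ∧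
      |c2 (_root_.deriv b t)| ≤ cu (_root_.deriv b t) + cv (_root_.deriv b t) := by
    intro t ht
    have hnb : Ioo (0:ℝ) 1 ∈ 𝓝 t := Ioo_mem_nhds ht.1 ht.2
    obtain ⟨h1, h2⟩ := ha.2 t ht () (mem_univ _)
    have h3 : DifferentiableAt ℝ b t :=
      (h1.differentiableWithinAt (by norm_num)).differentiableAt hnb
    have h4 : derivWithin (fun s => co (M := VV 0) () (a s)) (Ioo 0 1) t = _root_.deriv b t :=
      derivWithin_of_mem_nhds hnb
    obtain ⟨h5, -, h6⟩ := h2 _ _ rfl rfl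
    rw [h4] at h5 h6
    have h7 : gg (b t) (_root_.deriv b t) (_root_.deriv b t) < 0 := h5
    have h8 : gg (b t) (_root_.deriv b t) (1, 1, 0, 0) < 0 := h6
    refine ⟨⟨h3.hasDerivAt, h7⟩, ?_⟩
    exact cone2 (AA_bd _).1 (BB_bd _).1 h7 h8
  refine ⟨⟨?_, fun t => (a t).2, fun t ht => (hd t ht).1.1, fun t ht => (hd t ht).1.2,
    fun t ht => (hd t ht).2.1, fun t ht => (hd t ht).2.2.1⟩, fun t ht => (hd t ht).2.2.2⟩
  intro t ht
  exact (ha.2 t ht () (mem_univ _)).1

/-- the time function -/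
noncomputable def TT (x : R4) : ℝ := cu x + (Real.log (1 + cv x) - Real.log (-cv x))

/-- the Cauchy hypersurface -/
def SS : Set (Pb 0) := {p | TT p.1 = 0}

lemma log_mono {v w : ℝ} (h1 : -1 < v) (h2 : v < w) (h3 : w < 0) :
    Real.log (1 + v) - Real.log (-v) < Real.log (1 + w) - Real.log (-w) := by
  have k1 : Real.log (1 + v) < Real.log (1 + w) := Real.log_lt_log (by linarith) (by linarith)
  have k2 : Real.log (-w) < Real.log (-v) := Real.log_lt_log (by linarith) (by linarith)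
  linarith

/-- **The example has a Cauchy hypersurface.** -/
theorem cauchy {a : ℝ → (VV 0).pt} (ha : IsFutureCurve (VV 0) 0 (Ioo 0 1) a)
    (h1 : ∀ x, ¬ Tendsto a (𝓝[<] 1) (𝓝 x)) (h0 : ∀ x, ¬ Tendsto a (𝓝[>] 0) (𝓝 x)) :
    ∃! t, t ∈ Ioo (0:ℝ) 1 ∧ a t ∈ SS := by
  obtain ⟨hb, hb2⟩ := curve_data' ha
  set b : ℝ → R4 := fun t => (a t).1 with hbdef
  have hv : ∀ t, -1 < cv (b t) ∧ cv (b t) < 0 := by
    intro t
    have := hb.mem t
    refine ⟨this.1, ?_⟩
    have h2 := this.2
    rwa [Nat.cast_zero] at h2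
  have mono : StrictMonoOn (fun t => TT (b t)) (Ioo 0 1) := by
    intro s hs t ht hst
    have k1 : cu (b s) < cu (b t) := hb.umono hs ht hst
    have k2 := log_mono (hv s).1 (hb.vmono hs ht hst) (hv t).2
    show cu (b s) + _ < cu (b t) + _
    exact add_lt_add k1 k2
  have cont : ContinuousOn (fun t => TT (b t)) (Ioo 0 1) := by
    have c1 : ContinuousOn b (Ioo 0 1) := hb.c1.continuousOn
    have c2 : ContinuousOn (fun t => cu (b t)) (Ioo 0 1) := continuous_fst.comp_continuousOn c1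
    have c3 : ContinuousOn (fun t => cv (b t)) (Ioo 0 1) :=
      (continuous_fst.comp continuous_snd).comp_continuousOn c1
    refine c2.add (((continuousOn_const.add c3).log ?_).sub (c3.neg.log ?_))
    · intro t _
      have := (hv t).1
      show 1 + cv (b t) ≠ 0
      linarith
    · intro t _
      have := (hv t).2
      show -cv (b t) ≠ 0
      linarith
  -- the values near the future end
  have hub : ∃ t ∈ Ioo (0:ℝ) 1, 0 < TT (b t) := by
    by_cases hbd : ∃ B, ∀ t ∈ Ioo (1 / 2 : ℝ) 1, cu (b t) ≤ B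
    · obtain ⟨B, hB⟩ := hbd
      have hsub : ∀ t ∈ Ioo (1/2:ℝ) 1, t ∈ Ioo (0:ℝ) 1 := fun t ht => ⟨by linarith [ht.1], ht.2⟩
      obtain ⟨z, hz, hzv⟩ := lim_abs (fun t ht => hb.hd t (hsub t ht))
        (fun t ht => hb.pu t (hsub t ht)) (fun t ht => hb.pv t (hsub t ht))
        (fun t ht => (hb2 t (hsub t ht)).1) (fun t ht => (hb2 t (hsub t ht)).2) hB
        (fun t _ => (hv t).2.le)
      have hz1 : -1 < cv z := (hv (3/4)).1.trans_le (hzv (3/4) ⟨by norm_num, by norm_num⟩)
      have hzt : Tendsto (fun t => cv (b t)) (𝓝[<] 1) (𝓝 (cv z)) :=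
        ((continuous_fst.comp continuous_snd).tendsto z).comp hz
      have hz0 : cv z ≤ 0 := le_of_tendsto hzt (Eventually.of_forall fun t => (hv t).2.le)
      rcases lt_or_eq_of_le hz0 with h | h
      · exfalso
        have hz0 : z ∈ Db 0 := ⟨hz1, by rw [Nat.cast_zero]; exact h⟩
        exact h1 (⟨z, hz0⟩ : Pb 0) (tendsto_subtype_rng.2 hz)
      · rw [h] at hzt
        set c := Real.log (1 + cv (b (1/2))) with hc
        set ε := Real.exp (cu (b (1/2)) + c) with hε
        have hεp : 0 < ε := Real.exp_pos _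
        have e1 : ∀ᶠ t in 𝓝[<] (1:ℝ), -ε < cv (b t) :=
          hzt.eventually (lt_mem_nhds (by linarith))
        have e2 : Ioo (1/2:ℝ) 1 ∈ 𝓝[<] (1:ℝ) := Ioo_mem_nhdsLT (by norm_num)
        obtain ⟨t, ht1, ht2⟩ := (e1.and e2).exists
        have m0 : (1/2:ℝ) ∈ Ioo (0:ℝ) 1 := by constructor <;> norm_num
        refine ⟨t, hsub t ht2, ?_⟩
        have k1 : cu (b (1/2)) < cu (b t) := hb.umono m0 (hsub t ht2) ht2.1
        have k2 : cv (b (1/2)) < cv (b t) := hb.vmono m0 (hsub t ht2) ht2.1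
        have k3 : c < Real.log (1 + cv (b t)) :=
          Real.log_lt_log (by linarith [(hv (1/2)).1]) (by linarith)
        have k4 : Real.log (-cv (b t)) < Real.log ε :=
          Real.log_lt_log (by linarith [(hv t).2]) (by linarith)
        rw [hε, Real.log_exp] at k4
        show 0 < cu (b t) + (Real.log (1 + cv (b t)) - Real.log (-cv (b t)))
        linarith
    · push Not at hbd
      obtain ⟨t, ht, h⟩ := hbd (-(Real.log (1 + cv (b (1/2))) - Real.log (-cv (b (1/2)))))
      have m0 : (1/2:ℝ) ∈ Ioo (0:ℝ) 1 := by constructor <;> norm_num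
      have mt : t ∈ Ioo (0:ℝ) 1 := ⟨by linarith [ht.1], ht.2⟩
      have k2 := log_mono (hv (1/2)).1 (hb.vmono m0 mt ht.1) (hv t).2
      refine ⟨t, mt, ?_⟩
      show 0 < cu (b t) + (Real.log (1 + cv (b t)) - Real.log (-cv (b t)))
      linarith
  -- the values near the past end
  have hlb : ∃ t ∈ Ioo (0:ℝ) 1, TT (b t) < 0 := by
    by_cases hbd : ∃ B, ∀ t ∈ Ioo (0 : ℝ) (1 / 2), B ≤ cu (b t)
    · obtain ⟨B, hB⟩ := hbd
      have hsub : ∀ t ∈ Ioo (1/2:ℝ) 1, 1 - t ∈ Ioo (0:ℝ) 1 :=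
        fun t ht => ⟨by linarith [ht.2], by linarith [ht.1]⟩
      have hsub' : ∀ t ∈ Ioo (1/2:ℝ) 1, 1 - t ∈ Ioo (0:ℝ) (1/2) :=
        fun t ht => ⟨by linarith [ht.2], by linarith [ht.1]⟩
      obtain ⟨z, hz, hzv⟩ := lim_abs (b := fun t => -b (1 - t))
        (b' := fun t => _root_.deriv b (1 - t)) (B := -B) (C := 1)
        (fun t ht => by
          have k1 : HasDerivAt (fun t : ℝ => 1 - t) (-1) t := (hasDerivAt_id t).const_sub 1
          have k2 := (HasDerivAt.scomp t (hb.hd (1 - t) (hsub t ht)) k1).neg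
          rw [neg_one_smul, neg_neg] at k2
          exact k2)
        (fun t ht => hb.pu _ (hsub t ht)) (fun t ht => hb.pv _ (hsub t ht))
        (fun t ht => (hb2 _ (hsub t ht)).1) (fun t ht => (hb2 _ (hsub t ht)).2)
        (fun t ht => neg_le_neg (hB _ (hsub' t ht)))
        (fun t _ => by
          have : cv (-b (1 - t)) = -cv (b (1 - t)) := rfl
          rw [this]
          linarith [(hv (1 - t)).1])
      have hmap : Tendsto (fun t : ℝ => 1 - t) (𝓝[>] 0) (𝓝[<] 1) := by
        have k1 : Tendsto (fun t : ℝ => 1 - t) (𝓝[>] 0) (𝓝 1) := by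
          have : Continuous fun t : ℝ => 1 - t := by fun_prop
          have h := this.tendsto 0
          rw [sub_zero] at h
          exact h.mono_left nhdsWithin_le_nhds
        refine tendsto_nhdsWithin_iff.2 ⟨k1, ?_⟩
        filter_upwards [self_mem_nhdsWithin] with t ht
        have : (0:ℝ) < t := ht
        show 1 - t < 1
        linarith
      have hz' : Tendsto b (𝓝[>] 0) (𝓝 (-z)) := by
        have k1 := (hz.comp hmap).neg
        refine k1.congr fun t => ?_
        show -(-b (1 - (1 - t))) = b t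
        rw [neg_neg]
        congr 1
        ring
      have hzt : Tendsto (fun t => cv (b t)) (𝓝[>] 0) (𝓝 (-cv z)) :=
        ((continuous_fst.comp continuous_snd).tendsto (-z)).comp hz'
      have hz0 : -cv z < 0 := by
        have k1 := hzv (3/4) ⟨by norm_num, by norm_num⟩
        have k2 : cv (-b (1 - 3 / 4)) = -cv (b (1 - 3 / 4)) := rfl
        have k3 := (hv (1 - 3 / 4)).2
        rw [k2] at k1
        linarith
      have hz1 : -1 ≤ -cv z := ge_of_tendsto hzt (Eventually.of_forall fun t => (hv t).1.le)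
      rcases lt_or_eq_of_le hz1 with h | h
      · exfalso
        have hz0 : -z ∈ Db 0 := ⟨h, by rw [Nat.cast_zero]; exact hz0⟩
        exact h0 (⟨-z, hz0⟩ : Pb 0) (tendsto_subtype_rng.2 hz')
      · rw [← h] at hzt
        set c := Real.log (-cv (b (1/2))) with hc
        set ε := Real.exp (c - cu (b (1/2))) with hε
        have hεp : 0 < ε := Real.exp_pos _
        have e1 : ∀ᶠ t in 𝓝[>] (0:ℝ), cv (b t) < -1 + ε :=
          hzt.eventually (gt_mem_nhds (by linarith))
        have e2 : Ioo (0:ℝ) (1/2) ∈ 𝓝[>] (0:ℝ) := Ioo_mem_nhdsGT (by norm_num)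
        obtain ⟨t, ht1, ht2⟩ := (e1.and e2).exists
        have m0 : (1/2:ℝ) ∈ Ioo (0:ℝ) 1 := by constructor <;> norm_num
        have mt : t ∈ Ioo (0:ℝ) 1 := ⟨ht2.1, by linarith [ht2.2]⟩
        refine ⟨t, mt, ?_⟩
        have k1 : cu (b t) < cu (b (1/2)) := hb.umono mt m0 ht2.2
        have k2 : cv (b t) < cv (b (1/2)) := hb.vmono mt m0 ht2.2
        have k3 : c < Real.log (-cv (b t)) :=
          Real.log_lt_log (by linarith [(hv (1/2)).2]) (by linarith)
        have k4 : Real.log (1 + cv (b t)) < Real.log ε :=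
          Real.log_lt_log (by linarith [(hv t).1]) (by linarith)
        rw [hε, Real.log_exp] at k4
        show cu (b t) + (Real.log (1 + cv (b t)) - Real.log (-cv (b t))) < 0
        linarith
    · push Not at hbd
      obtain ⟨t, ht, h⟩ := hbd (-(Real.log (1 + cv (b (1/2))) - Real.log (-cv (b (1/2)))))
      have m0 : (1/2:ℝ) ∈ Ioo (0:ℝ) 1 := by constructor <;> norm_num
      have mt : t ∈ Ioo (0:ℝ) 1 := ⟨ht.1, by linarith [ht.2]⟩
      have k2 := log_mono (hv t).1 (hb.vmono mt m0 ht.2) (hv (1/2)).2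
      refine ⟨t, mt, ?_⟩
      show cu (b t) + (Real.log (1 + cv (b t)) - Real.log (-cv (b t))) < 0
      linarith
  obtain ⟨t1, m1, k1⟩ := hub
  obtain ⟨t2, m2, k2⟩ := hlb
  have hpre : IsPreconnected (Ioo (0:ℝ) 1) := isPreconnected_Ioo
  obtain ⟨t, ht, h⟩ := hpre.intermediate_value m2 m1 cont ⟨k2.le, k1.le⟩
  refine ⟨t, ⟨ht, h⟩, ?_⟩
  rintro s ⟨hs, hs'⟩
  have hs'' : TT (b s) = 0 := hs'
  exact mono.injOn hs ht (hs''.trans h.symm)

end Vale.Agent.P354v.T
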