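import Vale.Agent.P354n.Defs

open scoped ContDiff
open MeasureTheory Set Filter Topology

namespace Vale.Agent.P354n

/-- The vector G x a b is the covariant derivative of b in the direction a, for the metric g. -/
def IsConn (g : R4 → R4 → R4 → ℝ) (G : R4 → R4 → R4 → R4) (x : R4) : Prop :=
  ∀ a b c, 2 * g x (G x a b) c =
    deriv (fun y => g y b c) x a + deriv (fun y => g y a c) x b - deriv (fun y => g y a b) x c

/-- The curvature of the metric g. -/
noncomputable def Riem (g : R4 → R4 → R4 → ℝ) (G : R4 → R4 → R4 → R4) (x a b c d : R4) : ℝ :=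
  deriv (fun y => g y (G y b c) d) x a - deriv (fun y => g y (G y a c) d) x b -
    g x (G x b c) (G x a d) + g x (G x a c) (G x b d)

/-- The metric of M solves the vacuum Einstein equations: its Ricci curvature, which is the
trace of the curvature over dual bases E, E', is zero. -/
def IsVacuum (M : Spc) : Prop :=
  ∀ e, ∃ G, ∀ y ∈ tgt e, IsConn (M.g e) G y ∧ ∃ E E' : Fin 4 → R4,
    (∀ i j, M.g e y (E i) (E' j) = if i = j then 1 else 0) ∧
    ∀ b c, ∑ i, Riem (M.g e) G y (E i) b c (E' i) = 0

/-- M is globally hyperbolic: it has a Cauchy hypersurface S, that is, every future timelike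
curve without end points meets S exactly once. -/
def IsGH (M : Spc) : Prop :=
  ∃ S : Set M.pt, ∀ a, IsFutureCurve M 0 (Ioo 0 1) a →
    (∀ x, ¬ Tendsto a (𝓝[<] 1) (𝓝 x) ∧ ¬ Tendsto a (𝓝[>] 0) (𝓝 x)) →
    ∃! t, t ∈ Ioo (0 : ℝ) 1 ∧ a t ∈ S

end Vale.Agent.P354n
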