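import Vale.Agent.P354.H251.DefsN

open scoped ContDiff
open MeasureTheory Set Filter Topology

namespace Vale.Agent.P354n

/-- The spacetime M with the opposite time orientation. -/
abbrev rev (M : Spc) : Spc := { M with X := fun e y => -M.X e y }

/-- M is inextendible: every isometric embedding of M onto an open part of a connected spacetime
N, whose metric has the regularity Reg, is onto. -/
def IsInext (Reg : (R4 → ℝ) → Set R4 → Prop) (M : Spc) : Prop :=
  ∀ (N : Spc) (ι : M.pt → N.pt), IsSpacetime Reg N → ConnectedSpace N.pt → IsOpenEmbedding ι →
    IsIsom ι → range ι = univ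

/-- M is a connected smooth globally hyperbolic vacuum spacetime, and no larger smooth spacetime
exists; in particular M is the maximal globally hyperbolic vacuum development of its data. -/
def IsMax (M : Spc) : Prop :=
  IsSpacetime IsSmooth M ∧ ConnectedSpace M.pt ∧ IsVacuum M ∧ IsGH M ∧ IsInext IsSmooth M

end Vale.Agent.P354n
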