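import Vale.Agent.P354.H251.DefsN2

open scoped ContDiff
open MeasureTheory Set Filter Topology

namespace Vale.Agent.P354n

/-- The function f is smooth on (-1,0), and f and v (1 + v) f(v)^2 are integrable there. -/
def IsData (f : ℝ → ℝ) : Prop :=
  ContDiffOn ℝ ∞ f (Ioo (-1) 0) ∧ IntegrableOn f (Ioo (-1) 0) ∧
    IntegrableOn (fun v => v * (1 + v) * f v ^ 2) (Ioo (-1) 0)

/-- The solution of phi'' = - f^2 with phi'(-1/2) = 0 and a constant phi(-1/2) >= 1, such that
phi >= 1 on (-1,0). -/
noncomputable def phi (f : ℝ → ℝ) (v : ℝ) : ℝ :=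
  1 + 2 * |∫ t in (-1 : ℝ)..0, t * (1 + t) * f t ^ 2| -
    ∫ x in (-(1 / 2) : ℝ)..v, ∫ t in (-(1 / 2) : ℝ)..x, f t ^ 2

/-- The coefficients A (for e = 1) and B (for e = -1) of the metric; they are constant for v < -1
and for v > 0. -/
noncomputable def coef (e : ℝ) (f : ℝ → ℝ) (v : ℝ) : ℝ :=
  2 * Real.exp (2 * ∫ t in (-1 : ℝ)..0, |f t|) * phi f (max (-1) (min v 0)) ^ 2 *
    Real.exp (2 * e * ∫ t in (-(1 / 2) : ℝ)..(max (-1) (min v 0)), f t / √(phi f t))

/-- The region -1 < v < n. -/
def Db (n : ℕ) : Set R4 := {x | -1 < cv x ∧ cv x < n}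

/-- The coordinates (u,v,x,y), if e = true, and (-u,-1-v,x,y), if e = false. -/
def ro (e : Bool) (x : R4) : R4 := bif e then x else (-x.1, -1 - x.2.1, x.2.2.1, x.2.2.2)

/-- The linear part of ro. -/
def rl (e : Bool) (x : R4) : R4 := bif e then x else (-x.1, -x.2.1, x.2.2.1, x.2.2.2)

/-- The metric -2 du dv + A dx^2 + B dy^2 with the coefficients A, B of f. -/
noncomputable def gg (f : ℝ → ℝ) (x a b : R4) : ℝ :=
  coef 1 f (cv x) * (c1 a * c1 b) + coef (-1) f (cv x) * (c2 a * c2 b) -
    (cu a * cv b + cv a * cu b)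

lemma ro_ro (e : Bool) (x : R4) : ro e (ro e x) = x := by
  cases e
  · ext <;> simp [ro]
  · rfl

lemma ro_mem (e : Bool) {x : R4} (hx : x ∈ Db 0) : ro e x ∈ Db 0 := by
  cases e
  · obtain ⟨h1, h2⟩ := hx
    have e1 : cv (ro false x) = -1 - cv x := rfl
    rw [Nat.cast_zero] at h2
    refine ⟨?_, ?_⟩
    · rw [e1]; linarith
    · rw [e1, Nat.cast_zero]; linarith
  · exact hx

lemma ro_cont (e : Bool) : Continuous (ro e) := by
  cases e
  · unfold ro; simp only [cond_false]; fun_prop
  · exact continuous_id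

lemma isOpen_Db (n : ℕ) : IsOpen (Db n) := by
  have h2 : Continuous cv := by unfold cv; fun_prop
  exact (isOpen_lt continuous_const h2).inter (isOpen_lt h2 continuous_const)

/-- A point of the region -1 < v < n. -/
noncomputable def pb (n : ℕ) : {x : R4 // x ∈ Db n} := ⟨(0, -1 / 2, 0, 0), by
  simp only [Db, cv, mem_ofPred_eq]
  have : (0:ℝ) ≤ n := Nat.cast_nonneg n
  constructor <;> linarith⟩

open Classical in
/-- The point with given coordinates. -/
noncomputable def mk (n : ℕ) (x : R4) : {x : R4 // x ∈ Db n} :=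
  if h : x ∈ Db n then ⟨x, h⟩ else pb n

lemma mk_val {n : ℕ} {x : R4} (h : x ∈ Db n) : (mk n x).1 = x := by
  rw [mk, dif_pos h]

lemma continuousOn_mk {n : ℕ} : ContinuousOn (mk n) (Db n) := by
  rw [continuousOn_iff_continuous_domRestrict]
  have : (Db n).domRestrict (mk n) = fun x : Db n => (x : {x : R4 // x ∈ Db n}) := by
    funext x
    exact Subtype.ext (mk_val x.2)
  rw [this]
  exact continuous_id

/-- The coordinates ro e as a chart on -1 < v < 0. -/
noncomputable def cht (e : Bool) : OpenPartialHomeomorph {x : R4 // x ∈ Db 0} R4 where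
  toFun p := ro e p.1
  invFun y := mk 0 (ro e y)
  source := univ
  target := Db 0
  map_source' p _ := ro_mem e p.2
  map_target' _ _ := mem_univ _
  left_inv' p _ := by rw [ro_ro]; exact Subtype.ext (mk_val p.2)
  right_inv' y hy := by rw [mk_val (ro_mem e hy), ro_ro]
  open_source := isOpen_univ
  open_target := isOpen_Db 0
  continuousOn_toFun := ((ro_cont e).comp continuous_subtype_val).continuousOn
  continuousOn_invFun := continuousOn_mk.comp (ro_cont e).continuousOn
    fun _ hy => ro_mem e hy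

/-- The plane wave of f: the region -1 < v < 0 with the metric gg and the future directed vector
field d_u + d_v, in the coordinates ro true and ro false. -/
noncomputable def wave (f : ℝ → ℝ) : Spc where
  pt := {x : R4 // x ∈ Db 0}
  Chart := Bool
  toE := cht
  cover p := ⟨true, mem_univ p⟩
  g := fun e y a b => gg f (ro e y) (rl e a) (rl e b)
  X := fun e _ => rl e (1, 1, 0, 0)

/-- E is a topological vector space of functions T x as above, on which the values T x v depend
continuously on x; some T x is not in L^p near v = 0, and some T y is not in L^p near v = -1. -/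
def IsDataSpace (p : ENNReal) {E : Type} [AddCommGroup E] [Module ℝ E] [TopologicalSpace E]
    (T : E →ₗ[ℝ] ℝ → ℝ) : Prop :=
  ContinuousAdd E ∧ ContinuousSMul ℝ E ∧ FirstCountableTopology E ∧ (∀ x, IsData (T x)) ∧
    (∀ v ∈ Ioo (-1 : ℝ) 0, Continuous fun x => T x v) ∧
    ∃ x y, ¬ InLp p (T x) (-(1 / 2)) ∧ ¬ InLp p (fun v => T y (-1 - v)) (-(1 / 2))

end Vale.Agent.P354n
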