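import Vale.Agent.P354.H251.SpG

set_option linter.unusedSectionVars false

open scoped ContDiff
open MeasureTheory Set Filter Topology

namespace Vale.Agent.P354v.G

open Vale.Agent.P354p
open Vale.Agent.P354p.Ex (LLe mono_lim)

variable [PG]

noncomputable def PA (v : ℝ) : ℝ := ∫ w in (0:ℝ)..v, 1 / AA w
noncomputable def PB (v : ℝ) : ℝ := ∫ w in (0:ℝ)..v, 1 / BB w

lemma iA_cont : Continuous fun w => 1 / AA w :=
  continuous_const.div AA_cont fun w => by have := (AA_bd w).1; linarith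

lemma iB_cont : Continuous fun w => 1 / BB w :=
  continuous_const.div BB_cont fun w => by have := (BB_bd w).1; linarith

lemma PA_deriv (v : ℝ) : HasDerivAt PA (1 / AA v) v :=
  (iA_cont.integral_hasStrictDerivAt 0 v).hasDerivAt

lemma PB_deriv (v : ℝ) : HasDerivAt PB (1 / BB v) v :=
  (iB_cont.integral_hasStrictDerivAt 0 v).hasDerivAt

lemma PA_c1 : ContDiff ℝ 1 PA := by
  rw [contDiff_one_iff_deriv]
  refine ⟨fun v => (PA_deriv v).differentiableAt, ?_⟩
  have : deriv PA = fun v => 1 / AA v := funext fun v => (PA_deriv v).deriv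
  rw [this]
  exact iA_cont

lemma PB_c1 : ContDiff ℝ 1 PB := by
  rw [contDiff_one_iff_deriv]
  refine ⟨fun v => (PB_deriv v).differentiableAt, ?_⟩
  have : deriv PB = fun v => 1 / BB v := funext fun v => (PB_deriv v).deriv
  rw [this]
  exact iB_cont

/-- primitives of functions between 0 and 1/2 -/
lemma P_diff {P p : ℝ → ℝ} (h : ∀ v, HasDerivAt P (p v) v) (h0 : ∀ v, 0 < p v ∧ p v ≤ 1 / 2)
    {v w : ℝ} (hvw : v < w) : 0 < P w - P v ∧ P w - P v ≤ (w - v) / 2 := by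
  obtain ⟨c, -, hc⟩ := exists_hasDerivAt_eq_slope P p hvw
    (fun x _ => (h x).continuousAt.continuousWithinAt) fun x _ => h x
  have h1 : 0 < w - v := by linarith
  rw [eq_div_iff h1.ne'] at hc
  obtain ⟨k1, k2⟩ := h0 c
  rw [← hc]
  constructor
  · exact mul_pos k1 h1
  · nlinarith

lemma PA_diff {v w : ℝ} (hvw : v < w) : 0 < PA w - PA v ∧ PA w - PA v ≤ (w - v) / 2 := by
  refine P_diff PA_deriv (fun v => ?_) hvw
  have h := (AA_bd v).1
  constructor
  · positivity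
  · exact one_div_le_one_div_of_le (by norm_num) h

lemma PB_diff {v w : ℝ} (hvw : v < w) : 0 < PB w - PB v ∧ PB w - PB v ≤ (w - v) / 2 := by
  refine P_diff PB_deriv (fun v => ?_) hvw
  have h := (BB_bd v).1
  constructor
  · positivity
  · exact one_div_le_one_div_of_le (by norm_num) h

/-- convexity of the form on vectors with the same v component -/
lemma gg_conv (x : R4) {a b : R4} (h : cv a = cv b) {m : ℝ} (h0 : 0 ≤ m) (h1 : m ≤ 1) :
    gg x (m • a + (1 - m) • b) (m • a + (1 - m) • b) ≤ m * gg x a a + (1 - m) * gg x b b := by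
  have hA := (AA_bd (cv x)).1
  have hB := (BB_bd (cv x)).1
  have e1 : cu (m • a + (1 - m) • b) = m * cu a + (1 - m) * cu b := rfl
  have e2 : cv (m • a + (1 - m) • b) = m * cv a + (1 - m) * cv b := rfl
  have e3 : c1 (m • a + (1 - m) • b) = m * c1 a + (1 - m) * c1 b := rfl
  have e4 : c2 (m • a + (1 - m) • b) = m * c2 a + (1 - m) * c2 b := rfl
  unfold gg
  rw [e1, e2, e3, e4, h]
  have k1 : 0 ≤ m * (1 - m) * (AA (cv x) * (c1 a - c1 b) ^ 2 + BB (cv x) * (c2 a - c2 b) ^ 2) := by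
    have : 0 ≤ 1 - m := by linarith
    positivity
  nlinarith

/-- data of a future curve -/
structure CD (b : ℝ → R4) : Prop where
  c1 : ContDiffOn ℝ 1 b (Ioo 0 1)
  mem : ∀ t, b t ∈ Db 0
  hd : ∀ t ∈ Ioo (0:ℝ) 1, HasDerivAt b (deriv b t) t
  neg : ∀ t ∈ Ioo (0:ℝ) 1, gg (b t) (deriv b t) (deriv b t) < 0
  pu : ∀ t ∈ Ioo (0:ℝ) 1, 0 < cu (deriv b t)
  pv : ∀ t ∈ Ioo (0:ℝ) 1, 0 < cv (deriv b t)

section
variable {b : ℝ → R4} (hb : CD b)
include hb

lemma CD.du {t : ℝ} (ht : t ∈ Ioo (0:ℝ) 1) :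
    HasDerivAt (fun t => cu (b t)) (cu (deriv b t)) t := (hb.hd t ht).fst
lemma CD.dv {t : ℝ} (ht : t ∈ Ioo (0:ℝ) 1) :
    HasDerivAt (fun t => cv (b t)) (cv (deriv b t)) t := (hb.hd t ht).snd.fst
lemma CD.d1 {t : ℝ} (ht : t ∈ Ioo (0:ℝ) 1) :
    HasDerivAt (fun t => P354p.c1 (b t)) (P354p.c1 (deriv b t)) t := (hb.hd t ht).snd.snd.fst
lemma CD.d2 {t : ℝ} (ht : t ∈ Ioo (0:ℝ) 1) :
    HasDerivAt (fun t => c2 (b t)) (c2 (deriv b t)) t := (hb.hd t ht).snd.snd.snd

lemma CD.umono : StrictMonoOn (fun t => cu (b t)) (Ioo 0 1) := by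
  apply strictMonoOn_of_deriv_pos (convex_Ioo _ _)
  · exact fun t ht => (hb.du ht).continuousAt.continuousWithinAt
  · rw [interior_Ioo]
    intro t ht
    rw [(hb.du ht).deriv]
    exact hb.pu t ht

lemma CD.vmono : StrictMonoOn (fun t => cv (b t)) (Ioo 0 1) := by
  apply strictMonoOn_of_deriv_pos (convex_Ioo _ _)
  · exact fun t ht => (hb.dv ht).continuousAt.continuousWithinAt
  · rw [interior_Ioo]
    intro t ht
    rw [(hb.dv ht).deriv]
    exact hb.pv t ht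

end

/-- the maximal energy -/
noncomputable def En (b : ℝ → R4) (τ t : ℝ) : ℝ :=
  2 * (cu (b t) - cu (b τ)) - (c1 (b t) - c1 (b τ)) ^ 2 / (PA (cv (b t)) - PA (cv (b τ))) -
    (c2 (b t) - c2 (b τ)) ^ 2 / (PB (cv (b t)) - PB (cv (b τ)))

lemma En_mono {b : ℝ → R4} (hb : CD b) {τ : ℝ} (hτ : τ ∈ Ioo (0:ℝ) 1) :
    MonotoneOn (En b τ) (Ioo τ 1) := by
  have hsub : ∀ t ∈ Ioo τ 1, t ∈ Ioo (0:ℝ) 1 := fun t ht => ⟨hτ.1.trans ht.1, ht.2⟩
  have hP : ∀ t ∈ Ioo τ 1, 0 < PA (cv (b t)) - PA (cv (b τ)) ∧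
      0 < PB (cv (b t)) - PB (cv (b τ)) := by
    intro t ht
    have h1 : cv (b τ) < cv (b t) := hb.vmono hτ (hsub t ht) ht.1
    exact ⟨(PA_diff h1).1, (PB_diff h1).1⟩
  have hd : ∀ t ∈ Ioo τ 1, HasDerivAt (En b τ) (2 * cu (deriv b t) -
      (2 * (c1 (b t) - c1 (b τ)) * c1 (deriv b t) * (PA (cv (b t)) - PA (cv (b τ))) -
        (c1 (b t) - c1 (b τ)) ^ 2 * (1 / AA (cv (b t)) * cv (deriv b t))) /
        (PA (cv (b t)) - PA (cv (b τ))) ^ 2 -
      (2 * (c2 (b t) - c2 (b τ)) * c2 (deriv b t) * (PB (cv (b t)) - PB (cv (b τ))) -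
        (c2 (b t) - c2 (b τ)) ^ 2 * (1 / BB (cv (b t)) * cv (deriv b t))) /
        (PB (cv (b t)) - PB (cv (b τ))) ^ 2) t := by
    intro t ht
    obtain ⟨h1, h2⟩ := hP t ht
    have ht' := hsub t ht
    have k1 := (hb.du ht').sub_const (cu (b τ))
    have k2 := (hb.d1 ht').sub_const (c1 (b τ))
    have k3 := (hb.d2 ht').sub_const (c2 (b τ))
    have k4 : HasDerivAt (fun t => PA (cv (b t)) - PA (cv (b τ)))
        (1 / AA (cv (b t)) * cv (deriv b t)) t :=
      (HasDerivAt.comp t (PA_deriv (cv (b t))) (hb.dv ht')).sub_const _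
    have k5 : HasDerivAt (fun t => PB (cv (b t)) - PB (cv (b τ)))
        (1 / BB (cv (b t)) * cv (deriv b t)) t :=
      (HasDerivAt.comp t (PB_deriv (cv (b t))) (hb.dv ht')).sub_const _
    have k6 := ((k1.const_mul 2).sub ((k2.pow 2).div k4 h1.ne')).sub ((k3.pow 2).div k5 h2.ne')
    refine k6.congr_deriv ?_
    simp only [Nat.cast_ofNat, Nat.add_one_sub_one, pow_one, Pi.pow_apply]
  apply monotoneOn_of_deriv_nonneg (convex_Ioo _ _)
  · exact fun t ht => (hd t ht).continuousAt.continuousWithinAt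
  · rw [interior_Ioo]
    exact fun t ht => (hd t ht).differentiableAt.differentiableWithinAt
  · rw [interior_Ioo]
    intro t ht
    rw [(hd t ht).deriv]
    obtain ⟨h1, h2⟩ := hP t ht
    have ht' := hsub t ht
    have hA := (AA_bd (cv (b t))).1
    have hB := (BB_bd (cv (b t))).1
    have hn := hb.neg t ht'
    have hv := hb.pv t ht'
    unfold gg at hn
    set A := AA (cv (b t))
    set B := BB (cv (b t))
    set p := PA (cv (b t)) - PA (cv (b τ))
    set q := PB (cv (b t)) - PB (cv (b τ))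
    set X := c1 (b t) - c1 (b τ)
    set Y := c2 (b t) - c2 (b τ)
    set x := c1 (deriv b t)
    set y := c2 (deriv b t)
    set w := cv (deriv b t)
    set u := cu (deriv b t)
    have hA0 : 0 < A := by linarith
    have hB0 : 0 < B := by linarith
    have e : 2 * u - (2 * X * x * p - X ^ 2 * (1 / A * w)) / p ^ 2 -
        (2 * Y * y * q - Y ^ 2 * (1 / B * w)) / q ^ 2 =
        (-(A * (x * x) + B * (y * y) - (u * w + w * u)) / w) +
        (A * x - X / p * w) ^ 2 / (A * w) + (B * y - Y / q * w) ^ 2 / (B * w) := by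
      field_simp
      ring
    rw [e]
    have k1 : 0 ≤ -(A * (x * x) + B * (y * y) - (u * w + w * u)) / w :=
      div_nonneg (by linarith) hv.le
    positivity

/-- the energy tends to infinity -/
lemma En_top {b : ℝ → R4} (hb : CD b) (hun : ∀ C, ∃ t ∈ Ioo (0:ℝ) 1, C < cu (b t)) {s : ℝ}
    (hs : s ∈ Ioo (0:ℝ) 1) (L : ℝ) : ∃ t ∈ Ioo s 1, 0 < En b s t ∧
      L < (cv (b t) - cv (b s)) * En b s t := by
  obtain ⟨t0, h0s, h01⟩ := exists_between hs.2
  obtain ⟨t1, h10, h11⟩ := exists_between h01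
  have m0 : t0 ∈ Ioo (0:ℝ) 1 := ⟨hs.1.trans h0s, h01⟩
  have m1 : t1 ∈ Ioo (0:ℝ) 1 := ⟨m0.1.trans h10, h11⟩
  have v01 : cv (b s) < cv (b t0) := hb.vmono hs m0 h0s
  have v12 : cv (b t0) < cv (b t1) := hb.vmono m0 m1 h10
  set P1 := PA (cv (b t0)) - PA (cv (b s)) with hP1
  set R1 := PB (cv (b t0)) - PB (cv (b s)) with hR1
  have p1 : 0 < P1 := (PA_diff v01).1
  have r1 : 0 < R1 := (PB_diff v01).1
  set δ := min P1 R1 with hδ
  have d0 : 0 < δ := lt_min p1 r1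
  set h1 := cv (b t1) - cv (b s) with hh1
  have h1p : 0 < h1 := by linarith
  set c0 := 2 * (cu (b t0) - cu (b s)) + (1 - δ) * En b t0 t1 -
    2 * ((c1 (b t0) - c1 (b s)) ^ 2 / P1) - 2 * ((c2 (b t0) - c2 (b s)) ^ 2 / R1) with hc0
  obtain ⟨t, ht, htu⟩ := hun (max (cu (b t1)) (cu (b t0) + ((|L| + 1) / h1 - c0) / (2 * δ)))
  have h1t : t1 < t := by
    by_contra hcon
    push Not at hcon
    have := hb.umono.monotoneOn ht m1 hcon
    have h2 := (le_max_left (cu (b t1)) _).trans_lt htu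
    linarith
  have h0t : t0 < t := h10.trans h1t
  have v2t : cv (b t1) < cv (b t) := hb.vmono m1 ht h1t
  have hE2 : En b t0 t1 ≤ En b t0 t := En_mono hb m0 ⟨h10, h11⟩ ⟨h0t, ht.2⟩ h1t.le
  set P2 := PA (cv (b t)) - PA (cv (b t0)) with hP2
  set R2 := PB (cv (b t)) - PB (cv (b t0)) with hR2
  have v0t : cv (b t0) < cv (b t) := v12.trans v2t
  have p2 : 0 < P2 := (PA_diff v0t).1
  have r2 : 0 < R2 := (PB_diff v0t).1
  have hvr : cv (b t) - cv (b s) ≤ 1 := by
    have k1 := (hb.mem t).2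
    have k2 := (hb.mem s).1
    simp only [Nat.cast_zero] at k1
    linarith
  have ps : P1 + P2 ≤ 1 / 2 := by
    have := (PA_diff (v01.trans v0t)).2
    have e : P1 + P2 = PA (cv (b t)) - PA (cv (b s)) := by rw [hP1, hP2]; ring
    rw [e]; linarith
  have rs : R1 + R2 ≤ 1 / 2 := by
    have := (PB_diff (v01.trans v0t)).2
    have e : R1 + R2 = PB (cv (b t)) - PB (cv (b s)) := by rw [hR1, hR2]; ring
    rw [e]; linarith
  have k1 := conc (X1 := c1 (b t0) - c1 (b s)) (X2 := c1 (b t) - c1 (b t0)) p1 p2 ps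
  have k2 := conc (X1 := c2 (b t0) - c2 (b s)) (X2 := c2 (b t) - c2 (b t0)) r1 r2 rs
  have e1 : En b s t = 2 * (cu (b t) - cu (b s)) -
      ((c1 (b t0) - c1 (b s)) + (c1 (b t) - c1 (b t0))) ^ 2 / (P1 + P2) -
      ((c2 (b t0) - c2 (b s)) + (c2 (b t) - c2 (b t0))) ^ 2 / (R1 + R2) := by
    unfold En
    rw [hP1, hP2, hR1, hR2]
    congr 2
    · congr 2
      · congr 1
        ring
      · ring
    · congr 1
      ring
    · ring
  have e2 : En b t0 t = 2 * (cu (b t) - cu (b t0)) - (c1 (b t) - c1 (b t0)) ^ 2 / P2 -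
      (c2 (b t) - c2 (b t0)) ^ 2 / R2 := rfl
  have q1 : 0 ≤ (c1 (b t) - c1 (b t0)) ^ 2 / P2 := by positivity
  have q2 : 0 ≤ (c2 (b t) - c2 (b t0)) ^ 2 / R2 := by positivity
  have l1 : (1 - P1) * ((c1 (b t) - c1 (b t0)) ^ 2 / P2) ≤
      (1 - δ) * ((c1 (b t) - c1 (b t0)) ^ 2 / P2) :=
    mul_le_mul_of_nonneg_right (by linarith [min_le_left P1 R1]) q1
  have l2 : (1 - R1) * ((c2 (b t) - c2 (b t0)) ^ 2 / R2) ≤
      (1 - δ) * ((c2 (b t) - c2 (b t0)) ^ 2 / R2) :=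
    mul_le_mul_of_nonneg_right (by linarith [min_le_right P1 R1]) q2
  have d1 : δ ≤ 1 := by linarith [min_le_left P1 R1]
  have l3 : (1 - δ) * En b t0 t1 ≤ (1 - δ) * En b t0 t :=
    mul_le_mul_of_nonneg_left hE2 (by linarith)
  have hlow : 2 * δ * (cu (b t) - cu (b t0)) + c0 ≤ En b s t := by
    rw [e1, hc0]
    have l4 : (1 - δ) * En b t0 t = (1 - δ) * (2 * (cu (b t) - cu (b t0))) -
      (1 - δ) * ((c1 (b t) - c1 (b t0)) ^ 2 / P2) -
      (1 - δ) * ((c2 (b t) - c2 (b t0)) ^ 2 / R2) := by rw [e2]; ring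
    nlinarith
  have hbig : (|L| + 1) / h1 < En b s t := by
    have h2 := (le_max_right (cu (b t1)) _).trans_lt htu
    have h3 : ((|L| + 1) / h1 - c0) / (2 * δ) < cu (b t) - cu (b t0) := by linarith
    rw [div_lt_iff₀ (by linarith)] at h3
    linarith
  have hp : 0 < (|L| + 1) / h1 := by positivity
  refine ⟨t, ⟨h0s.trans h0t, ht.2⟩, hp.trans hbig, ?_⟩
  have h5 : h1 ≤ cv (b t) - cv (b s) := by linarith
  have h6 : |L| + 1 < h1 * En b s t := by
    rw [div_lt_iff₀ h1p] at hbig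
    linarith
  have h7 : h1 * En b s t ≤ (cv (b t) - cv (b s)) * En b s t :=
    mul_le_mul_of_nonneg_right h5 (hp.trans hbig).le
  have h8 := le_abs_self L
  linarith

end Vale.Agent.P354v.G
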