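import Vale.Agent.P354.Bdl.B5

set_option linter.unusedSectionVars false

open scoped ContDiff
open MeasureTheory Set Filter Topology

namespace Vale.Agent.P354v

open Vale.Agent.P354p.Ex (ll hh hh_deriv hh_cont hh_bd ll_nonneg ll_anti ll_meas log_nonpos' cl
  LLe Prm cl_mem cl_cont)

variable {a : ℝ}

lemma ll_smooth {s : ℝ} (hs : 0 < s) : ContDiffAt ℝ ∞ (ll a) s := by
  have h1 : ContDiffAt ℝ ∞ (fun s : ℝ => s ^ (-a)) s := Real.contDiffAt_rpow_const_of_ne hs.ne'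
  have h2 : ContDiffAt ℝ ∞ (fun s : ℝ => 1 - Real.log s) s :=
    contDiffAt_const.sub (Real.contDiffAt_log.2 hs.ne')
  exact h1.mul h2

lemma ll_cont {s : ℝ} (hs : 0 < s) : ContinuousAt (ll a) s := (ll_smooth hs).continuousAt

lemma ll_deriv {s : ℝ} (hs : 0 < s) :
    HasDerivAt (ll a) (-(s ^ (-a - 1) * (1 + a * (1 - Real.log s)))) s := by
  have h1 : HasDerivAt (fun s : ℝ => s ^ (-a)) (-a * s ^ (-a - 1)) s :=
    Real.hasDerivAt_rpow_const (Or.inl hs.ne')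
  have h2 : HasDerivAt (fun s : ℝ => 1 - Real.log s) (-s⁻¹) s :=
    (Real.hasDerivAt_log hs.ne').const_sub 1
  have h3 := h1.mul h2
  refine h3.congr_deriv ?_
  have e : s ^ (-a) = s ^ (-a - 1) * s := by
    rw [Real.rpow_sub_one hs.ne']
    field_simp
  rw [e]
  field_simp
  ring

lemma half_bd {s : ℝ} (hs : 0 < s) (hs1 : s ≤ 1) : s ^ (1 / 2 : ℝ) * (1 - Real.log s) ^ 2 ≤ 16 := by
  set y := s ^ (1 / 4 : ℝ) with hy
  have hy0 : 0 < y := Real.rpow_pos_of_pos hs _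
  have e1 : s ^ (1 / 2 : ℝ) = y ^ 2 := by
    rw [hy, ← Real.rpow_natCast, ← Real.rpow_mul hs.le]; norm_num
  have e2 : Real.log s = 4 * Real.log y := by
    rw [hy, Real.log_rpow hs]; ring
  have h1 : 1 - y⁻¹ ≤ Real.log y := Real.one_sub_inv_le_log_of_pos hy0
  have h2 : Real.log s ≤ 0 := Real.log_nonpos hs.le hs1
  have h3 : y * (1 - Real.log s) ≤ 4 := by
    have h4 : y * (1 - y⁻¹) ≤ y * Real.log y := mul_le_mul_of_nonneg_left h1 hy0.le
    have h5 : y * (1 - y⁻¹) = y - 1 := by field_simp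
    rw [e2]
    nlinarith
  have h6 : 0 ≤ y * (1 - Real.log s) := mul_nonneg hy0.le (by linarith)
  calc s ^ (1 / 2 : ℝ) * (1 - Real.log s) ^ 2 = (y * (1 - Real.log s)) ^ 2 := by rw [e1]; ring
    _ ≤ 4 ^ 2 := pow_le_pow_left₀ h6 h3 2
    _ = 16 := by norm_num

/-- the derivative of phi -/
noncomputable def qq (a s : ℝ) : ℝ := ∫ x in s..1, (ll a x) ^ 2

lemma ll2_int {s t : ℝ} (hs : 0 < s) (ht : 0 < t) :
    IntervalIntegrable (fun x => (ll a x) ^ 2) volume s t := by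
  apply ContinuousOn.intervalIntegrable
  intro x hx
  have hx0 : 0 < x := lt_of_lt_of_le (lt_min hs ht) hx.1
  exact ((ll_cont hx0).pow 2).continuousWithinAt

lemma qq_deriv {s : ℝ} (hs : 0 < s) : HasDerivAt (qq a) (-(ll a s) ^ 2) s := by
  have h := intervalIntegral.integral_hasDerivAt_left (ll2_int (a := a) hs one_pos)
    (((ll_meas.pow_const 2).stronglyMeasurable).stronglyMeasurableAtFilter) ((ll_cont hs).pow 2)
  exact h

lemma qq_nonneg {s : ℝ} (hs1 : s ≤ 1) : 0 ≤ qq a s :=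
  intervalIntegral.integral_nonneg hs1 fun _ _ => sq_nonneg _

lemma qq_one : qq a 1 = 0 := intervalIntegral.integral_same

lemma qq_le (ha0 : 0 ≤ a) (ha : a ≤ 1 / 2) {s : ℝ} (hs : 0 < s) (hs1 : s ≤ 1) :
    qq a s ≤ 16 * ll a s := by
  have hd : ∀ x ∈ Icc s 1, HasDerivAt (fun x => 16 * ll a x - qq a x)
      (16 * (-(x ^ (-a - 1) * (1 + a * (1 - Real.log x)))) - -(ll a x) ^ 2) x := by
    intro x hx
    have hx0 : 0 < x := lt_of_lt_of_le hs hx.1
    exact ((ll_deriv hx0).const_mul 16).sub (qq_deriv hx0)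
  have hanti : AntitoneOn (fun x => 16 * ll a x - qq a x) (Icc s 1) := by
    apply antitoneOn_of_deriv_nonpos (convex_Icc _ _)
    · exact fun x hx => (hd x hx).continuousAt.continuousWithinAt
    · intro x hx
      rw [interior_Icc] at hx
      exact (hd x (Ioo_subset_Icc_self hx)).differentiableAt.differentiableWithinAt
    · intro x hx
      rw [interior_Icc] at hx
      rw [(hd x (Ioo_subset_Icc_self hx)).deriv]
      have hx0 : 0 < x := lt_trans hs hx.1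
      have hx1 : x ≤ 1 := hx.2.le
      have hl := log_nonpos' hx1 hx0
      have h1 := half_bd hx0 hx1
      have h2 : x ^ (1 - a) ≤ x ^ (1 / 2 : ℝ) :=
        Real.rpow_le_rpow_of_exponent_ge hx0 hx1 (by linarith)
      have h3 : (ll a x) ^ 2 = x ^ (-a - 1) * (x ^ (1 - a) * (1 - Real.log x) ^ 2) := by
        unfold ll
        have e : x ^ (-a) * x ^ (-a) = x ^ (-a - 1) * x ^ (1 - a) := by
          rw [← Real.rpow_add hx0, ← Real.rpow_add hx0]; congr 1; ring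
        calc (x ^ (-a) * (1 - Real.log x)) ^ 2 = (x ^ (-a) * x ^ (-a)) * (1 - Real.log x) ^ 2 := by
              ring
          _ = _ := by rw [e]; ring
      have h4 : 0 < x ^ (-a - 1) := Real.rpow_pos_of_pos hx0 _
      have h5 : x ^ (1 - a) * (1 - Real.log x) ^ 2 ≤ 16 :=
        (mul_le_mul_of_nonneg_right h2 (sq_nonneg _)).trans h1
      rw [h3]
      have h6 := mul_le_mul_of_nonneg_left h5 h4.le
      have h7 : 0 ≤ x ^ (-a - 1) * (a * (1 - Real.log x)) :=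
        mul_nonneg h4.le (mul_nonneg ha0 (by linarith))
      nlinarith
  have h := hanti (left_mem_Icc.2 hs1) (right_mem_Icc.2 hs1) hs1
  simp only [qq_one, sub_zero] at h
  have h1 := ll_nonneg (a := a) one_pos le_rfl
  linarith

lemma ll_ii (ha : a ≤ 1 / 2) : IntervalIntegrable (ll a) volume 0 1 := by
  apply intervalIntegral.intervalIntegrable_deriv_of_nonneg (g := hh a)
  · exact (hh_cont ha).continuousOn
  · intro x hx
    rw [min_eq_left zero_le_one] at hx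
    exact hh_deriv ha hx.1
  · intro x hx
    rw [min_eq_left zero_le_one, max_eq_right zero_le_one] at hx
    exact ll_nonneg hx.1 hx.2.le

lemma ll_integral (ha0 : 0 ≤ a) (ha : a ≤ 1 / 2) {s : ℝ} (hs : 0 ≤ s) (hs1 : s ≤ 1) :
    ∫ x in (0:ℝ)..s, ll a x ≤ 10 := by
  have h1 : ∫ x in (0:ℝ)..s, ll a x = hh a s - hh a 0 := by
    apply intervalIntegral.integral_eq_sub_of_hasDerivAt_of_le hs (hh_cont ha).continuousOn
    · exact fun x hx => hh_deriv ha hx.1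
    · exact (ll_ii ha).mono_set (by
        rw [uIcc_of_le hs, uIcc_of_le zero_le_one]; exact Icc_subset_Icc_right hs1)
  rw [h1]
  have h2 := (hh_bd ha0 ha hs hs1).2
  have h3 := (hh_bd ha0 ha le_rfl zero_le_one).1
  linarith

/-- integrability of functions dominated by `ll` -/
lemma dom_ii (ha : a ≤ 1 / 2) {C : ℝ} {f : ℝ → ℝ} (hf : ContinuousOn f (Ioc 0 1))
    (hb : ∀ x ∈ Ioc (0:ℝ) 1, |f x| ≤ C * ll a x) : IntervalIntegrable f volume 0 1 := by
  refine ((ll_ii ha).const_mul C).mono_fun' ?_ ?_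
  · rw [uIoc_of_le zero_le_one]
    exact hf.aestronglyMeasurable measurableSet_Ioc
  · rw [uIoc_of_le zero_le_one, EventuallyLE, ae_restrict_iff' measurableSet_Ioc]
    exact Eventually.of_forall fun x hx => hb x hx

lemma ii_sub {f : ℝ → ℝ} (h : IntervalIntegrable f volume 0 1) {s : ℝ} (hs : 0 ≤ s) (hs1 : s ≤ 1) :
    IntervalIntegrable f volume 0 s :=
  h.mono_set (by rw [uIcc_of_le hs, uIcc_of_le zero_le_one]; exact Icc_subset_Icc_right hs1)

lemma qq_cont {s : ℝ} (hs : 0 < s) : ContinuousAt (qq a) s := (qq_deriv hs).continuousAt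

lemma qq_ii (ha0 : 0 ≤ a) (ha : a ≤ 1 / 2) : IntervalIntegrable (qq a) volume 0 1 :=
  dom_ii ha (C := 16) (fun x hx => (qq_cont hx.1).continuousWithinAt)
    (fun x hx => by rw [abs_of_nonneg (qq_nonneg hx.2)]; exact qq_le ha0 ha hx.1 hx.2)

/-- the area radius -/
noncomputable def ph (a s : ℝ) : ℝ := 1 + ∫ x in (0:ℝ)..s, qq a x

/-- primitives -/
lemma prim_deriv {f : ℝ → ℝ} (h : IntervalIntegrable f volume 0 1) (hc : ContinuousOn f (Ioo 0 1))
    {s : ℝ} (hs : 0 < s) (hs1 : s < 1) : HasDerivAt (fun s => ∫ x in (0:ℝ)..s, f x) (f s) s := by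
  have hmem : Ioo (0:ℝ) 1 ∈ 𝓝 s := Ioo_mem_nhds hs hs1
  refine intervalIntegral.integral_hasDerivAt_right (ii_sub h hs.le hs1.le) ?_
    (hc.continuousAt hmem)
  exact (hc.stronglyMeasurableAtFilter isOpen_Ioo s ⟨hs, hs1⟩)

lemma prim_cont {f : ℝ → ℝ} (h : IntervalIntegrable f volume 0 1) :
    ContinuousOn (fun s => ∫ x in (0:ℝ)..s, f x) (Icc 0 1) := by
  have h1 : IntegrableOn f (uIcc (0:ℝ) 1) := by
    rw [uIcc_of_le zero_le_one, integrableOn_Icc_iff_integrableOn_Ioc]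
    rwa [intervalIntegrable_iff_integrableOn_Ioc_of_le zero_le_one] at h
  have h2 := intervalIntegral.continuousOn_primitive_interval h1
  rwa [uIcc_of_le zero_le_one] at h2

lemma ph_deriv (ha0 : 0 ≤ a) (ha : a ≤ 1 / 2) {s : ℝ} (hs : 0 < s) (hs1 : s < 1) :
    HasDerivAt (ph a) (qq a s) s :=
  (prim_deriv (qq_ii ha0 ha) (fun _ hx => (qq_cont hx.1).continuousWithinAt) hs hs1).const_add 1

lemma ph_cont (ha0 : 0 ≤ a) (ha : a ≤ 1 / 2) : ContinuousOn (ph a) (Icc 0 1) :=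
  continuousOn_const.add (prim_cont (qq_ii ha0 ha))

lemma ph_bd (ha0 : 0 ≤ a) (ha : a ≤ 1 / 2) {s : ℝ} (hs : 0 ≤ s) (hs1 : s ≤ 1) :
    1 ≤ ph a s ∧ ph a s ≤ 161 := by
  have h1 : 0 ≤ ∫ x in (0:ℝ)..s, qq a x :=
    intervalIntegral.integral_nonneg hs fun x hx => qq_nonneg (hx.2.trans hs1)
  have h2 : ∫ x in (0:ℝ)..s, qq a x ≤ ∫ x in (0:ℝ)..s, 16 * ll a x := by
    apply intervalIntegral.integral_mono_on_of_le_Ioo hs (ii_sub (qq_ii ha0 ha) hs hs1)
      ((ii_sub (ll_ii ha) hs hs1).const_mul 16)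
    exact fun x hx => qq_le ha0 ha hx.1 (hx.2.le.trans hs1)
  rw [intervalIntegral.integral_const_mul] at h2
  have h3 := ll_integral ha0 ha hs hs1
  unfold ph
  constructor <;> linarith

/-- the derivative of V -/
noncomputable def yy (a s : ℝ) : ℝ := ll a s / √(ph a s)

lemma sqrt_bd (ha0 : 0 ≤ a) (ha : a ≤ 1 / 2) {s : ℝ} (hs : 0 ≤ s) (hs1 : s ≤ 1) :
    1 ≤ √(ph a s) ∧ √(ph a s) ≤ 13 := by
  obtain ⟨h1, h2⟩ := ph_bd ha0 ha hs hs1
  constructor
  · rw [Real.one_le_sqrt]; exact h1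
  · rw [Real.sqrt_le_left (by norm_num)]; linarith

lemma yy_bd (ha0 : 0 ≤ a) (ha : a ≤ 1 / 2) {s : ℝ} (hs : 0 < s) (hs1 : s ≤ 1) :
    ll a s / 13 ≤ yy a s ∧ yy a s ≤ ll a s := by
  obtain ⟨h1, h2⟩ := sqrt_bd ha0 ha hs.le hs1
  have h3 := ll_nonneg (a := a) hs hs1
  unfold yy
  constructor
  · gcongr
  · exact div_le_self h3 h1

lemma yy_nonneg (ha0 : 0 ≤ a) (ha : a ≤ 1 / 2) {s : ℝ} (hs : 0 < s) (hs1 : s ≤ 1) :
    0 ≤ yy a s := by
  have h3 := ll_nonneg (a := a) hs hs1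
  have := (yy_bd ha0 ha hs hs1).1
  linarith

lemma yy_contOn (ha0 : 0 ≤ a) (ha : a ≤ 1 / 2) : ContinuousOn (yy a) (Ioc 0 1) := by
  intro x hx
  have h1 : ContinuousWithinAt (ph a) (Ioc 0 1) x :=
    (ph_cont ha0 ha x ⟨hx.1.le, hx.2⟩).mono Ioc_subset_Icc_self
  have h2 := (sqrt_bd ha0 ha hx.1.le hx.2).1
  exact ((ll_cont hx.1).continuousWithinAt).div (h1.sqrt) (by linarith)

lemma yy_ii (ha0 : 0 ≤ a) (ha : a ≤ 1 / 2) : IntervalIntegrable (yy a) volume 0 1 :=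
  dom_ii ha (C := 1) (yy_contOn ha0 ha) (fun x hx => by
    rw [abs_of_nonneg (yy_nonneg ha0 ha hx.1 hx.2), one_mul]
    exact (yy_bd ha0 ha hx.1 hx.2).2)

noncomputable def vv (a s : ℝ) : ℝ := ∫ x in (0:ℝ)..s, yy a x

lemma vv_deriv (ha0 : 0 ≤ a) (ha : a ≤ 1 / 2) {s : ℝ} (hs : 0 < s) (hs1 : s < 1) :
    HasDerivAt (vv a) (yy a s) s :=
  prim_deriv (yy_ii ha0 ha) ((yy_contOn ha0 ha).mono Ioo_subset_Ioc_self) hs hs1

lemma vv_cont (ha0 : 0 ≤ a) (ha : a ≤ 1 / 2) : ContinuousOn (vv a) (Icc 0 1) :=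
  prim_cont (yy_ii ha0 ha)

lemma vv_bd (ha0 : 0 ≤ a) (ha : a ≤ 1 / 2) {s : ℝ} (hs : 0 ≤ s) (hs1 : s ≤ 1) :
    0 ≤ vv a s ∧ vv a s ≤ 10 := by
  have h1 : 0 ≤ ∫ x in (0:ℝ)..s, yy a x := by
    have := intervalIntegral.integral_mono_on_of_le_Ioo hs
      (intervalIntegrable_const (c := (0:ℝ)))
      (ii_sub (yy_ii ha0 ha) hs hs1) (fun x hx => yy_nonneg ha0 ha hx.1 (hx.2.le.trans hs1))
    simpa using this
  have h2 : ∫ x in (0:ℝ)..s, yy a x ≤ ∫ x in (0:ℝ)..s, ll a x := by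
    apply intervalIntegral.integral_mono_on_of_le_Ioo hs (ii_sub (yy_ii ha0 ha) hs hs1)
      (ii_sub (ll_ii ha) hs hs1)
    exact fun x hx => (yy_bd ha0 ha hx.1 (hx.2.le.trans hs1)).2
  have h3 := ll_integral ha0 ha hs hs1
  unfold vv
  exact ⟨h1, h2.trans h3⟩

/-- the metric coefficients, e = 1 or e = -1 -/
noncomputable def ff (a e s : ℝ) : ℝ := 2 * Real.exp 20 * (ph a s) ^ 2 * Real.exp (2 * e * vv a s)

/-- half of the logarithmic derivative -/
noncomputable def xx (a e s : ℝ) : ℝ := qq a s / ph a s + e * yy a s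

noncomputable def KK : ℝ := 2 * Real.exp 20 * 161 ^ 2 * Real.exp 20

lemma KK_ge : 2 ≤ KK := by
  unfold KK
  have h1 : 1 ≤ Real.exp 20 := Real.one_le_exp (by norm_num)
  nlinarith

lemma ff_bd (ha0 : 0 ≤ a) (ha : a ≤ 1 / 2) {e : ℝ} (he : |e| ≤ 1) {s : ℝ} (hs : 0 ≤ s)
    (hs1 : s ≤ 1) : 2 ≤ ff a e s ∧ ff a e s ≤ KK := by
  obtain ⟨h1, h2⟩ := ph_bd ha0 ha hs hs1
  obtain ⟨h3, h4⟩ := vv_bd ha0 ha hs hs1
  obtain ⟨h5, h6⟩ := abs_le.1 he
  have hp : 1 ≤ (ph a s) ^ 2 := by nlinarith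
  have hp' : (ph a s) ^ 2 ≤ 161 ^ 2 := by nlinarith
  have hl : -20 ≤ 2 * e * vv a s := by nlinarith
  have hu : 2 * e * vv a s ≤ 20 := by nlinarith
  have hE := Real.exp_pos 20
  constructor
  · have k1 : Real.exp (-20) ≤ Real.exp (2 * e * vv a s) := Real.exp_le_exp.2 hl
    have k2 : Real.exp 20 * Real.exp (-20) = 1 := by rw [← Real.exp_add]; norm_num
    unfold ff
    calc (2:ℝ) = 2 * (Real.exp 20 * Real.exp (-20)) * 1 := by rw [k2]; ring
      _ ≤ 2 * (Real.exp 20 * Real.exp (2 * e * vv a s)) * (ph a s) ^ 2 := by gcongr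
      _ = _ := by ring
  · have k1 : Real.exp (2 * e * vv a s) ≤ Real.exp 20 := Real.exp_le_exp.2 hu
    unfold ff KK
    gcongr

lemma ff_cont (ha0 : 0 ≤ a) (ha : a ≤ 1 / 2) (e : ℝ) : ContinuousOn (ff a e) (Icc 0 1) := by
  have h1 := ph_cont ha0 ha
  have h2 := vv_cont ha0 ha
  unfold ff
  exact (continuousOn_const.mul (h1.pow 2)).mul
    (Real.continuous_exp.comp_continuousOn (continuousOn_const.mul h2))

lemma ff_deriv (ha0 : 0 ≤ a) (ha : a ≤ 1 / 2) (e : ℝ) {s : ℝ} (hs : 0 < s) (hs1 : s < 1) :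
    HasDerivAt (ff a e) (2 * ff a e s * xx a e s) s := by
  have h1 := ph_deriv ha0 ha hs hs1
  have h2 := vv_deriv ha0 ha hs hs1
  have h3 := (ph_bd ha0 ha hs.le hs1.le).1
  have h4 := ((h1.pow 2).const_mul (2 * Real.exp 20)).mul ((h2.const_mul (2 * e)).exp)
  refine h4.congr_deriv ?_
  unfold ff xx
  simp only [Nat.cast_ofNat, Nat.add_one_sub_one, pow_one, Pi.pow_apply]
  field_simp

/-- derivative of yy -/
lemma yy_deriv (ha0 : 0 ≤ a) (ha : a ≤ 1 / 2) {s : ℝ} (hs : 0 < s) (hs1 : s < 1) :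
    ∃ z, HasDerivAt (yy a) z s := by
  have h3 := (sqrt_bd ha0 ha hs.le hs1.le).1
  have h4 := (ph_bd ha0 ha hs.le hs1.le).1
  have h5 := (ph_deriv ha0 ha hs hs1).sqrt (by linarith)
  exact ⟨_, (ll_deriv hs).div h5 (by linarith)⟩

lemma xx_deriv (ha0 : 0 ≤ a) (ha : a ≤ 1 / 2) (e : ℝ) {s z : ℝ} (hs : 0 < s) (hs1 : s < 1)
    (hz : HasDerivAt (yy a) z s) :
    HasDerivAt (xx a e) (-(yy a s) ^ 2 - (qq a s / ph a s) ^ 2 + e * z) s := by
  have h3 := (ph_bd ha0 ha hs.le hs1.le).1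
  have h4 := ((qq_deriv (a := a) hs).div (ph_deriv ha0 ha hs hs1) (by linarith)).add
    (hz.const_mul e)
  refine h4.congr_deriv ?_
  have h5 : √(ph a s) ^ 2 = ph a s := Real.sq_sqrt (by linarith)
  unfold yy
  rw [div_pow, h5]
  field_simp

lemma smooth_prim {f g : ℝ → ℝ} (hg : ContDiffOn ℝ ∞ g (Ioo 0 1))
    (h : ∀ s, 0 < s → s < 1 → HasDerivAt f (g s) s) : ContDiffOn ℝ ∞ f (Ioo 0 1) := by
  rw [contDiffOn_infty_iff_deriv_of_isOpen isOpen_Ioo]
  refine ⟨fun s hs => (h s hs.1 hs.2).differentiableAt.differentiableWithinAt, ?_⟩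
  exact hg.congr fun s hs => (h s hs.1 hs.2).deriv

lemma ff_smooth (ha0 : 0 ≤ a) (ha : a ≤ 1 / 2) (e : ℝ) : ContDiffOn ℝ ∞ (ff a e) (Ioo 0 1) := by
  have hl : ContDiffOn ℝ ∞ (ll a) (Ioo 0 1) := fun s hs => (ll_smooth hs.1).contDiffWithinAt
  have hq : ContDiffOn ℝ ∞ (qq a) (Ioo 0 1) := smooth_prim (hl.pow 2).neg
    fun s hs _ => qq_deriv hs
  have hp : ContDiffOn ℝ ∞ (ph a) (Ioo 0 1) := smooth_prim hq fun s hs hs1 => ph_deriv ha0 ha hs hs1
  have hy : ContDiffOn ℝ ∞ (yy a) (Ioo 0 1) := by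
    refine hl.div (hp.sqrt ?_) ?_
    · intro s hs
      have := (ph_bd ha0 ha hs.1.le hs.2.le).1
      linarith
    · intro s hs
      have := (sqrt_bd ha0 ha hs.1.le hs.2.le).1
      linarith
  have hv : ContDiffOn ℝ ∞ (vv a) (Ioo 0 1) := smooth_prim hy fun s hs hs1 => vv_deriv ha0 ha hs hs1
  unfold ff
  exact (contDiffOn_const.mul (hp.pow 2)).mul (contDiffOn_const.mul hv).exp

/-- the coefficient as a function of v -/
noncomputable def FF (a e v : ℝ) : ℝ := ff a e (cl 0 (-v))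

/-- its derivative -/
noncomputable def DD (a e v : ℝ) : ℝ := deriv (FF a e) v

lemma FF_cont (ha0 : 0 ≤ a) (ha : a ≤ 1 / 2) (e : ℝ) : Continuous (FF a e) :=
  (ff_cont ha0 ha e).comp_continuous (cl_cont.comp continuous_neg) fun v => cl_mem zero_le_one

lemma FF_bd (ha0 : 0 ≤ a) (ha : a ≤ 1 / 2) {e : ℝ} (he : |e| ≤ 1) (v : ℝ) :
    2 ≤ FF a e v ∧ FF a e v ≤ KK := by
  have h := cl_mem (e := 0) (s := -v) zero_le_one
  exact ff_bd ha0 ha he h.1 h.2

lemma FF_in (e : ℝ) {v : ℝ} (h1 : -1 < v) (h2 : v < 0) : FF a e v = ff a e (-v) := by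
  unfold FF
  rw [cl, min_eq_left (by linarith), max_eq_right (by linarith)]

lemma FF_deriv_in (ha0 : 0 ≤ a) (ha : a ≤ 1 / 2) (e : ℝ) {v : ℝ} (h1 : -1 < v) (h2 : v < 0) :
    HasDerivAt (FF a e) (-(2 * ff a e (-v) * xx a e (-v))) v := by
  have k1 := ff_deriv ha0 ha e (show 0 < -v by linarith) (show -v < 1 by linarith)
  have k2 : HasDerivAt (fun v : ℝ => -v) (-1) v := (hasDerivAt_id v).neg
  have k3 := HasDerivAt.comp v k1 k2
  rw [mul_neg, mul_one] at k3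
  refine k3.congr_of_eventuallyEq ?_
  filter_upwards [Ioo_mem_nhds h1 h2] with w hw
  exact FF_in e hw.1 hw.2

lemma FF_deriv_out {e v : ℝ} (h : v < -1 ∨ 0 < v) : HasDerivAt (FF a e) 0 v := by
  rcases h with h | h
  · refine (hasDerivAt_const v (ff a e 1)).congr_of_eventuallyEq ?_
    filter_upwards [gt_mem_nhds h] with w hw
    unfold FF
    rw [cl, min_eq_right (by linarith), max_eq_right (by linarith)]
  · refine (hasDerivAt_const v (ff a e 0)).congr_of_eventuallyEq ?_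
    filter_upwards [lt_mem_nhds h] with w hw
    unfold FF
    rw [cl, max_eq_left]
    exact (min_le_left _ _).trans (by linarith)

lemma FF_hd (ha0 : 0 ≤ a) (ha : a ≤ 1 / 2) (e : ℝ) {v : ℝ} (h1 : v ≠ -1) (h2 : v ≠ 0) :
    HasDerivAt (FF a e) (DD a e v) v := by
  have : ∃ d, HasDerivAt (FF a e) d v := by
    rcases lt_or_gt_of_ne h1 with h | h
    · exact ⟨_, FF_deriv_out (Or.inl h)⟩
    · rcases lt_or_gt_of_ne h2 with h' | h'
      · exact ⟨_, FF_deriv_in ha0 ha e h h'⟩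
      · exact ⟨_, FF_deriv_out (Or.inr h')⟩
  obtain ⟨d, hd⟩ := this
  exact hd.differentiableAt.hasDerivAt

lemma DD_in (ha0 : 0 ≤ a) (ha : a ≤ 1 / 2) (e : ℝ) {v : ℝ} (h1 : -1 < v) (h2 : v < 0) :
    DD a e v = -(2 * ff a e (-v) * xx a e (-v)) := (FF_deriv_in ha0 ha e h1 h2).deriv

lemma DD_meas (e : ℝ) : Measurable (DD a e) := measurable_deriv _

lemma LLe_in {v : ℝ} (h1 : -1 < v) (h2 : v < 0) : LLe a 0 v = ll a (-v) := by
  unfold LLe
  rw [if_pos ⟨h1, by linarith⟩]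

lemma DD_le (ha0 : 0 ≤ a) (ha : a ≤ 1 / 2) {e : ℝ} (he : |e| ≤ 1) {v : ℝ} (h1 : v ≠ -1)
    (h2 : v ≠ 0) : |DD a e v| ≤ 34 * KK * LLe a 0 v := by
  have hK := KK_ge
  by_cases h : -1 < v ∧ v < 0
  · have hs0 : 0 < -v := by linarith [h.2]
    have hs1 : -v ≤ 1 := by linarith [h.1]
    rw [DD_in ha0 ha e h.1 h.2, LLe_in h.1 h.2, abs_neg, abs_mul, abs_mul,
      abs_of_pos (by norm_num : (0:ℝ) < 2)]
    obtain ⟨k1, k2⟩ := ff_bd ha0 ha he hs0.le hs1
    have k3 : |ff a e (-v)| ≤ KK := by rw [abs_of_nonneg (by linarith)]; exact k2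
    have k4 : |xx a e (-v)| ≤ 17 * ll a (-v) := by
      have l1 := qq_nonneg (a := a) hs1
      have l2 := qq_le ha0 ha hs0 hs1
      have l3 := (ph_bd ha0 ha hs0.le hs1).1
      have l4 := yy_nonneg ha0 ha hs0 hs1
      have l5 := (yy_bd ha0 ha hs0 hs1).2
      unfold xx
      refine (abs_add_le _ _).trans ?_
      have l6 : |qq a (-v) / ph a (-v)| ≤ 16 * ll a (-v) := by
        rw [abs_of_nonneg (div_nonneg l1 (by linarith))]
        exact (div_le_self l1 l3).trans l2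
      have l7 : |e * yy a (-v)| ≤ 1 * ll a (-v) := by
        rw [abs_mul, abs_of_nonneg l4]
        exact mul_le_mul he l5 l4 zero_le_one
      linarith
    have k5 := ll_nonneg (a := a) hs0 hs1
    calc 2 * |ff a e (-v)| * |xx a e (-v)| ≤ 2 * KK * (17 * ll a (-v)) := by gcongr
      _ = _ := by ring
  · have h0 : v < -1 ∨ 0 < v := by
      by_contra hcon
      push Not at hcon
      exact h ⟨lt_of_le_of_ne hcon.1 (Ne.symm h1), lt_of_le_of_ne hcon.2 h2⟩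
    have : DD a e v = 0 := (FF_deriv_out h0).deriv
    rw [this, abs_zero]
    have := Vale.Agent.P354p.Ex.LLe_nonneg (a := a) le_rfl v
    positivity

lemma DD_lower (ha0 : 0 ≤ a) (ha : a ≤ 1 / 2) {v : ℝ} (h1 : -1 < v) (h2 : v < 0) :
    LLe a 0 v / 4 ≤ -DD a 1 v := by
  have hs0 : 0 < -v := by linarith
  have hs1 : -v ≤ 1 := by linarith
  rw [DD_in ha0 ha 1 h1 h2, LLe_in h1 h2, neg_neg]
  have k1 := (ff_bd (e := 1) ha0 ha (by simp) hs0.le hs1).1
  have l1 := qq_nonneg (a := a) hs1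
  have l3 := (ph_bd ha0 ha hs0.le hs1).1
  have l5 := (yy_bd ha0 ha hs0 hs1).1
  have l6 : 0 ≤ qq a (-v) / ph a (-v) := div_nonneg l1 (by linarith)
  have k5 := ll_nonneg (a := a) hs0 hs1
  have l7 : ll a (-v) / 13 ≤ xx a 1 (-v) := by unfold xx; linarith
  have l8 : 0 ≤ xx a 1 (-v) := by linarith
  have l9 : 2 * 2 * xx a 1 (-v) ≤ 2 * ff a 1 (-v) * xx a 1 (-v) := by gcongr
  linarith

end Vale.Agent.P354v
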