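import Vale.Agent.P354.H251.Wk

set_option linter.unusedSectionVars false

open scoped ContDiff
open MeasureTheory Set Filter Topology

namespace Vale.Agent.P354v.T

open Vale.Agent.P354p.Ex (ll hh hh_deriv hh_cont hh_bd ll_nonneg ll_anti ll_meas log_nonpos' cl
  LLe cl_mem cl_cont)
open Vale.Agent.P354v

variable {a : ℝ}

/-- the square root of ll(s)^2 + ll(1-s)^2 -/
noncomputable def ps (a s : ℝ) : ℝ := √((ll a s) ^ 2 + (ll a (1 - s)) ^ 2)

/-- the derivative of phi -/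
noncomputable def q2 (a s : ℝ) : ℝ := qq a s - qq a (1 - s)

/-- phi -/
noncomputable def p2 (a s : ℝ) : ℝ := ph a s + ph a (1 - s) - ph a 1

lemma ll_one {s : ℝ} (ha0 : 0 ≤ a) (hs : 0 < s) (hs1 : s ≤ 1) : 1 ≤ ll a s := by
  have h1 := log_nonpos' hs1 hs
  have h2 : 1 ≤ s ^ (-a) := Real.one_le_rpow_of_pos_of_le_one_of_nonpos hs hs1 (by linarith)
  unfold ll
  nlinarith

lemma refl_deriv {f : ℝ → ℝ} {f' s : ℝ} (h : HasDerivAt f f' (1 - s)) :
    HasDerivAt (fun s => f (1 - s)) (-f') s := by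
  have h1 : HasDerivAt (fun s : ℝ => 1 - s) (-1) s := (hasDerivAt_id s).const_sub 1
  have h2 := HasDerivAt.comp s h h1
  rw [mul_neg, mul_one] at h2
  exact h2

lemma q2_deriv {s : ℝ} (hs : 0 < s) (hs1 : s < 1) : HasDerivAt (q2 a) (-(ps a s) ^ 2) s := by
  have h1 := (qq_deriv (a := a) hs).sub (refl_deriv (qq_deriv (a := a) (show 0 < 1 - s by linarith)))
  refine h1.congr_deriv ?_
  unfold ps
  rw [Real.sq_sqrt (by positivity)]
  ring

lemma p2_deriv (ha0 : 0 ≤ a) (ha : a ≤ 1 / 2) {s : ℝ} (hs : 0 < s) (hs1 : s < 1) :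
    HasDerivAt (p2 a) (q2 a s) s := by
  have h1 := ((ph_deriv ha0 ha hs hs1).add (refl_deriv (ph_deriv ha0 ha
    (show 0 < 1 - s by linarith) (show 1 - s < 1 by linarith)))).sub_const (ph a 1)
  exact h1

lemma p2_cont (ha0 : 0 ≤ a) (ha : a ≤ 1 / 2) : ContinuousOn (p2 a) (Icc 0 1) := by
  have h1 := ph_cont ha0 ha
  have h2 : ContinuousOn (fun s => ph a (1 - s)) (Icc 0 1) :=
    h1.comp (by fun_prop) fun s hs => ⟨by linarith [hs.2], by linarith [hs.1]⟩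
  exact (h1.add h2).sub continuousOn_const

lemma qq_anti {s t : ℝ} (hs : 0 < s) (hst : s ≤ t) : qq a t ≤ qq a s := by
  have hd : ∀ x ∈ Icc s t, HasDerivAt (qq a) (-(ll a x) ^ 2) x := fun x hx =>
    qq_deriv (lt_of_lt_of_le hs hx.1)
  have hanti : AntitoneOn (qq a) (Icc s t) := by
    apply antitoneOn_of_deriv_nonpos (convex_Icc _ _)
    · exact fun x hx => (hd x hx).continuousAt.continuousWithinAt
    · intro x hx
      rw [interior_Icc] at hx
      exact (hd x (Ioo_subset_Icc_self hx)).differentiableAt.differentiableWithinAt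
    · intro x hx
      rw [interior_Icc] at hx
      rw [(hd x (Ioo_subset_Icc_self hx)).deriv]
      have := sq_nonneg (ll a x)
      linarith
  exact hanti (left_mem_Icc.2 hst) (right_mem_Icc.2 hst) hst

lemma q2_nonneg {s : ℝ} (hs : 0 < s) (hs1 : s ≤ 1 / 2) : 0 ≤ q2 a s := by
  have := qq_anti (a := a) hs (show s ≤ 1 - s by linarith)
  unfold q2
  linarith

lemma q2_nonpos {s : ℝ} (hs : 1 / 2 ≤ s) (hs1 : s < 1) : q2 a s ≤ 0 := by
  have := qq_anti (a := a) (show 0 < 1 - s by linarith) (show 1 - s ≤ s by linarith)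
  unfold q2
  linarith

lemma ph_zero : ph a 0 = 1 := by unfold ph; simp

lemma p2_refl (s : ℝ) : p2 a (1 - s) = p2 a s := by
  unfold p2
  rw [sub_sub_cancel]
  ring

lemma p2_bd (ha0 : 0 ≤ a) (ha : a ≤ 1 / 2) {s : ℝ} (hs : 0 ≤ s) (hs1 : s ≤ 1) :
    1 ≤ p2 a s ∧ p2 a s ≤ 321 := by
  constructor
  · have key : ∀ s, 0 ≤ s → s ≤ 1 / 2 → 1 ≤ p2 a s := by
      intro s hs hs1
      have hmono : MonotoneOn (p2 a) (Icc 0 (1 / 2)) := by
        apply monotoneOn_of_deriv_nonneg (convex_Icc _ _)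
        · exact (p2_cont ha0 ha).mono (Icc_subset_Icc_right (by norm_num))
        · intro x hx
          rw [interior_Icc] at hx
          exact (p2_deriv ha0 ha hx.1 (by linarith [hx.2])).differentiableAt.differentiableWithinAt
        · intro x hx
          rw [interior_Icc] at hx
          rw [(p2_deriv ha0 ha hx.1 (by linarith [hx.2])).deriv]
          exact q2_nonneg hx.1 hx.2.le
      have h := hmono ⟨le_rfl, by norm_num⟩ ⟨hs, hs1⟩ hs
      have h0 : p2 a 0 = 1 := by unfold p2; rw [ph_zero, sub_zero]; ring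
      linarith
    rcases le_total s (1 / 2) with h | h
    · exact key s hs h
    · rw [← p2_refl]
      exact key (1 - s) (by linarith) (by linarith)
  · have h1 := (ph_bd ha0 ha hs hs1).2
    have h2 := (ph_bd ha0 ha (show 0 ≤ 1 - s by linarith) (show 1 - s ≤ 1 by linarith)).2
    have h3 := (ph_bd ha0 ha zero_le_one le_rfl).1
    unfold p2
    linarith

lemma ps_bd {s : ℝ} (hs : 0 < s) (hs1 : s < 1) : ll a s ≤ ps a s ∧ ll a (1 - s) ≤ ps a s ∧
    ps a s ≤ ll a s + ll a (1 - s) := by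
  have h1 := ll_nonneg (a := a) hs hs1.le
  have h2 := ll_nonneg (a := a) (show 0 < 1 - s by linarith) (show 1 - s ≤ 1 by linarith)
  unfold ps
  refine ⟨?_, ?_, ?_⟩
  · apply Real.le_sqrt_of_sq_le
    nlinarith
  · apply Real.le_sqrt_of_sq_le
    nlinarith
  · rw [Real.sqrt_le_left (by linarith)]
    nlinarith

/-- the derivative of V -/
noncomputable def y2 (a s : ℝ) : ℝ := ps a s / √(p2 a s)

lemma sqrt_bd2 (ha0 : 0 ≤ a) (ha : a ≤ 1 / 2) {s : ℝ} (hs : 0 ≤ s) (hs1 : s ≤ 1) :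
    1 ≤ √(p2 a s) ∧ √(p2 a s) ≤ 18 := by
  obtain ⟨h1, h2⟩ := p2_bd ha0 ha hs hs1
  constructor
  · rw [Real.one_le_sqrt]; exact h1
  · rw [Real.sqrt_le_left (by norm_num)]; linarith

lemma y2_bd (ha0 : 0 ≤ a) (ha : a ≤ 1 / 2) {s : ℝ} (hs : 0 < s) (hs1 : s < 1) :
    ps a s / 18 ≤ y2 a s ∧ y2 a s ≤ ps a s ∧ 0 ≤ y2 a s := by
  obtain ⟨h1, h2⟩ := sqrt_bd2 ha0 ha hs.le hs1.le
  have h3 : 0 ≤ ps a s := Real.sqrt_nonneg _
  unfold y2
  refine ⟨?_, ?_, ?_⟩
  · gcongr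
  · exact div_le_self h3 h1
  · positivity

lemma ps_smooth {s : ℝ} (ha0 : 0 ≤ a) (hs : 0 < s) (hs1 : s < 1) : ContDiffAt ℝ ∞ (ps a) s := by
  have h1 : ContDiffAt ℝ ∞ (fun s => ll a (1 - s)) s :=
    ContDiffAt.comp s (ll_smooth (show 0 < 1 - s by linarith)) (contDiffAt_const.sub contDiffAt_id)
  have h2 := ((ll_smooth (a := a) hs).pow 2).add (h1.pow 2)
  have h3 := ll_one ha0 hs hs1.le
  refine h2.sqrt ?_
  have : 0 < (ll a s) ^ 2 + (ll a (1 - s)) ^ 2 := by positivity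
  exact this.ne'

lemma y2_contOn (ha0 : 0 ≤ a) (ha : a ≤ 1 / 2) : ContinuousOn (y2 a) (Ioo 0 1) := by
  intro x hx
  have h1 : ContinuousWithinAt (p2 a) (Ioo 0 1) x :=
    (p2_cont ha0 ha x ⟨hx.1.le, hx.2.le⟩).mono Ioo_subset_Icc_self
  have h2 := (sqrt_bd2 ha0 ha hx.1.le hx.2.le).1
  exact ((ps_smooth ha0 hx.1 hx.2).continuousAt.continuousWithinAt).div (h1.sqrt) (by linarith)

lemma refl_ii (ha : a ≤ 1 / 2) : IntervalIntegrable (fun s => ll a (1 - s)) volume 0 1 := by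
  have h := (ll_ii ha).comp_sub_left 1
  simp only [sub_zero, sub_self] at h
  exact h.symm

lemma y2_ii (ha0 : 0 ≤ a) (ha : a ≤ 1 / 2) : IntervalIntegrable (y2 a) volume 0 1 := by
  have h0 : IntervalIntegrable (fun s => ll a s + ll a (1 - s)) volume 0 1 :=
    (ll_ii ha).add (refl_ii ha)
  rw [intervalIntegrable_iff_integrableOn_Ioo_of_le zero_le_one] at h0 ⊢
  refine Integrable.mono' h0 ((y2_contOn ha0 ha).aestronglyMeasurable measurableSet_Ioo) ?_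
  rw [ae_restrict_iff' measurableSet_Ioo]
  refine Eventually.of_forall fun x hx => ?_
  obtain ⟨-, h1, h2⟩ := y2_bd ha0 ha hx.1 hx.2
  rw [Real.norm_eq_abs, abs_of_nonneg h2]
  exact h1.trans (ps_bd hx.1 hx.2).2.2

noncomputable def v2 (a s : ℝ) : ℝ := ∫ x in (0:ℝ)..s, y2 a x

lemma v2_deriv (ha0 : 0 ≤ a) (ha : a ≤ 1 / 2) {s : ℝ} (hs : 0 < s) (hs1 : s < 1) :
    HasDerivAt (v2 a) (y2 a s) s := prim_deriv (y2_ii ha0 ha) (y2_contOn ha0 ha) hs hs1

lemma v2_cont (ha0 : 0 ≤ a) (ha : a ≤ 1 / 2) : ContinuousOn (v2 a) (Icc 0 1) :=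
  prim_cont (y2_ii ha0 ha)

lemma v2_bd (ha0 : 0 ≤ a) (ha : a ≤ 1 / 2) {s : ℝ} (hs : 0 ≤ s) (hs1 : s ≤ 1) :
    0 ≤ v2 a s ∧ v2 a s ≤ 20 := by
  have hm : MonotoneOn (v2 a) (Icc 0 1) := by
    apply monotoneOn_of_deriv_nonneg (convex_Icc _ _) (v2_cont ha0 ha)
    · intro x hx
      rw [interior_Icc] at hx
      exact (v2_deriv ha0 ha hx.1 hx.2).differentiableAt.differentiableWithinAt
    · intro x hx
      rw [interior_Icc] at hx
      rw [(v2_deriv ha0 ha hx.1 hx.2).deriv]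
      exact (y2_bd ha0 ha hx.1 hx.2).2.2
  have h0 : v2 a 0 = 0 := by unfold v2; simp
  have h1 := hm ⟨le_rfl, zero_le_one⟩ ⟨hs, hs1⟩ hs
  have h2 := hm ⟨hs, hs1⟩ ⟨zero_le_one, le_rfl⟩ hs1
  have h3 : v2 a 1 ≤ ∫ x in (0:ℝ)..1, (ll a x + ll a (1 - x)) := by
    apply intervalIntegral.integral_mono_on_of_le_Ioo zero_le_one (y2_ii ha0 ha)
      ((ll_ii ha).add (refl_ii ha))
    intro x hx
    exact (y2_bd ha0 ha hx.1 hx.2).2.1.trans (ps_bd hx.1 hx.2).2.2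
  have h4 := ll_integral ha0 ha zero_le_one le_rfl
  have h5 : ∫ x in (0:ℝ)..1, ll a (1 - x) = ∫ x in (0:ℝ)..1, ll a x := by
    rw [intervalIntegral.integral_comp_sub_left (fun x => ll a x) 1]
    simp
  rw [intervalIntegral.integral_add (ll_ii ha) (refl_ii ha), h5] at h3
  constructor <;> linarith

/-- the metric coefficients, e = 1 or e = -1 -/
noncomputable def f2 (a e s : ℝ) : ℝ := 2 * Real.exp 40 * (p2 a s) ^ 2 * Real.exp (2 * e * v2 a s)

/-- half of the logarithmic derivative -/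
noncomputable def x2 (a e s : ℝ) : ℝ := q2 a s / p2 a s + e * y2 a s

noncomputable def K2 : ℝ := 2 * Real.exp 40 * 321 ^ 2 * Real.exp 40

lemma K2_ge : 2 ≤ K2 := by
  unfold K2
  have h1 : 1 ≤ Real.exp 40 := Real.one_le_exp (by norm_num)
  nlinarith

lemma f2_bd (ha0 : 0 ≤ a) (ha : a ≤ 1 / 2) {e : ℝ} (he : |e| ≤ 1) {s : ℝ} (hs : 0 ≤ s)
    (hs1 : s ≤ 1) : 2 ≤ f2 a e s ∧ f2 a e s ≤ K2 := by
  obtain ⟨h1, h2⟩ := p2_bd ha0 ha hs hs1
  obtain ⟨h3, h4⟩ := v2_bd ha0 ha hs hs1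
  obtain ⟨h5, h6⟩ := abs_le.1 he
  have hp : 1 ≤ (p2 a s) ^ 2 := by nlinarith
  have hp' : (p2 a s) ^ 2 ≤ 321 ^ 2 := by nlinarith
  have hl : -40 ≤ 2 * e * v2 a s := by nlinarith
  have hu : 2 * e * v2 a s ≤ 40 := by nlinarith
  have hE := Real.exp_pos 40
  constructor
  · have k1 : Real.exp (-40) ≤ Real.exp (2 * e * v2 a s) := Real.exp_le_exp.2 hl
    have k2 : Real.exp 40 * Real.exp (-40) = 1 := by rw [← Real.exp_add]; norm_num
    unfold f2
    calc (2:ℝ) = 2 * (Real.exp 40 * Real.exp (-40)) * 1 := by rw [k2]; ring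
      _ ≤ 2 * (Real.exp 40 * Real.exp (2 * e * v2 a s)) * (p2 a s) ^ 2 := by gcongr
      _ = _ := by ring
  · have k1 : Real.exp (2 * e * v2 a s) ≤ Real.exp 40 := Real.exp_le_exp.2 hu
    unfold f2 K2
    gcongr

lemma f2_cont (ha0 : 0 ≤ a) (ha : a ≤ 1 / 2) (e : ℝ) : ContinuousOn (f2 a e) (Icc 0 1) := by
  have h1 := p2_cont ha0 ha
  have h2 := v2_cont ha0 ha
  unfold f2
  exact (continuousOn_const.mul (h1.pow 2)).mul
    (Real.continuous_exp.comp_continuousOn (continuousOn_const.mul h2))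

lemma f2_deriv (ha0 : 0 ≤ a) (ha : a ≤ 1 / 2) (e : ℝ) {s : ℝ} (hs : 0 < s) (hs1 : s < 1) :
    HasDerivAt (f2 a e) (2 * f2 a e s * x2 a e s) s := by
  have h1 := p2_deriv ha0 ha hs hs1
  have h2 := v2_deriv ha0 ha hs hs1
  have h3 := (p2_bd ha0 ha hs.le hs1.le).1
  have h4 := ((h1.pow 2).const_mul (2 * Real.exp 40)).mul ((h2.const_mul (2 * e)).exp)
  refine h4.congr_deriv ?_
  unfold f2 x2
  simp only [Nat.cast_ofNat, Nat.add_one_sub_one, pow_one, Pi.pow_apply]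
  field_simp

/-- derivative of y2 -/
lemma y2_deriv (ha0 : 0 ≤ a) (ha : a ≤ 1 / 2) {s : ℝ} (hs : 0 < s) (hs1 : s < 1) :
    ∃ z, HasDerivAt (y2 a) z s := by
  have h3 := (sqrt_bd2 ha0 ha hs.le hs1.le).1
  have h4 := (p2_bd ha0 ha hs.le hs1.le).1
  have h5 := (p2_deriv ha0 ha hs hs1).sqrt (by linarith)
  have h6 := ((ps_smooth ha0 hs hs1).differentiableAt (by simp)).hasDerivAt
  exact ⟨_, h6.div h5 (by linarith)⟩

lemma x2_deriv (ha0 : 0 ≤ a) (ha : a ≤ 1 / 2) (e : ℝ) {s z : ℝ} (hs : 0 < s) (hs1 : s < 1)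
    (hz : HasDerivAt (y2 a) z s) :
    HasDerivAt (x2 a e) (-(y2 a s) ^ 2 - (q2 a s / p2 a s) ^ 2 + e * z) s := by
  have h3 := (p2_bd ha0 ha hs.le hs1.le).1
  have h4 := ((q2_deriv (a := a) hs hs1).div (p2_deriv ha0 ha hs hs1) (by linarith)).add
    (hz.const_mul e)
  refine h4.congr_deriv ?_
  have h5 : √(p2 a s) ^ 2 = p2 a s := Real.sq_sqrt (by linarith)
  unfold y2
  rw [div_pow, h5]
  field_simp

lemma f2_smooth (ha0 : 0 ≤ a) (ha : a ≤ 1 / 2) (e : ℝ) : ContDiffOn ℝ ∞ (f2 a e) (Ioo 0 1) := by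
  have hl : ContDiffOn ℝ ∞ (ps a) (Ioo 0 1) := fun s hs =>
    (ps_smooth ha0 hs.1 hs.2).contDiffWithinAt
  have hq : ContDiffOn ℝ ∞ (q2 a) (Ioo 0 1) := smooth_prim (hl.pow 2).neg
    fun s hs hs1 => q2_deriv hs hs1
  have hp : ContDiffOn ℝ ∞ (p2 a) (Ioo 0 1) := smooth_prim hq fun s hs hs1 => p2_deriv ha0 ha hs hs1
  have hy : ContDiffOn ℝ ∞ (y2 a) (Ioo 0 1) := by
    refine hl.div (hp.sqrt ?_) ?_
    · intro s hs
      have := (p2_bd ha0 ha hs.1.le hs.2.le).1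
      linarith
    · intro s hs
      have := (sqrt_bd2 ha0 ha hs.1.le hs.2.le).1
      linarith
  have hv : ContDiffOn ℝ ∞ (v2 a) (Ioo 0 1) := smooth_prim hy fun s hs hs1 => v2_deriv ha0 ha hs hs1
  unfold f2
  exact (contDiffOn_const.mul (hp.pow 2)).mul (contDiffOn_const.mul hv).exp

/-- the coefficient as a function of v -/
noncomputable def F2 (a e v : ℝ) : ℝ := f2 a e (cl 0 (-v))

/-- the weight -/
noncomputable def WW (a v : ℝ) : ℝ := LLe a 0 v + LLe a 0 (-1 - v)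

lemma F2_cont (ha0 : 0 ≤ a) (ha : a ≤ 1 / 2) (e : ℝ) : Continuous (F2 a e) :=
  (f2_cont ha0 ha e).comp_continuous (cl_cont.comp continuous_neg) fun _ => cl_mem zero_le_one

lemma F2_bd (ha0 : 0 ≤ a) (ha : a ≤ 1 / 2) {e : ℝ} (he : |e| ≤ 1) (v : ℝ) :
    2 ≤ F2 a e v ∧ F2 a e v ≤ K2 := by
  have h := cl_mem (e := 0) (s := -v) zero_le_one
  exact f2_bd ha0 ha he h.1 h.2

lemma F2_in (e : ℝ) {v : ℝ} (h1 : -1 < v) (h2 : v < 0) : F2 a e v = f2 a e (-v) := by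
  unfold F2
  rw [cl, min_eq_left (by linarith), max_eq_right (by linarith)]

lemma F2_deriv_in (ha0 : 0 ≤ a) (ha : a ≤ 1 / 2) (e : ℝ) {v : ℝ} (h1 : -1 < v) (h2 : v < 0) :
    HasDerivAt (F2 a e) (-(2 * f2 a e (-v) * x2 a e (-v))) v := by
  have k1 := f2_deriv ha0 ha e (show 0 < -v by linarith) (show -v < 1 by linarith)
  have k2 : HasDerivAt (fun v : ℝ => -v) (-1) v := (hasDerivAt_id v).neg
  have k3 := HasDerivAt.comp v k1 k2
  rw [mul_neg, mul_one] at k3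
  refine k3.congr_of_eventuallyEq ?_
  filter_upwards [Ioo_mem_nhds h1 h2] with w hw
  exact F2_in e hw.1 hw.2

lemma F2_deriv_out {e v : ℝ} (h : v < -1 ∨ 0 < v) : HasDerivAt (F2 a e) 0 v := by
  rcases h with h | h
  · refine (hasDerivAt_const v (f2 a e 1)).congr_of_eventuallyEq ?_
    filter_upwards [gt_mem_nhds h] with w hw
    unfold F2
    rw [cl, min_eq_right (by linarith), max_eq_right (by linarith)]
  · refine (hasDerivAt_const v (f2 a e 0)).congr_of_eventuallyEq ?_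
    filter_upwards [lt_mem_nhds h] with w hw
    unfold F2
    rw [cl, max_eq_left]
    exact (min_le_left _ _).trans (by linarith)

lemma F2_hd (ha0 : 0 ≤ a) (ha : a ≤ 1 / 2) (e : ℝ) {v : ℝ} (h1 : v ≠ -1) (h2 : v ≠ 0) :
    DifferentiableAt ℝ (F2 a e) v := by
  rcases lt_or_gt_of_ne h1 with h | h
  · exact (F2_deriv_out (Or.inl h)).differentiableAt
  · rcases lt_or_gt_of_ne h2 with h' | h'
    · exact (F2_deriv_in ha0 ha e h h').differentiableAt
    · exact (F2_deriv_out (Or.inr h')).differentiableAt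

lemma WW_in {v : ℝ} (h1 : -1 < v) (h2 : v < 0) : WW a v = ll a (-v) + ll a (1 - -v) := by
  unfold WW
  rw [LLe_in h1 h2, LLe_in (show -1 < -1 - v by linarith) (show -1 - v < 0 by linarith)]
  congr 2
  ring

lemma WW_nonneg (v : ℝ) : 0 ≤ WW a v := by
  have h1 := Vale.Agent.P354p.Ex.LLe_nonneg (a := a) le_rfl v
  have h2 := Vale.Agent.P354p.Ex.LLe_nonneg (a := a) le_rfl (-1 - v)
  unfold WW
  linarith

lemma WW_refl (v : ℝ) : WW a (-1 - v) = WW a v := by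
  unfold WW
  rw [show -1 - (-1 - v) = v by ring]
  ring

lemma D2_le (ha0 : 0 ≤ a) (ha : a ≤ 1 / 2) {e : ℝ} (he : |e| ≤ 1) {v : ℝ} (h1 : v ≠ -1)
    (h2 : v ≠ 0) : |deriv (F2 a e) v| ≤ 34 * K2 * WW a v := by
  have hK := K2_ge
  by_cases h : -1 < v ∧ v < 0
  · have hs0 : 0 < -v := by linarith [h.2]
    have hs1 : -v < 1 := by linarith [h.1]
    rw [(F2_deriv_in ha0 ha e h.1 h.2).deriv, WW_in h.1 h.2, abs_neg, abs_mul, abs_mul,
      abs_of_pos (by norm_num : (0:ℝ) < 2)]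
    obtain ⟨k1, k2⟩ := f2_bd ha0 ha he hs0.le hs1.le
    have k3 : |f2 a e (-v)| ≤ K2 := by rw [abs_of_nonneg (by linarith)]; exact k2
    have g1 := ll_nonneg (a := a) hs0 hs1.le
    have g2 := ll_nonneg (a := a) (show 0 < 1 - -v by linarith) (show 1 - -v ≤ 1 by linarith)
    have k4 : |x2 a e (-v)| ≤ 17 * (ll a (-v) + ll a (1 - -v)) := by
      have l1 := qq_nonneg (a := a) hs1.le
      have l1' := qq_nonneg (a := a) (show 1 - -v ≤ 1 by linarith)
      have l2 := qq_le ha0 ha hs0 hs1.le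
      have l2' := qq_le ha0 ha (show 0 < 1 - -v by linarith) (show 1 - -v ≤ 1 by linarith)
      have l3 := (p2_bd ha0 ha hs0.le hs1.le).1
      obtain ⟨-, l5, l4⟩ := y2_bd ha0 ha hs0 hs1
      have l5' := l5.trans (ps_bd hs0 hs1).2.2
      unfold x2
      refine (abs_add_le _ _).trans ?_
      have l6 : |q2 a (-v) / p2 a (-v)| ≤ 16 * (ll a (-v) + ll a (1 - -v)) := by
        rw [abs_div, abs_of_nonneg (show 0 ≤ p2 a (-v) by linarith)]
        refine (div_le_self (abs_nonneg _) l3).trans ?_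
        unfold q2
        rw [abs_le]
        constructor <;> linarith
      have l7 : |e * y2 a (-v)| ≤ 1 * (ll a (-v) + ll a (1 - -v)) := by
        rw [abs_mul, abs_of_nonneg l4]
        exact mul_le_mul he l5' l4 zero_le_one
      linarith
    calc 2 * |f2 a e (-v)| * |x2 a e (-v)| ≤ 2 * K2 * (17 * (ll a (-v) + ll a (1 - -v))) := by
          gcongr
      _ = _ := by ring
  · have h0 : v < -1 ∨ 0 < v := by
      by_contra hcon
      push Not at hcon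
      exact h ⟨lt_of_le_of_ne hcon.1 (Ne.symm h1), lt_of_le_of_ne hcon.2 h2⟩
    have : deriv (F2 a e) v = 0 := (F2_deriv_out h0).deriv
    rw [this, abs_zero]
    have := WW_nonneg (a := a) v
    positivity

/-- lower bound near v = 0 -/
lemma D2_low0 (ha0 : 0 ≤ a) (ha : a ≤ 1 / 2) {v : ℝ} (h1 : -(1 / 2) < v) (h2 : v < 0) :
    LLe a 0 v / 5 ≤ -deriv (F2 a 1) v := by
  have hs0 : 0 < -v := by linarith
  have hs1 : -v < 1 := by linarith
  rw [(F2_deriv_in ha0 ha 1 (by linarith) h2).deriv, LLe_in (by linarith) h2, neg_neg]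
  have k1 := (f2_bd (e := 1) ha0 ha (by simp) hs0.le hs1.le).1
  have l1 := q2_nonneg (a := a) hs0 (by linarith)
  have l3 := (p2_bd ha0 ha hs0.le hs1.le).1
  have l5 := (y2_bd ha0 ha hs0 hs1).1
  have l5' := (ps_bd (a := a) hs0 hs1).1
  have l6 : 0 ≤ q2 a (-v) / p2 a (-v) := div_nonneg l1 (by linarith)
  have k5 := ll_nonneg (a := a) hs0 hs1.le
  have l7 : ll a (-v) / 18 ≤ x2 a 1 (-v) := by unfold x2; linarith
  have l8 : 0 ≤ x2 a 1 (-v) := by linarith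
  have l9 : 2 * 2 * x2 a 1 (-v) ≤ 2 * f2 a 1 (-v) * x2 a 1 (-v) := by gcongr
  linarith

/-- lower bound near v = -1 -/
lemma D2_low1 (ha0 : 0 ≤ a) (ha : a ≤ 1 / 2) {v : ℝ} (h1 : -(1 / 2) < v) (h2 : v < 0) :
    LLe a 0 v / 5 ≤ deriv (F2 a (-1)) (-1 - v) := by
  have hs0 : 0 < -(-1 - v) := by linarith
  have hs1 : -(-1 - v) < 1 := by linarith
  rw [(F2_deriv_in ha0 ha (-1) (show -1 < -1 - v by linarith) (show -1 - v < 0 by linarith)).deriv,
    LLe_in (by linarith) h2]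
  have k1 := (f2_bd (e := -1) ha0 ha (by simp) hs0.le hs1.le).1
  have l1 := q2_nonpos (a := a) (show 1 / 2 ≤ -(-1 - v) by linarith) hs1
  have l3 := (p2_bd ha0 ha hs0.le hs1.le).1
  have l5 := (y2_bd ha0 ha hs0 hs1).1
  have l5' := (ps_bd (a := a) hs0 hs1).2.1
  rw [show 1 - -(-1 - v) = -v by ring] at l5'
  have l6 : q2 a (-(-1 - v)) / p2 a (-(-1 - v)) ≤ 0 := div_nonpos_of_nonpos_of_nonneg l1 (by linarith)
  have k5 := ll_nonneg (a := a) (show 0 < -v by linarith) (show -v ≤ 1 by linarith)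
  have l7 : ll a (-v) / 18 ≤ -x2 a (-1) (-(-1 - v)) := by unfold x2; linarith
  have l8 : 0 ≤ -x2 a (-1) (-(-1 - v)) := by linarith
  have l9 : 2 * 2 * -x2 a (-1) (-(-1 - v)) ≤ 2 * f2 a (-1) (-(-1 - v)) * -x2 a (-1) (-(-1 - v)) := by
    gcongr
  linarith

/-- second derivatives -/
lemma D2_deriv (ha0 : 0 ≤ a) (ha : a ≤ 1 / 2) (e : ℝ) {v z : ℝ} (h1 : -1 < v) (h2 : v < 0)
    (hz : HasDerivAt (y2 a) z (-v)) : HasDerivAt (deriv (F2 a e))
      (2 * f2 a e (-v) * (2 * (x2 a e (-v)) ^ 2 +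
        (-(y2 a (-v)) ^ 2 - (q2 a (-v) / p2 a (-v)) ^ 2 + e * z))) v := by
  have k1 := f2_deriv (a := a) ha0 ha e (show 0 < -v by linarith)
    (show -v < 1 by linarith)
  have k0 := x2_deriv (a := a) ha0 ha e (show 0 < -v by linarith)
    (show -v < 1 by linarith) hz
  have k2 : HasDerivAt (fun v : ℝ => -v) (-1) v := (hasDerivAt_id v).neg
  have k3 := (HasDerivAt.comp v ((k1.const_mul 2).mul k0) k2).neg
  have k4 : deriv (F2 a e) =ᶠ[𝓝 v] (-((fun y => 2 * f2 a e y) * x2 a e) ∘ Neg.neg) := by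
    filter_upwards [Ioo_mem_nhds h1 h2] with w hw
    exact (F2_deriv_in ha0 ha e hw.1 hw.2).deriv
  refine (k3.congr_of_eventuallyEq k4).congr_deriv ?_
  ring

/-- the data of a plane wave -/
structure PDat (a K C : ℝ) (A B : ℝ → ℝ) : Prop where
  a0 : 0 ≤ a
  a1 : a ≤ 1 / 2
  K2 : 2 ≤ K
  C0 : 0 ≤ C
  cA : Continuous A
  cB : Continuous B
  bA : ∀ v, 2 ≤ A v ∧ A v ≤ K
  bB : ∀ v, 2 ≤ B v ∧ B v ≤ K
  sA : ContDiffOn ℝ ∞ A (Ioo (-1) 0)
  sB : ContDiffOn ℝ ∞ B (Ioo (-1) 0)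
  hA : ∀ v, v ≠ -1 → v ≠ 0 → DifferentiableAt ℝ A v
  hB : ∀ v, v ≠ -1 → v ≠ 0 → DifferentiableAt ℝ B v
  dA : ∀ v, v ≠ -1 → v ≠ 0 → |deriv A v| ≤ C * WW a v
  dB : ∀ v, v ≠ -1 → v ≠ 0 → |deriv B v| ≤ C * WW a v
  vac : ∀ v ∈ Ioo (-1 : ℝ) 0, ∃ A2 B2, HasDerivAt (deriv A) A2 v ∧ HasDerivAt (deriv B) B2 v ∧
    A2 / (2 * A v) - (deriv A v) ^ 2 / (4 * (A v) ^ 2) +
      (B2 / (2 * B v) - (deriv B v) ^ 2 / (4 * (B v) ^ 2)) = 0
  low0 : (∀ v ∈ Ioo (-(1 / 2) : ℝ) 0, LLe a 0 v / 5 ≤ -deriv A v) ∨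
    ∀ v ∈ Ioo (-(1 / 2) : ℝ) 0, LLe a 0 v / 5 ≤ -deriv B v
  low1 : (∀ v ∈ Ioo (-(1 / 2) : ℝ) 0, LLe a 0 v / 5 ≤ deriv A (-1 - v)) ∨
    ∀ v ∈ Ioo (-(1 / 2) : ℝ) 0, LLe a 0 v / 5 ≤ deriv B (-1 - v)

lemma smooth_neg {A : ℝ → ℝ} (h : ContDiffOn ℝ ∞ A (Ioo (-1) 0)) :
    ContDiffOn ℝ ∞ (fun v => A (-1 - v)) (Ioo (-1) 0) :=
  h.comp (contDiffOn_const.sub contDiffOn_id) fun v hv => ⟨by
    show -1 < -1 - v
    linarith [hv.2], by
    show -1 - v < 0
    linarith [hv.1]⟩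

/-- time reversal -/
lemma PDat.flip {K C : ℝ} {A B : ℝ → ℝ} (h : PDat a K C A B) :
    PDat a K C (fun v => A (-1 - v)) (fun v => B (-1 - v)) := by
  have d1 : ∀ (f : ℝ → ℝ) (v : ℝ), deriv (fun v => f (-1 - v)) v = -deriv f (-1 - v) :=
    fun f v => deriv_comp_const_sub f (-1) v
  have n1 : ∀ v : ℝ, v ≠ -1 → -1 - v ≠ 0 := fun v h h' => h (by linarith)
  have n0 : ∀ v : ℝ, v ≠ 0 → -1 - v ≠ -1 := fun v h h' => h (by linarith)
  have hdf : ∀ {f : ℝ → ℝ} {v : ℝ}, DifferentiableAt ℝ f (-1 - v) →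
      DifferentiableAt ℝ (fun v => f (-1 - v)) v := fun {f v} hf =>
    DifferentiableAt.comp v hf (by fun_prop)
  refine
    { a0 := h.a0
      a1 := h.a1
      K2 := h.K2
      C0 := h.C0
      cA := h.cA.comp (by fun_prop)
      cB := h.cB.comp (by fun_prop)
      bA := fun v => h.bA _
      bB := fun v => h.bB _
      sA := smooth_neg h.sA
      sB := smooth_neg h.sB
      hA := fun v k1 k2 => hdf (h.hA _ (n0 v k2) (n1 v k1))
      hB := fun v k1 k2 => hdf (h.hB _ (n0 v k2) (n1 v k1))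
      dA := fun v k1 k2 => by
        rw [d1, abs_neg, ← WW_refl]
        exact h.dA _ (n0 v k2) (n1 v k1)
      dB := fun v k1 k2 => by
        rw [d1, abs_neg, ← WW_refl]
        exact h.dB _ (n0 v k2) (n1 v k1)
      vac := ?_
      low0 := ?_
      low1 := ?_ }
  · intro v hv
    obtain ⟨A2, B2, k1, k2, k3⟩ := h.vac (-1 - v) ⟨by linarith [hv.2], by linarith [hv.1]⟩
    have hh : ∀ {f : ℝ → ℝ} {f2 : ℝ}, HasDerivAt (deriv f) f2 (-1 - v) →
        HasDerivAt (deriv fun v => f (-1 - v)) f2 v := by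
      intro f f2 hf
      have e : (deriv fun v => f (-1 - v)) = fun v => -deriv f (-1 - v) := funext fun v => d1 f v
      rw [e]
      have k4 : HasDerivAt (fun v : ℝ => -1 - v) (-1) v := (hasDerivAt_id v).const_sub (-1)
      have k5 := (HasDerivAt.comp v hf k4).neg
      rw [mul_neg, mul_one, neg_neg] at k5
      exact k5
    refine ⟨A2, B2, hh k1, hh k2, ?_⟩
    rw [d1, d1, neg_sq, neg_sq]
    exact k3
  · rcases h.low1 with k | k
    · left
      intro v hv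
      rw [d1, neg_neg]
      exact k v hv
    · right
      intro v hv
      rw [d1, neg_neg]
      exact k v hv
  · rcases h.low0 with k | k
    · left
      intro v hv
      rw [d1, show -1 - (-1 - v) = v by ring]
      exact k v hv
    · right
      intro v hv
      rw [d1, show -1 - (-1 - v) = v by ring]
      exact k v hv

/-- **The two-sided vacuum plane wave.** -/
theorem pdat (ha0 : 0 ≤ a) (ha : a ≤ 1 / 2) : PDat a K2 (34 * K2) (F2 a 1) (F2 a (-1)) := by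
  have hsm : ∀ e, ContDiffOn ℝ ∞ (F2 a e) (Ioo (-1) 0) := by
    intro e
    have h1 : ContDiffOn ℝ ∞ (fun v => f2 a e (-v)) (Ioo (-1) 0) := by
      refine (f2_smooth ha0 ha e).comp contDiff_neg.contDiffOn ?_
      intro v hv
      exact ⟨show 0 < -v by linarith [hv.2], show -v < 1 by linarith [hv.1]⟩
    exact h1.congr fun v hv => F2_in e hv.1 hv.2
  have hK := K2_ge
  exact
    { a0 := ha0
      a1 := ha
      K2 := K2_ge
      C0 := by positivity
      cA := F2_cont ha0 ha 1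
      cB := F2_cont ha0 ha (-1)
      bA := fun v => F2_bd ha0 ha (by simp) v
      bB := fun v => F2_bd ha0 ha (by simp) v
      sA := hsm 1
      sB := hsm (-1)
      hA := fun v k1 k2 => F2_hd ha0 ha 1 k1 k2
      hB := fun v k1 k2 => F2_hd ha0 ha (-1) k1 k2
      dA := fun v k1 k2 => D2_le ha0 ha (by simp) k1 k2
      dB := fun v k1 k2 => D2_le ha0 ha (by simp) k1 k2
      vac := by
        intro v hv
        obtain ⟨z, hz⟩ := y2_deriv (a := a) ha0 ha (show 0 < -v by linarith [hv.2])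
          (show -v < 1 by linarith [hv.1])
        refine ⟨_, _, D2_deriv ha0 ha 1 hv.1 hv.2 hz, D2_deriv ha0 ha (-1) hv.1 hv.2 hz, ?_⟩
        have hA1 := (F2_deriv_in (a := a) ha0 ha 1 hv.1 hv.2).deriv
        have hB1 := (F2_deriv_in (a := a) ha0 ha (-1) hv.1 hv.2).deriv
        have eA : F2 a 1 v = f2 a 1 (-v) := F2_in 1 hv.1 hv.2
        have eB : F2 a (-1) v = f2 a (-1) (-v) := F2_in (-1) hv.1 hv.2
        have hA := (F2_bd (a := a) (e := 1) ha0 ha (by simp) v).1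
        have hB := (F2_bd (a := a) (e := -1) ha0 ha (by simp) v).1
        rw [hA1, hB1, eA, eB]
        rw [eA] at hA
        rw [eB] at hB
        have hA0 : f2 a 1 (-v) ≠ 0 := by linarith
        have hB0 : f2 a (-1) (-v) ≠ 0 := by linarith
        generalize f2 a 1 (-v) = A at *
        generalize f2 a (-1) (-v) = B at *
        unfold x2
        field_simp
        ring
      low0 := Or.inl fun v hv => D2_low0 ha0 ha hv.1 hv.2
      low1 := Or.inr fun v hv => D2_low1 ha0 ha hv.1 hv.2 }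

end Vale.Agent.P354v.T
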