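import Vale.Agent.P354.H251.DefsW

set_option linter.unusedSectionVars false

open scoped ContDiff
open MeasureTheory Set Filter Topology

namespace Vale.Agent.P354v.G

open Vale.Agent.P354n (IsData phi coef)

/-- the data of a plane wave -/
structure Dat (W : ℝ → ℝ) (K : ℝ) (A B : ℝ → ℝ) : Prop where
  K2 : 2 ≤ K
  Wm : Measurable W
  W0 : ∀ v, 0 ≤ W v
  W1 : ∫⁻ t, ‖W t‖ₑ ≠ ⊤
  cA : Continuous A
  cB : Continuous B
  bA : ∀ v, 2 ≤ A v ∧ A v ≤ K
  bB : ∀ v, 2 ≤ B v ∧ B v ≤ K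
  sA : ContDiffOn ℝ ∞ A (Ioo (-1) 0)
  sB : ContDiffOn ℝ ∞ B (Ioo (-1) 0)
  hA : ∀ v, v ≠ -1 → v ≠ 0 → DifferentiableAt ℝ A v
  hB : ∀ v, v ≠ -1 → v ≠ 0 → DifferentiableAt ℝ B v
  dA : ∀ v, v ≠ -1 → v ≠ 0 → |deriv A v| ≤ W v
  dB : ∀ v, v ≠ -1 → v ≠ 0 → |deriv B v| ≤ W v
  vac : ∀ v ∈ Ioo (-1 : ℝ) 0, ∃ A2 B2, HasDerivAt (deriv A) A2 v ∧ HasDerivAt (deriv B) B2 v ∧
    A2 / (2 * A v) - (deriv A v) ^ 2 / (4 * (A v) ^ 2) +
      (B2 / (2 * B v) - (deriv B v) ^ 2 / (4 * (B v) ^ 2)) = 0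

lemma smooth_neg {A : ℝ → ℝ} (h : ContDiffOn ℝ ∞ A (Ioo (-1) 0)) :
    ContDiffOn ℝ ∞ (fun v => A (-1 - v)) (Ioo (-1) 0) :=
  h.comp (contDiffOn_const.sub contDiffOn_id) fun v hv => ⟨by
    show -1 < -1 - v
    linarith [hv.2], by
    show -1 - v < 0
    linarith [hv.1]⟩

/-- time reversal -/
lemma Dat.flip {W : ℝ → ℝ} {K : ℝ} {A B : ℝ → ℝ} (h : Dat W K A B) :
    Dat (fun v => W (-1 - v)) K (fun v => A (-1 - v)) (fun v => B (-1 - v)) := by
  have d1 : ∀ (f : ℝ → ℝ) (v : ℝ), deriv (fun v => f (-1 - v)) v = -deriv f (-1 - v) :=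
    fun f v => deriv_comp_const_sub f (-1) v
  have n1 : ∀ v : ℝ, v ≠ -1 → -1 - v ≠ 0 := fun v h h' => h (by linarith)
  have n0 : ∀ v : ℝ, v ≠ 0 → -1 - v ≠ -1 := fun v h h' => h (by linarith)
  have hdf : ∀ {f : ℝ → ℝ} {v : ℝ}, DifferentiableAt ℝ f (-1 - v) →
      DifferentiableAt ℝ (fun v => f (-1 - v)) v := fun {f v} hf =>
    DifferentiableAt.comp v hf (by fun_prop)
  refine
    { K2 := h.K2
      Wm := h.Wm.comp (by fun_prop)
      W0 := fun v => h.W0 _
      W1 := ?_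
      cA := h.cA.comp (by fun_prop)
      cB := h.cB.comp (by fun_prop)
      bA := fun v => h.bA _
      bB := fun v => h.bB _
      sA := smooth_neg h.sA
      sB := smooth_neg h.sB
      hA := fun v k1 k2 => hdf (h.hA _ (n0 v k2) (n1 v k1))
      hB := fun v k1 k2 => hdf (h.hB _ (n0 v k2) (n1 v k1))
      dA := fun v k1 k2 => by
        rw [d1, abs_neg]
        exact h.dA _ (n0 v k2) (n1 v k1)
      dB := fun v k1 k2 => by
        rw [d1, abs_neg]
        exact h.dB _ (n0 v k2) (n1 v k1)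
      vac := ?_ }
  · rw [lintegral_sub_left_eq_self (fun t => ‖W t‖ₑ)]
    exact h.W1
  · intro v hv
    obtain ⟨A2, B2, k1, k2, k3⟩ := h.vac (-1 - v) ⟨by linarith [hv.2], by linarith [hv.1]⟩
    have hh : ∀ {f : ℝ → ℝ} {f2 : ℝ}, HasDerivAt (deriv f) f2 (-1 - v) →
        HasDerivAt (deriv fun v => f (-1 - v)) f2 v := by
      intro f f2 hf
      have e : (deriv fun v => f (-1 - v)) = fun v => -deriv f (-1 - v) := funext fun v => d1 f v
      rw [e]
      have k4 : HasDerivAt (fun v : ℝ => -1 - v) (-1) v := (hasDerivAt_id v).const_sub (-1)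
      have k5 := (HasDerivAt.comp v hf k4).neg
      rw [mul_neg, mul_one, neg_neg] at k5
      exact k5
    refine ⟨A2, B2, hh k1, hh k2, ?_⟩
    rw [d1, d1, neg_sq, neg_sq]
    exact k3

/-! ### primitives -/

lemma sub_I {v : ℝ} (hv : v ∈ Ioo (-1 : ℝ) 0) : uIcc (-(1 / 2)) v ⊆ Ioo (-1 : ℝ) 0 := by
  intro x hx
  rw [mem_uIcc] at hx
  rcases hx with ⟨h1, h2⟩ | ⟨h1, h2⟩
  · exact ⟨by linarith, h2.trans_lt hv.2⟩
  · exact ⟨hv.1.trans_le h1, by linarith⟩

lemma prim_d {h : ℝ → ℝ} (hc : ContinuousOn h (Ioo (-1) 0)) {v : ℝ} (hv : v ∈ Ioo (-1 : ℝ) 0) :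
    HasDerivAt (fun v => ∫ x in (-(1 / 2) : ℝ)..v, h x) (h v) v := by
  have hmem : Ioo (-1 : ℝ) 0 ∈ 𝓝 v := Ioo_mem_nhds hv.1 hv.2
  exact intervalIntegral.integral_hasDerivAt_right ((hc.mono (sub_I hv)).intervalIntegrable)
    (hc.stronglyMeasurableAtFilter isOpen_Ioo v hv) (hc.continuousAt hmem)

lemma ii_all {h : ℝ → ℝ} (hi : IntegrableOn h (Ioo (-1) 0)) : IntervalIntegrable h volume (-1) 0 := by
  rw [intervalIntegrable_iff_integrableOn_Ioo_of_le (by norm_num)]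
  exact hi

lemma half_mem : (-(1 / 2) : ℝ) ∈ Ioo (-1 : ℝ) 0 := by constructor <;> norm_num

lemma prim_c {h : ℝ → ℝ} (hi : IntegrableOn h (Ioo (-1) 0)) :
    ContinuousOn (fun v => ∫ x in (-(1 / 2) : ℝ)..v, h x) (Icc (-1) 0) := by
  have h1 := intervalIntegral.continuousOn_primitive_interval' (ii_all hi)
    (a := (-(1 / 2) : ℝ)) (by rw [uIcc_of_le (by norm_num)]; exact Ioo_subset_Icc_self half_mem)
  rwa [uIcc_of_le (by norm_num : (-1:ℝ) ≤ 0)] at h1

lemma ext_bd {h : ℝ → ℝ} (hc : ContinuousOn h (Icc (-1) 0)) {a b : ℝ}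
    (hb : ∀ v ∈ Ioo (-1 : ℝ) 0, a ≤ h v ∧ h v ≤ b) {v : ℝ} (hv : v ∈ Icc (-1 : ℝ) 0) :
    a ≤ h v ∧ h v ≤ b := by
  have e1 : closure (Ioo (-1 : ℝ) 0) = Icc (-1) 0 := closure_Ioo (by norm_num)
  have h1 : MapsTo h (Ioo (-1) 0) (Icc a b) := fun v hv => hb v hv
  have h2 := h1.closure_of_continuousOn (by rw [e1]; exact hc)
  rw [e1, isClosed_Icc.closure_eq] at h2
  exact h2 hv

/-- the derivative of - phi -/
noncomputable def d1 (f : ℝ → ℝ) (v : ℝ) : ℝ := ∫ t in (-(1 / 2) : ℝ)..v, f t ^ 2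
noncomputable def G1 (f : ℝ → ℝ) (v : ℝ) : ℝ := ∫ x in (-(1 / 2) : ℝ)..v, d1 f x
noncomputable def S1 (f : ℝ → ℝ) : ℝ := |∫ t in (-1 : ℝ)..0, t * (1 + t) * f t ^ 2|
noncomputable def T1 (f : ℝ → ℝ) : ℝ := ∫ t in (-1 : ℝ)..0, |f t|

section

variable {f : ℝ → ℝ} (hf : IsData f)
include hf

lemma cf : ContinuousOn f (Ioo (-1) 0) := hf.1.continuousOn
lemma cf2 : ContinuousOn (fun t => f t ^ 2) (Ioo (-1) 0) := (cf hf).pow 2

lemma d1_deriv {v : ℝ} (hv : v ∈ Ioo (-1 : ℝ) 0) : HasDerivAt (d1 f) (f v ^ 2) v :=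
  prim_d (cf2 hf) hv

lemma d1_cont : ContinuousOn (d1 f) (Ioo (-1) 0) := fun _ hv =>
  (d1_deriv hf hv).continuousAt.continuousWithinAt

omit hf in
lemma d1_half : d1 f (-(1 / 2)) = 0 := intervalIntegral.integral_same
omit hf in
lemma G1_half : G1 f (-(1 / 2)) = 0 := intervalIntegral.integral_same

omit hf in
lemma d1_nonneg {v : ℝ} (hv : -(1 / 2) ≤ v) : 0 ≤ d1 f v :=
  intervalIntegral.integral_nonneg hv fun _ _ => sq_nonneg _

omit hf in
lemma d1_nonpos {v : ℝ} (hv : v ≤ -(1 / 2)) : d1 f v ≤ 0 := by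
  unfold d1
  rw [intervalIntegral.integral_symm]
  have := intervalIntegral.integral_nonneg (μ := volume) hv fun t (_ : t ∈ Icc v (-(1 / 2))) =>
    sq_nonneg (f t)
  linarith

lemma G1_deriv {v : ℝ} (hv : v ∈ Ioo (-1 : ℝ) 0) : HasDerivAt (G1 f) (d1 f v) v :=
  prim_d (d1_cont hf) hv

omit hf in
lemma G1_nonneg (v : ℝ) : 0 ≤ G1 f v := by
  rcases le_total (-(1 / 2)) v with h | h
  · exact intervalIntegral.integral_nonneg h fun x hx => d1_nonneg hx.1
  · unfold G1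
    rw [intervalIntegral.integral_symm]
    have := intervalIntegral.integral_nonneg (μ := volume) h
      fun t (ht : t ∈ Icc v (-(1 / 2))) => neg_nonneg.2 (d1_nonpos (f := f) ht.2)
    rw [intervalIntegral.integral_neg] at this
    exact this

/-- integration by parts -/
lemma parts (c : ℝ) {v : ℝ} (hv : v ∈ Ioo (-1 : ℝ) 0) :
    G1 f v = (v + c) * d1 f v - ∫ x in (-(1 / 2) : ℝ)..v, (x + c) * f x ^ 2 := by
  have hc : ContinuousOn (fun x => (x + c) * f x ^ 2) (Ioo (-1) 0) :=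
    (by fun_prop : Continuous fun x : ℝ => x + c).continuousOn.mul (cf2 hf)
  have hd : ∀ v ∈ Ioo (-1 : ℝ) 0, HasDerivAt (fun v => (v + c) * d1 f v -
      (∫ x in (-(1 / 2) : ℝ)..v, (x + c) * f x ^ 2) - G1 f v) 0 v := by
    intro v hv
    have h1 : HasDerivAt (fun v : ℝ => v + c) 1 v := (hasDerivAt_id v).add_const c
    have h2 := ((h1.mul (d1_deriv hf hv)).sub (prim_d hc hv)).sub (G1_deriv hf hv)
    refine h2.congr_deriv ?_
    ring
  have h3 := isOpen_Ioo.is_const_of_deriv_eq_zero isPreconnected_Ioo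
    (fun v hv => (hd v hv).differentiableAt.differentiableWithinAt) (fun v hv => (hd v hv).deriv)
    hv half_mem
  simp only [d1_half, G1_half, intervalIntegral.integral_same] at h3
  linarith

lemma wt : ∫ t in (-1 : ℝ)..0, -(t * (1 + t) * f t ^ 2) = S1 f := by
  unfold S1
  rw [intervalIntegral.integral_neg, abs_of_nonpos]
  have := intervalIntegral.integral_nonneg_of_forall (μ := volume) (a := -1) (b := 0)
    (f := fun _ : ℝ => (0:ℝ)) (by norm_num) fun _ => le_rfl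
  have h2 : 0 ≤ ∫ t in (-1 : ℝ)..0, -(t * (1 + t) * f t ^ 2) := by
    refine intervalIntegral.integral_nonneg (by norm_num) fun t ht => ?_
    have h1 : 0 ≤ -t * (1 + t) := mul_nonneg (by linarith [ht.2]) (by linarith [ht.1])
    have := mul_nonneg h1 (sq_nonneg (f t))
    linarith
  rw [intervalIntegral.integral_neg] at h2
  linarith

/-- comparison with the weighted integral -/
lemma cmp {g : ℝ → ℝ} {a b : ℝ} (ha : -1 < a) (hab : a ≤ b) (hb : b < 0)
    (hc : ContinuousOn g (Ioo (-1) 0)) (hg : ∀ x ∈ Icc a b, g x ≤ 2 * (-(x * (1 + x) * f x ^ 2))) :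
    ∫ x in a..b, g x ≤ 2 * S1 f := by
  have hsub : uIcc a b ⊆ Ioo (-1 : ℝ) 0 := by
    rw [uIcc_of_le hab]
    exact fun x hx => ⟨ha.trans_le hx.1, hx.2.trans_lt hb⟩
  have hi : IntervalIntegrable (fun t => -(t * (1 + t) * f t ^ 2)) volume (-1) 0 :=
    (ii_all hf.2.2).neg
  have hc2 : ContinuousOn (fun t => -(t * (1 + t) * f t ^ 2)) (Ioo (-1) 0) :=
    ((by fun_prop : Continuous fun t : ℝ => t * (1 + t)).continuousOn.mul (cf2 hf)).neg
  have h1 : ∫ x in a..b, g x ≤ ∫ x in a..b, 2 * (-(x * (1 + x) * f x ^ 2)) :=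
    intervalIntegral.integral_mono_on hab (hc.mono hsub).intervalIntegrable
      ((hc2.mono hsub).intervalIntegrable.const_mul 2) hg
  have h2 : ∫ x in a..b, -(x * (1 + x) * f x ^ 2) ≤ ∫ x in (-1 : ℝ)..0, -(x * (1 + x) * f x ^ 2) := by
    refine intervalIntegral.integral_mono_interval ha.le hab hb.le ?_ hi
    rw [EventuallyLE, ae_restrict_iff' measurableSet_Ioc]
    refine Eventually.of_forall fun t ht => ?_
    have h1 : 0 ≤ -t * (1 + t) := mul_nonneg (by linarith [ht.2]) (by linarith [ht.1])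
    have := mul_nonneg h1 (sq_nonneg (f t))
    show 0 ≤ -(t * (1 + t) * f t ^ 2)
    linarith
  rw [wt hf] at h2
  rw [intervalIntegral.integral_const_mul] at h1
  linarith

lemma G1_le {v : ℝ} (hv : v ∈ Ioo (-1 : ℝ) 0) : G1 f v ≤ 2 * S1 f := by
  rcases le_total (-(1 / 2)) v with h | h
  · rw [parts hf 0 hv]
    have h1 : (v + 0) * d1 f v ≤ 0 :=
      mul_nonpos_of_nonpos_of_nonneg (by linarith [hv.2]) (d1_nonneg h)
    have h2 := cmp hf (g := fun x => -((x + 0) * f x ^ 2)) (by norm_num) h hv.2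
      ((by fun_prop : Continuous fun x : ℝ => x + 0).continuousOn.mul (cf2 hf)).neg (by
        intro x hx
        have h3 : 0 ≤ -x * (1 + 2 * x) * f x ^ 2 := by
          have h5 : 0 ≤ 1 + 2 * x := by linarith [hx.1]
          have h4 : 0 ≤ -x := by linarith [hx.2, hv.2]
          positivity
        linarith)
    rw [intervalIntegral.integral_neg] at h2
    linarith
  · rw [parts hf 1 hv]
    have h1 : (v + 1) * d1 f v ≤ 0 :=
      mul_nonpos_of_nonneg_of_nonpos (by linarith [hv.1]) (d1_nonpos h)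
    have h2 := cmp hf (g := fun x => (x + 1) * f x ^ 2) hv.1 h (by norm_num)
      ((by fun_prop : Continuous fun x : ℝ => x + 1).continuousOn.mul (cf2 hf)) (by
        intro x hx
        have h3 : 0 ≤ (1 + x) * (-1 - 2 * x) * f x ^ 2 := by
          have h5 : 0 ≤ -1 - 2 * x := by linarith [hx.2]
          have h4 : 0 ≤ 1 + x := by linarith [hx.1, hv.1]
          positivity
        linarith)
    rw [intervalIntegral.integral_symm]
    linarith

/-- integrability of d1 -/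
lemma d1_int : IntegrableOn (d1 f) (Ioo (-1) 0) := by
  have hsub : ∀ {a b : ℝ}, -1 < a → b < 0 → Icc a b ⊆ Ioo (-1 : ℝ) 0 := fun ha hb x hx =>
    ⟨ha.trans_le hx.1, hx.2.trans_lt hb⟩
  have hii : ∀ {a b : ℝ}, -1 < a → b < 0 → IntegrableOn (d1 f) (Ioc a b) := fun ha hb =>
    (((d1_cont hf).mono (hsub ha hb)).integrableOn_compact isCompact_Icc).mono_set Ioc_subset_Icc_self
  have k1 : IntegrableOn (d1 f) (Ioc (-(1 / 2)) 0) := by
    refine integrableOn_Ioc_of_intervalIntegral_norm_bounded_right (l := atTop)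
      (b := fun n : ℕ => -(1 / ((n : ℝ) + 3))) (I := 2 * S1 f) ?_ ?_ ?_
    · intro n
      refine hii (by norm_num) ?_
      have : 0 < 1 / ((n : ℝ) + 3) := by positivity
      linarith
    · have h1 : Tendsto (fun n : ℕ => 1 / ((n : ℝ) + 3)) atTop (𝓝 0) := by
        have h2 : Tendsto (fun n : ℕ => (n : ℝ) + 3) atTop atTop :=
          tendsto_atTop_add_const_right _ _ tendsto_natCast_atTop_atTop
        simp only [one_div]
        exact h2.inv_tendsto_atTop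
      have h2 := h1.neg
      rwa [neg_zero] at h2
    · refine Eventually.of_forall fun n => ?_
      have hb0 : 0 < 1 / ((n : ℝ) + 3) := by positivity
      have hb1 : 1 / ((n : ℝ) + 3) ≤ 1 / 2 := by
        apply one_div_le_one_div_of_le (by norm_num)
        have : (0:ℝ) ≤ n := Nat.cast_nonneg n
        linarith
      have hmem : -(1 / ((n : ℝ) + 3)) ∈ Ioo (-1 : ℝ) 0 := ⟨by linarith, by linarith⟩
      have h1 := G1_le hf hmem
      unfold G1 at h1
      rw [intervalIntegral.integral_of_le (by linarith)] at h1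
      refine le_trans (le_of_eq ?_) h1
      refine setIntegral_congr_fun measurableSet_Ioc fun x hx => ?_
      rw [Real.norm_eq_abs, abs_of_nonneg (d1_nonneg hx.1.le)]
  have k2 : IntegrableOn (d1 f) (Ioc (-1) (-(1 / 2))) := by
    refine integrableOn_Ioc_of_intervalIntegral_norm_bounded_left (l := atTop)
      (a := fun n : ℕ => -1 + 1 / ((n : ℝ) + 3)) (I := 2 * S1 f) ?_ ?_ ?_
    · intro n
      refine hii ?_ (by norm_num)
      have : 0 < 1 / ((n : ℝ) + 3) := by positivity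
      linarith
    · have h1 : Tendsto (fun n : ℕ => 1 / ((n : ℝ) + 3)) atTop (𝓝 0) := by
        have h2 : Tendsto (fun n : ℕ => (n : ℝ) + 3) atTop atTop :=
          tendsto_atTop_add_const_right _ _ tendsto_natCast_atTop_atTop
        simp only [one_div]
        exact h2.inv_tendsto_atTop
      have h2 := h1.const_add (-1)
      rwa [add_zero] at h2
    · refine Eventually.of_forall fun n => ?_
      have hb0 : 0 < 1 / ((n : ℝ) + 3) := by positivity
      have hb1 : 1 / ((n : ℝ) + 3) ≤ 1 / 2 := by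
        apply one_div_le_one_div_of_le (by norm_num)
        have : (0:ℝ) ≤ n := Nat.cast_nonneg n
        linarith
      have hmem : -1 + 1 / ((n : ℝ) + 3) ∈ Ioo (-1 : ℝ) 0 := ⟨by linarith, by linarith⟩
      have h1 := G1_le hf hmem
      unfold G1 at h1
      rw [intervalIntegral.integral_symm, intervalIntegral.integral_of_le (by linarith),
        ← integral_neg] at h1
      refine le_trans (le_of_eq ?_) h1
      refine setIntegral_congr_fun measurableSet_Ioc fun x hx => ?_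
      rw [Real.norm_eq_abs, abs_of_nonpos (d1_nonpos hx.2)]
  have k3 := k2.union k1
  rw [Ioc_union_Ioc_eq_Ioc (by norm_num) (by norm_num)] at k3
  exact k3.mono_set Ioo_subset_Ioc_self

/-! ### phi -/

omit hf in
lemma phi_eq (v : ℝ) : phi f v = 1 + 2 * S1 f - G1 f v := rfl

lemma phi_deriv {v : ℝ} (hv : v ∈ Ioo (-1 : ℝ) 0) : HasDerivAt (phi f) (-d1 f v) v :=
  (G1_deriv hf hv).const_sub _

lemma phi_cont : ContinuousOn (phi f) (Icc (-1) 0) :=
  continuousOn_const.sub (prim_c (d1_int hf))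

omit hf in
lemma S1_nonneg : 0 ≤ S1 f := abs_nonneg _

lemma phi_bd {v : ℝ} (hv : v ∈ Icc (-1 : ℝ) 0) : 1 ≤ phi f v ∧ phi f v ≤ 1 + 2 * S1 f := by
  refine ext_bd (phi_cont hf) (fun v hv => ?_) hv
  have h1 := G1_le hf hv
  have h2 := G1_nonneg (f := f) v
  rw [phi_eq]
  constructor <;> linarith

/-- the quotient -/
noncomputable def qf (f : ℝ → ℝ) (v : ℝ) : ℝ := f v / √(phi f v)

lemma qf_cont : ContinuousOn (qf f) (Ioo (-1) 0) := by
  intro v hv
  have h1 := (phi_bd hf (Ioo_subset_Icc_self hv)).1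
  refine (cf hf v hv).div ((phi_cont hf).mono Ioo_subset_Icc_self v hv).sqrt ?_
  have : 0 < √(phi f v) := Real.sqrt_pos.2 (by linarith)
  exact this.ne'

lemma qf_le {v : ℝ} (hv : v ∈ Ioo (-1 : ℝ) 0) : |qf f v| ≤ |f v| := by
  have h1 := (phi_bd hf (Ioo_subset_Icc_self hv)).1
  have h2 : 1 ≤ √(phi f v) := by rw [Real.one_le_sqrt]; exact h1
  unfold qf
  rw [abs_div, abs_of_nonneg (Real.sqrt_nonneg _)]
  exact div_le_self (abs_nonneg _) h2

lemma qf_int : IntegrableOn (qf f) (Ioo (-1) 0) := by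
  refine Integrable.mono' hf.2.1.norm ((qf_cont hf).aestronglyMeasurable measurableSet_Ioo) ?_
  rw [ae_restrict_iff' measurableSet_Ioo]
  exact Eventually.of_forall fun v hv => qf_le hf hv

/-- the primitive -/
noncomputable def bt (f : ℝ → ℝ) (v : ℝ) : ℝ := ∫ t in (-(1 / 2) : ℝ)..v, qf f t

lemma bt_deriv {v : ℝ} (hv : v ∈ Ioo (-1 : ℝ) 0) : HasDerivAt (bt f) (qf f v) v :=
  prim_d (qf_cont hf) hv

lemma bt_cont : ContinuousOn (bt f) (Icc (-1) 0) := prim_c (qf_int hf)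

omit hf in
lemma T1_nonneg : 0 ≤ T1 f := intervalIntegral.integral_nonneg (by norm_num) fun _ _ => abs_nonneg _

lemma bt_bd {v : ℝ} (hv : v ∈ Icc (-1 : ℝ) 0) : |bt f v| ≤ T1 f := by
  have key : ∀ v ∈ Ioo (-1 : ℝ) 0, -T1 f ≤ bt f v ∧ bt f v ≤ T1 f := by
    intro v hv
    rw [← abs_le]
    have h1 : ‖bt f v‖ ≤ ∫ t in uIoc (-(1 / 2) : ℝ) v, ‖qf f t‖ :=
      intervalIntegral.norm_integral_le_integral_norm_uIoc
    rw [Real.norm_eq_abs] at h1
    have h0 : IntegrableOn (fun t => |f t|) (Ioo (-1) 0) := hf.2.1.norm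
    have hs : uIoc (-(1 / 2) : ℝ) v ⊆ Ioo (-1 : ℝ) 0 := uIoc_subset_uIcc.trans (sub_I hv)
    have h2 : ∫ t in uIoc (-(1 / 2) : ℝ) v, ‖qf f t‖ ≤ ∫ t in Ioo (-1 : ℝ) 0, ‖qf f t‖ :=
      setIntegral_mono_set (qf_int hf).norm (Eventually.of_forall fun _ => norm_nonneg _)
        hs.eventuallyLE
    have h3 : ∫ t in Ioo (-1 : ℝ) 0, ‖qf f t‖ ≤ ∫ t in Ioo (-1 : ℝ) 0, |f t| :=
      setIntegral_mono_on (qf_int hf).norm h0 measurableSet_Ioo fun t ht => qf_le hf ht
    have h4 : T1 f = ∫ t in Ioo (-1 : ℝ) 0, |f t| := by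
      unfold T1
      rw [intervalIntegral.integral_of_le (by norm_num), integral_Ioc_eq_integral_Ioo]
    linarith
  exact abs_le.2 (ext_bd (bt_cont hf) key hv)

end

end Vale.Agent.P354v.G
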