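import Vale.Agent.P354.H251.FnG

set_option linter.unusedSectionVars false

open scoped ContDiff
open MeasureTheory Set Filter Topology

namespace Vale.Agent.P354v.G

open Vale.Agent.P354n (IsData phi coef)

/-- the clamp -/
noncomputable def clp (v : ℝ) : ℝ := max (-1) (min v 0)

lemma clp_mem (v : ℝ) : clp v ∈ Icc (-1 : ℝ) 0 :=
  ⟨le_max_left _ _, max_le (by norm_num) (min_le_right _ _)⟩

lemma clp_cont : Continuous clp := by unfold clp; fun_prop

lemma clp_in {v : ℝ} (hv : v ∈ Ioo (-1 : ℝ) 0) : clp v = v := by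
  unfold clp
  rw [min_eq_left hv.2.le, max_eq_right hv.1.le]

/-- the coefficient on [-1,0] -/
noncomputable def fc (e : ℝ) (f : ℝ → ℝ) (v : ℝ) : ℝ :=
  2 * Real.exp (2 * T1 f) * phi f v ^ 2 * Real.exp (2 * e * bt f v)

lemma coef_eq (e : ℝ) (f : ℝ → ℝ) (v : ℝ) : coef e f v = fc e f (clp v) := rfl

noncomputable def KK1 (f : ℝ → ℝ) : ℝ :=
  2 * Real.exp (2 * T1 f) * (1 + 2 * S1 f) ^ 2 * Real.exp (2 * T1 f)

/-- half of the logarithmic derivative -/
noncomputable def xe (e : ℝ) (f : ℝ → ℝ) (v : ℝ) : ℝ := -d1 f v / phi f v + e * qf f v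

lemma smooth_prim {f g : ℝ → ℝ} (hg : ContDiffOn ℝ ∞ g (Ioo (-1) 0))
    (h : ∀ v ∈ Ioo (-1 : ℝ) 0, HasDerivAt f (g v) v) : ContDiffOn ℝ ∞ f (Ioo (-1) 0) := by
  rw [contDiffOn_infty_iff_deriv_of_isOpen isOpen_Ioo]
  refine ⟨fun s hs => (h s hs).differentiableAt.differentiableWithinAt, ?_⟩
  exact hg.congr fun s hs => (h s hs).deriv

section

variable {f : ℝ → ℝ} (hf : IsData f)
include hf

lemma KK1_ge : 2 ≤ KK1 f := by
  have h1 : 1 ≤ Real.exp (2 * T1 f) := Real.one_le_exp (by have := T1_nonneg (f := f); linarith)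
  have h2 : 1 ≤ (1 + 2 * S1 f) ^ 2 := by
    have := S1_nonneg (f := f)
    nlinarith
  unfold KK1
  calc (2:ℝ) = 2 * 1 * 1 * 1 := by norm_num
    _ ≤ _ := by gcongr

lemma fc_bd {e : ℝ} (he : |e| ≤ 1) {v : ℝ} (hv : v ∈ Icc (-1 : ℝ) 0) :
    2 ≤ fc e f v ∧ fc e f v ≤ KK1 f := by
  obtain ⟨h1, h2⟩ := phi_bd hf hv
  have h3 := bt_bd hf hv
  have hT := T1_nonneg (f := f)
  have h4 : |e * bt f v| ≤ T1 f := by
    rw [abs_mul]
    calc |e| * |bt f v| ≤ 1 * T1 f := mul_le_mul he h3 (abs_nonneg _) zero_le_one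
      _ = _ := one_mul _
  obtain ⟨h5, h6⟩ := abs_le.1 h4
  have hp : 1 ≤ phi f v ^ 2 := by nlinarith
  have hp' : phi f v ^ 2 ≤ (1 + 2 * S1 f) ^ 2 := by
    have : 0 ≤ phi f v := by linarith
    gcongr
  constructor
  · have k1 : Real.exp (-(2 * T1 f)) ≤ Real.exp (2 * e * bt f v) :=
      Real.exp_le_exp.2 (by linarith)
    have k2 : Real.exp (2 * T1 f) * Real.exp (-(2 * T1 f)) = 1 := by
      rw [← Real.exp_add]; simp
    unfold fc
    calc (2:ℝ) = 2 * (Real.exp (2 * T1 f) * Real.exp (-(2 * T1 f))) * 1 := by rw [k2]; ring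
      _ ≤ 2 * (Real.exp (2 * T1 f) * Real.exp (2 * e * bt f v)) * phi f v ^ 2 := by gcongr
      _ = _ := by ring
  · have k1 : Real.exp (2 * e * bt f v) ≤ Real.exp (2 * T1 f) := Real.exp_le_exp.2 (by linarith)
    unfold fc KK1
    gcongr

lemma fc_cont (e : ℝ) : ContinuousOn (fc e f) (Icc (-1) 0) := by
  have h1 := phi_cont hf
  have h2 := bt_cont hf
  unfold fc
  exact (continuousOn_const.mul (h1.pow 2)).mul
    (Real.continuous_exp.comp_continuousOn (continuousOn_const.mul h2))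

lemma fc_deriv (e : ℝ) {v : ℝ} (hv : v ∈ Ioo (-1 : ℝ) 0) :
    HasDerivAt (fc e f) (2 * fc e f v * xe e f v) v := by
  have h1 := phi_deriv hf hv
  have h2 := bt_deriv hf hv
  have h3 := (phi_bd hf (Ioo_subset_Icc_self hv)).1
  have h4 := ((h1.pow 2).const_mul (2 * Real.exp (2 * T1 f))).mul ((h2.const_mul (2 * e)).exp)
  refine h4.congr_deriv ?_
  unfold fc xe
  simp only [Nat.cast_ofNat, Nat.add_one_sub_one, pow_one, Pi.pow_apply]
  field_simp

lemma qf_deriv {v : ℝ} (hv : v ∈ Ioo (-1 : ℝ) 0) : ∃ z, HasDerivAt (qf f) z v := by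
  have h3 := (phi_bd hf (Ioo_subset_Icc_self hv)).1
  have h5 := (phi_deriv hf hv).sqrt (by linarith)
  have h6 : HasDerivAt f (deriv f v) v :=
    ((hf.1.contDiffAt (Ioo_mem_nhds hv.1 hv.2)).differentiableAt (by simp)).hasDerivAt
  have h7 : √(phi f v) ≠ 0 := (Real.sqrt_pos.2 (by linarith)).ne'
  exact ⟨_, h6.div h5 h7⟩

lemma xe_deriv (e : ℝ) {v z : ℝ} (hv : v ∈ Ioo (-1 : ℝ) 0) (hz : HasDerivAt (qf f) z v) :
    HasDerivAt (xe e f) (-(qf f v) ^ 2 - (d1 f v / phi f v) ^ 2 + e * z) v := by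
  have h3 := (phi_bd hf (Ioo_subset_Icc_self hv)).1
  have h4 := ((d1_deriv hf hv).neg.div (phi_deriv hf hv) (by linarith)).add (hz.const_mul e)
  refine h4.congr_deriv ?_
  have h5 : √(phi f v) ^ 2 = phi f v := Real.sq_sqrt (by linarith)
  unfold qf
  rw [div_pow, h5]
  simp only [Pi.neg_apply]
  field_simp

lemma fc_smooth (e : ℝ) : ContDiffOn ℝ ∞ (fc e f) (Ioo (-1) 0) := by
  have hd : ContDiffOn ℝ ∞ (d1 f) (Ioo (-1) 0) := smooth_prim (hf.1.pow 2)
    fun s hs => d1_deriv hf hs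
  have hp : ContDiffOn ℝ ∞ (phi f) (Ioo (-1) 0) := smooth_prim hd.neg fun s hs => phi_deriv hf hs
  have hy : ContDiffOn ℝ ∞ (qf f) (Ioo (-1) 0) := by
    refine hf.1.div (hp.sqrt ?_) ?_
    · intro s hs
      have := (phi_bd hf (Ioo_subset_Icc_self hs)).1
      linarith
    · intro s hs
      have := (phi_bd hf (Ioo_subset_Icc_self hs)).1
      exact (Real.sqrt_pos.2 (by linarith)).ne'
  have hv : ContDiffOn ℝ ∞ (bt f) (Ioo (-1) 0) := smooth_prim hy fun s hs => bt_deriv hf hs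
  unfold fc
  exact (contDiffOn_const.mul (hp.pow 2)).mul (contDiffOn_const.mul hv).exp

/-! ### the coefficients -/

lemma coef_cont (e : ℝ) : Continuous (coef e f) :=
  (fc_cont hf e).comp_continuous clp_cont clp_mem

lemma coef_bd {e : ℝ} (he : |e| ≤ 1) (v : ℝ) : 2 ≤ coef e f v ∧ coef e f v ≤ KK1 f :=
  fc_bd hf he (clp_mem v)

omit hf in
lemma coef_in (e : ℝ) {v : ℝ} (hv : v ∈ Ioo (-1 : ℝ) 0) : coef e f v = fc e f v := by
  rw [coef_eq, clp_in hv]

lemma coef_deriv (e : ℝ) {v : ℝ} (hv : v ∈ Ioo (-1 : ℝ) 0) :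
    HasDerivAt (coef e f) (2 * fc e f v * xe e f v) v := by
  refine (fc_deriv hf e hv).congr_of_eventuallyEq ?_
  filter_upwards [Ioo_mem_nhds hv.1 hv.2] with w hw
  exact coef_in e hw

omit hf in
lemma coef_out {e v : ℝ} (h : v < -1 ∨ 0 < v) : HasDerivAt (coef e f) 0 v := by
  rcases h with h | h
  · refine (hasDerivAt_const v (fc e f (-1))).congr_of_eventuallyEq ?_
    filter_upwards [gt_mem_nhds h] with w hw
    rw [coef_eq]
    unfold clp
    rw [min_eq_left (by linarith), max_eq_left (by linarith)]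
  · refine (hasDerivAt_const v (fc e f 0)).congr_of_eventuallyEq ?_
    filter_upwards [lt_mem_nhds h] with w hw
    rw [coef_eq]
    unfold clp
    rw [min_eq_right (by linarith), max_eq_right (by norm_num)]

lemma coef_hd (e : ℝ) {v : ℝ} (h1 : v ≠ -1) (h2 : v ≠ 0) : DifferentiableAt ℝ (coef e f) v := by
  rcases lt_or_gt_of_ne h1 with h | h
  · exact (coef_out (Or.inl h)).differentiableAt
  · rcases lt_or_gt_of_ne h2 with h' | h'
    · exact (coef_deriv hf e ⟨h, h'⟩).differentiableAt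
    · exact (coef_out (Or.inr h')).differentiableAt

omit hf in
/-- the weight -/
noncomputable def Wt (f : ℝ → ℝ) (v : ℝ) : ℝ :=
  (Ioo (-1 : ℝ) 0).indicator (fun v => 2 * KK1 f * (|d1 f v| + |f v|)) v

lemma Wt_meas : Measurable (Wt f) := by
  classical
  have h1 : ContinuousOn (fun v => 2 * KK1 f * (|d1 f v| + |f v|)) (Ioo (-1) 0) :=
    continuousOn_const.mul ((d1_cont hf).abs.add (cf hf).abs)
  have h2 : ContinuousOn (fun _ : ℝ => (0:ℝ)) (Ioo (-1 : ℝ) 0)ᶜ := continuousOn_const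
  have h3 := h1.measurable_piecewise h2 measurableSet_Ioo
  have h4 : Wt f = (Ioo (-1 : ℝ) 0).piecewise (fun v => 2 * KK1 f * (|d1 f v| + |f v|))
      fun _ => 0 := by
    funext v
    unfold Wt
    by_cases hv : v ∈ Ioo (-1 : ℝ) 0
    · rw [indicator_of_mem hv, piecewise_eq_of_mem _ _ _ hv]
    · rw [indicator_of_notMem hv, piecewise_eq_of_notMem _ _ _ hv]
  rw [h4]
  exact h3

lemma Wt_nonneg (v : ℝ) : 0 ≤ Wt f v := by
  refine indicator_nonneg (fun v _ => ?_) v
  have := KK1_ge hf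
  positivity

lemma Wt_int : Integrable (Wt f) := by
  have h1 : IntegrableOn (fun v => 2 * KK1 f * (|d1 f v| + |f v|)) (Ioo (-1) 0) :=
    ((d1_int hf).norm.add hf.2.1.norm).const_mul _
  exact (integrable_indicator_iff measurableSet_Ioo).2 h1

lemma xe_le {e : ℝ} (he : |e| ≤ 1) {v : ℝ} (hv : v ∈ Ioo (-1 : ℝ) 0) :
    |xe e f v| ≤ |d1 f v| + |f v| := by
  have h1 := (phi_bd hf (Ioo_subset_Icc_self hv)).1
  unfold xe
  refine (abs_add_le _ _).trans (add_le_add ?_ ?_)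
  · rw [abs_div, abs_neg, abs_of_nonneg (show 0 ≤ phi f v by linarith)]
    exact div_le_self (abs_nonneg _) h1
  · rw [abs_mul]
    calc |e| * |qf f v| ≤ 1 * |f v| := mul_le_mul he (qf_le hf hv) (abs_nonneg _) zero_le_one
      _ = _ := one_mul _

lemma coef_le {e : ℝ} (he : |e| ≤ 1) {v : ℝ} (h1 : v ≠ -1) (h2 : v ≠ 0) :
    |deriv (coef e f) v| ≤ Wt f v := by
  by_cases h : v ∈ Ioo (-1 : ℝ) 0
  · rw [(coef_deriv hf e h).deriv]
    unfold Wt
    rw [indicator_of_mem h, abs_mul, abs_mul, abs_of_pos (by norm_num : (0:ℝ) < 2)]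
    obtain ⟨k1, k2⟩ := fc_bd hf he (Ioo_subset_Icc_self h)
    have k3 : |fc e f v| ≤ KK1 f := by rw [abs_of_nonneg (by linarith)]; exact k2
    have k4 := xe_le hf he h
    have k5 := KK1_ge hf
    gcongr
  · have h0 : v < -1 ∨ 0 < v := by
      by_contra hcon
      push Not at hcon
      exact h ⟨lt_of_le_of_ne hcon.1 (Ne.symm h1), lt_of_le_of_ne hcon.2 h2⟩
    rw [(coef_out h0).deriv, abs_zero]
    exact Wt_nonneg hf v

/-- second derivatives -/
lemma coef_deriv2 (e : ℝ) {v z : ℝ} (hv : v ∈ Ioo (-1 : ℝ) 0) (hz : HasDerivAt (qf f) z v) :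
    HasDerivAt (deriv (coef e f)) (2 * fc e f v * (2 * (xe e f v) ^ 2 +
        (-(qf f v) ^ 2 - (d1 f v / phi f v) ^ 2 + e * z))) v := by
  have k3 := ((fc_deriv hf e hv).const_mul 2).mul (xe_deriv hf e hv hz)
  have k4 : deriv (coef e f) =ᶠ[𝓝 v] ((fun y => 2 * fc e f y) * xe e f) := by
    filter_upwards [Ioo_mem_nhds hv.1 hv.2] with w hw
    exact (coef_deriv hf e hw).deriv
  refine (k3.congr_of_eventuallyEq k4).congr_deriv ?_
  ring

/-- **The plane waves.** -/
theorem dat : Dat (Wt f) (KK1 f) (coef 1 f) (coef (-1) f) := by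
  have hsm : ∀ e, ContDiffOn ℝ ∞ (coef e f) (Ioo (-1) 0) := fun e =>
    (fc_smooth hf e).congr fun v hv => coef_in e hv
  have hKge := KK1_ge hf
  exact
    { K2 := hKge
      Wm := Wt_meas hf
      W0 := Wt_nonneg hf
      W1 := (Wt_int hf).2.ne
      cA := coef_cont hf 1
      cB := coef_cont hf (-1)
      bA := fun v => coef_bd hf (by simp) v
      bB := fun v => coef_bd hf (by simp) v
      sA := hsm 1
      sB := hsm (-1)
      hA := fun v k1 k2 => coef_hd hf 1 k1 k2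
      hB := fun v k1 k2 => coef_hd hf (-1) k1 k2
      dA := fun v k1 k2 => coef_le hf (by simp) k1 k2
      dB := fun v k1 k2 => coef_le hf (by simp) k1 k2
      vac := by
        intro v hv
        obtain ⟨z, hz⟩ := qf_deriv hf hv
        refine ⟨_, _, coef_deriv2 hf 1 hv hz, coef_deriv2 hf (-1) hv hz, ?_⟩
        have hA1 := (coef_deriv hf 1 hv).deriv
        have hB1 := (coef_deriv hf (-1) hv).deriv
        have eA : coef 1 f v = fc 1 f v := coef_in 1 hv
        have eB : coef (-1) f v = fc (-1) f v := coef_in (-1) hv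
        have hA := (fc_bd hf (e := 1) (by simp) (Ioo_subset_Icc_self hv)).1
        have hB := (fc_bd hf (e := -1) (by simp) (Ioo_subset_Icc_self hv)).1
        have hp := (phi_bd hf (Ioo_subset_Icc_self hv)).1
        rw [hA1, hB1, eA, eB]
        have hA0 : fc 1 f v ≠ 0 := by linarith
        have hB0 : fc (-1) f v ≠ 0 := by linarith
        have hp0 : phi f v ≠ 0 := by linarith
        generalize fc 1 f v = A at *
        generalize fc (-1) f v = B at *
        unfold xe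
        generalize phi f v = P at *
        field_simp
        ring }

end

end Vale.Agent.P354v.G
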