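import Vale.Agent.P354.H251.WvG

set_option linter.unusedSectionVars false

open scoped ContDiff
open MeasureTheory Set Filter Topology

namespace Vale.Agent.P354v.G.N

open Vale.Agent.P354n (IsSmooth IsSpacetime IsC0W1 IsFutureCurve IsFutureExtension InLp Ends AllEnd
  IsGH IsVacuum rev IsInext IsMax wave coef IsData phi)

section

variable {E : Type*} [AddCommGroup E] [Module ℝ E] [TopologicalSpace E] [ContinuousAdd E]
  [ContinuousSMul ℝ E] [FirstCountableTopology E]

/-- the elements in L^p form a meagre set -/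
theorem meagre_of (T : E →ₗ[ℝ] (ℝ → ℝ)) {J : Set ℝ} (hJ : MeasurableSet J)
    (hc : ∀ v ∈ J, Continuous fun x => T x v)
    (hm : ∀ x, AEStronglyMeasurable (T x) (volume.restrict J)) {p : ENNReal}
    {x0 : E} (hx0 : ¬ eLpNorm (T x0) p (volume.restrict J) < ⊤) :
    IsMeagre {x | eLpNorm (T x) p (volume.restrict J) < ⊤} := by
  set μ := volume.restrict J with hμ
  set F : ℕ → Set E := fun n => {x | eLpNorm (T x) p μ ≤ n} with hF
  have hcl : ∀ n, IsClosed (F n) := by
    intro n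
    apply IsSeqClosed.isClosed
    intro u x hu hux
    have h1 : ∀ᵐ v ∂μ, Tendsto (fun k => T (u k) v) atTop (𝓝 (T x v)) := by
      rw [hμ, ae_restrict_iff' hJ]
      exact Eventually.of_forall fun v hv => ((hc v hv).tendsto x).comp hux
    have h2 := Lp.eLpNorm_lim_le_liminf_eLpNorm (p := p) (fun k => hm (u k)) (T x) h1
    refine h2.trans ?_
    have h3 : liminf (fun k => eLpNorm (T (u k)) p μ) atTop ≤
        liminf (fun _ : ℕ => (n : ENNReal)) atTop := liminf_le_liminf (Eventually.of_forall hu)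
    rwa [liminf_const] at h3
  have hint : ∀ n, interior (F n) = ∅ := by
    intro n
    rw [eq_empty_iff_forall_notMem]
    intro x hx
    have hcont : Continuous fun t : ℝ => x + t • x0 :=
      continuous_const.add (continuous_id.smul continuous_const)
    have hnb : ∀ᶠ t in 𝓝 (0:ℝ), x + t • x0 ∈ F n := by
      have h0 : Tendsto (fun t : ℝ => x + t • x0) (𝓝 0) (𝓝 x) := by
        have := hcont.tendsto 0
        rwa [zero_smul, add_zero] at this
      exact h0.eventually (mem_interior_iff_mem_nhds.1 hx)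
    obtain ⟨t, ht, ht0⟩ := ((hnb.filter_mono nhdsWithin_le_nhds).and
      (self_mem_nhdsWithin (s := {(0:ℝ)}ᶜ))).exists
    have ht0' : t ≠ 0 := ht0
    have hlt : ((n : ℕ) : ENNReal) < ⊤ := ENNReal.natCast_lt_top n
    have m1 : MemLp (T (x + t • x0)) p μ := ⟨hm _, lt_of_le_of_lt ht hlt⟩
    have hxF : x ∈ F n := interior_subset hx
    have m2 : MemLp (T x) p μ := ⟨hm _, lt_of_le_of_lt hxF hlt⟩
    have m3 := (m1.sub m2).const_mul t⁻¹
    have e : T x0 = fun v => t⁻¹ * (T (x + t • x0) - T x) v := by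
      funext v
      rw [map_add, map_smul]
      simp only [Pi.sub_apply, Pi.add_apply, Pi.smul_apply, smul_eq_mul]
      field_simp
      ring
    apply hx0
    rw [e]
    exact m3.2
  refine (isMeagre_iUnion fun n => ((hcl n).isNowhereDense_iff.2 (hint n)).isMeagre).mono ?_
  intro x hx
  obtain ⟨n, hn⟩ := ENNReal.exists_nat_gt (ne_of_lt hx)
  exact mem_iUnion.2 ⟨n, hn.le⟩

/-- **Generic inextendibility.** -/
theorem generic {p : ENNReal} (hp : 2 ≤ p) (T : E →ₗ[ℝ] (ℝ → ℝ)) (hT : ∀ x, IsData (T x))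
    (hc : ∀ v ∈ Ioo (-1 : ℝ) 0, Continuous fun x => T x v)
    (h : ∃ x y, ¬ InLp p (T x) (-(1 / 2)) ∧ ¬ InLp p (fun v => T y (-1 - v)) (-(1 / 2))) :
    IsMeagre {x | ¬ (IsMax (wave (T x)) ∧ IsInext (IsC0W1 p) (wave (T x)))} := by
  obtain ⟨x1, x2, h1, h2⟩ := h
  have hJ : Ioo (-(1 / 2) : ℝ) 0 ⊆ Ioo (-1) 0 := Ioo_subset_Ioo_left (by norm_num)
  have hr : ∀ {v : ℝ}, v ∈ Ioo (-1 : ℝ) 0 → -1 - v ∈ Ioo (-1 : ℝ) 0 := fun hv =>
    ⟨by linarith [hv.2], by linarith [hv.1]⟩
  have m1 := meagre_of T (p := p) (measurableSet_Ioo (a := (-(1 / 2) : ℝ)) (b := 0))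
    (fun v hv => hc v (hJ hv))
    (fun x => ((cf (hT x)).mono hJ).aestronglyMeasurable measurableSet_Ioo) h1
  let T' : E →ₗ[ℝ] (ℝ → ℝ) :=
    { toFun := fun x v => T x (-1 - v)
      map_add' := fun x y => by funext v; rw [map_add]; rfl
      map_smul' := fun t x => by funext v; rw [map_smul]; rfl }
  have m2 := meagre_of T' (p := p) (measurableSet_Ioo (a := (-(1 / 2) : ℝ)) (b := 0))
    (fun v hv => hc (-1 - v) (hr (hJ hv)))
    (fun x => (((cf (hT x)).comp (by fun_prop) fun v hv => hr hv).mono hJ).aestronglyMeasurable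
      measurableSet_Ioo) h2
  refine (m1.union m2).mono fun x hx => ?_
  by_contra hcon
  rw [mem_union, not_or] at hcon
  have h3 := wave_inext (hT x) hp hcon.1 hcon.2
  exact hx ⟨h3.2, h3.1⟩

end

end Vale.Agent.P354v.G.N
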