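import Vale.Agent.P354.H251.Far

set_option linter.unusedSectionVars false

open scoped ContDiff
open MeasureTheory Set Filter Topology

namespace Vale.Agent.P354v

open Vale.Agent.P354p
open Vale.Agent.P354p.Ex (Prm LLe)

variable [Prm]

/-- long curves -/
noncomputable def lg (p : R4) (c d κ v : ℝ) : R4 :=
  (cu p + (c ^ 2 * (PA v - PA (cv p)) + d ^ 2 * (PB v - PB (cv p)) + κ * (v - cv p)) / 2, v,
    c1 p + c * (PA v - PA (cv p)), c2 p + d * (PB v - PB (cv p)))

/-- the velocity -/
noncomputable def lv (c d κ v : ℝ) : R4 :=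
  ((c ^ 2 * (1 / AA v) + d ^ 2 * (1 / BB v) + κ) / 2, 1, c * (1 / AA v), d * (1 / BB v))

lemma lg_deriv (p : R4) (c d κ v : ℝ) : HasDerivAt (lg p c d κ) (lv c d κ v) v := by
  have h1 := (PA_deriv v).sub_const (PA (cv p))
  have h2 := (PB_deriv v).sub_const (PB (cv p))
  have h3 : HasDerivAt (fun v => v - cv p) 1 v := (hasDerivAt_id v).sub_const _
  have h4 := ((((h1.const_mul (c ^ 2)).add (h2.const_mul (d ^ 2))).add (h3.const_mul κ)).div_const
    2).const_add (cu p)
  rw [mul_one] at h4
  exact h4.prodMk ((hasDerivAt_id v).prodMk (((h1.const_mul c).const_add (c1 p)).prodMk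
    ((h2.const_mul d).const_add (c2 p))))

lemma lg_c1 (p : R4) (c d κ : ℝ) : ContDiff ℝ 1 (lg p c d κ) := by
  have h1 := PA_c1
  have h2 := PB_c1
  have h3 : ContDiff ℝ 1 fun v : ℝ => v := contDiff_id
  have k1 : ContDiff ℝ 1 fun v => PA v - PA (cv p) := h1.sub contDiff_const
  have k2 : ContDiff ℝ 1 fun v => PB v - PB (cv p) := h2.sub contDiff_const
  have k3 : ContDiff ℝ 1 fun v => v - cv p := h3.sub contDiff_const
  exact (contDiff_const.add ((((contDiff_const.mul k1).add (contDiff_const.mul k2)).add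
    (contDiff_const.mul k3)).div_const 2)).prodMk (h3.prodMk
      ((contDiff_const.add (contDiff_const.mul k1)).prodMk
        (contDiff_const.add (contDiff_const.mul k2))))

lemma lg_start (p : R4) (c d κ : ℝ) : lg p c d κ (cv p) = p := by
  obtain ⟨p0, p1, p2, p3⟩ := p
  simp [lg, cu, cv, c1, c2]

lemma gg_lv {x : R4} {v : ℝ} (h : cv x = v) (c d κ : ℝ) :
    gg x (lv c d κ v) (lv c d κ v) = -κ := by
  have hA := (AA_bd v).1
  have hB := (BB_bd v).1
  have hA0 : AA v ≠ 0 := by linarith
  have hB0 : BB v ≠ 0 := by linarith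
  unfold gg
  rw [h]
  simp only [lv, cu, cv, c1, c2]
  field_simp
  ring

lemma gg_smul (x a : R4) (r : ℝ) : gg x (r • a) (r • a) = r ^ 2 * gg x a a := by
  have e1 : cu (r • a) = r * cu a := rfl
  have e2 : cv (r • a) = r * cv a := rfl
  have e3 : c1 (r • a) = r * c1 a := rfl
  have e4 : c2 (r • a) = r * c2 a := rfl
  unfold gg
  rw [e1, e2, e3, e4]
  ring

lemma gg_base {x y : R4} (h : cv x = cv y) (a b : R4) : gg x a b = gg y a b := by
  unfold gg; rw [h]

/-- **The homotopy.** -/
theorem hom_core {b : ℝ → R4} (hb : CD b) {s t : ℝ} (hs : s ∈ Ioo (0:ℝ) 1) (ht : t ∈ Ioo s 1)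
    (hE : 0 < En b s t) : ∃ h : ℝ → ℝ → R4,
      ContinuousOn (fun p : ℝ × ℝ => h p.1 p.2) (Icc 0 1 ×ˢ Icc 0 1) ∧
      (∀ x, h 0 x = b (s + (t - s) * x)) ∧ ∀ y ∈ Icc (0:ℝ) 1, h y 0 = b s ∧ h y 1 = b t ∧
      ∀ x ∈ Icc (0:ℝ) 1, ContDiffWithinAt ℝ 1 (h y) (Icc 0 1) x ∧ h y x ∈ Db 0 ∧
        ∃ w, HasDerivAt (h y) w x ∧ gg (h y x) w w < 0 ∧ gg (h y x) w (1, 1, 0, 0) < 0 ∧
          (y = 1 → gg (h y x) w w ≤ -((cv (b t) - cv (b s)) * En b s t)) := by
  have ht' : t ∈ Ioo (0:ℝ) 1 := ⟨hs.1.trans ht.1, ht.2⟩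
  have hv : cv (b s) < cv (b t) := hb.vmono hs ht' ht.1
  set H := cv (b t) - cv (b s) with hH
  have H0 : 0 < H := by linarith
  obtain ⟨hP0, -⟩ := PA_diff hv
  obtain ⟨hR0, -⟩ := PB_diff hv
  set P := PA (cv (b t)) - PA (cv (b s)) with hP
  set R := PB (cv (b t)) - PB (cv (b s)) with hR
  set c := (c1 (b t) - c1 (b s)) / P with hc
  set d := (c2 (b t) - c2 (b s)) / R with hd
  set κ := En b s t / H with hκ
  have κ0 : 0 < κ := div_pos hE H0
  -- end point of the long curve
  have lend : lg (b s) c d κ (cv (b t)) = b t := by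
    have e1 : c * P = c1 (b t) - c1 (b s) := by rw [hc]; field_simp
    have e2 : d * R = c2 (b t) - c2 (b s) := by rw [hd]; field_simp
    have e3 : κ * H = En b s t := by rw [hκ]; field_simp
    have e4 : En b s t = 2 * (cu (b t) - cu (b s)) - c ^ 2 * P - d ^ 2 * R := by
      have k1 : En b s t = 2 * (cu (b t) - cu (b s)) - (c1 (b t) - c1 (b s)) ^ 2 / P -
        (c2 (b t) - c2 (b s)) ^ 2 / R := rfl
      rw [k1, hc, hd]
      field_simp
    have k0 : cu (b s) + (c ^ 2 * P + d ^ 2 * R + κ * H) / 2 = cu (b t) := by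
      rw [e3, e4]; ring
    have k1 : c1 (b s) + c * P = c1 (b t) := by rw [e1]; ring
    have k2 : c2 (b s) + d * R = c2 (b t) := by rw [e2]; ring
    show (cu (b s) + (c ^ 2 * P + d ^ 2 * R + κ * H) / 2, cv (b t), c1 (b s) + c * P,
      c2 (b s) + d * R) = b t
    rw [k0, k1, k2]
    rfl
  -- the first curve
  have hτ : ∀ x ∈ Icc (0:ℝ) 1, s + (t - s) * x ∈ Ioo (0:ℝ) 1 := by
    intro x hx
    have h1 : 0 < t - s := by linarith [ht.1]
    constructor
    · nlinarith [hs.1, hx.1]
    · nlinarith [ht.2, hx.2]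
  set γ : ℝ → R4 := fun x => b (s + (t - s) * x) with hγ
  have dγ : ∀ x ∈ Icc (0:ℝ) 1, HasDerivAt γ ((t - s) • _root_.deriv b (s + (t - s) * x)) x := by
    intro x hx
    have k1 : HasDerivAt (fun x : ℝ => s + (t - s) * x) (t - s) x := by
      simpa using ((hasDerivAt_id x).const_mul (t - s)).const_add s
    exact HasDerivAt.scomp x (hb.hd _ (hτ x hx)) k1
  have cγ : ContDiffOn ℝ 1 γ (Icc 0 1) := by
    refine hb.c1.comp (g := b) (f := fun x : ℝ => s + (t - s) * x) ?_ fun x hx => hτ x hx
    fun_prop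
  set m : ℝ → ℝ := fun y => max 0 (1 - 2 * y) with hm
  set l : ℝ → ℝ := fun y => max 0 (2 * y - 1) with hl
  set V : ℝ → ℝ → ℝ := fun y x => (1 - l y) * cv (γ x) + l y * (cv (b s) + H * x) with hV
  set h : ℝ → ℝ → R4 := fun y x => m y • γ x + (1 - m y) • lg (b s) c d κ (V y x) with hh
  have g0 : γ 0 = b s := by simp [hγ]
  have g1 : γ 1 = b t := by simp [hγ]
  have hm0 : ∀ y, y ∈ Icc (0:ℝ) 1 → 0 ≤ m y ∧ m y ≤ 1 := by
    intro y hy
    refine ⟨le_max_left _ _, max_le zero_le_one (by linarith [hy.1])⟩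
  have hl0 : ∀ y, y ∈ Icc (0:ℝ) 1 → 0 ≤ l y ∧ l y ≤ 1 := by
    intro y hy
    refine ⟨le_max_left _ _, max_le zero_le_one (by linarith [hy.2])⟩
  have hml : ∀ y, m y = 0 ∨ l y = 0 := by
    intro y
    rcases le_total y (1 / 2) with hy | hy
    · right; exact max_eq_left (by linarith)
    · left; exact max_eq_left (by linarith)
  refine ⟨h, ?_, ?_, ?_⟩
  · -- continuity
    have c1 : ContinuousOn (fun p : ℝ × ℝ => γ p.2) (Icc 0 1 ×ˢ Icc 0 1) :=
      cγ.continuousOn.comp continuousOn_snd fun p hp => hp.2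
    have c2 : Continuous (fun p : ℝ × ℝ => m p.1) := by
      simp only [hm]; fun_prop
    have c3 : Continuous (fun p : ℝ × ℝ => l p.1) := by
      simp only [hl]; fun_prop
    have c4 : ContinuousOn (fun p : ℝ × ℝ => cv (γ p.2)) (Icc 0 1 ×ˢ Icc 0 1) :=
      (continuous_fst.comp continuous_snd).comp_continuousOn c1
    have c5 : ContinuousOn (fun p : ℝ × ℝ => V p.1 p.2) (Icc 0 1 ×ˢ Icc 0 1) := by
      refine ((continuous_const.sub c3).continuousOn.mul c4).add (c3.continuousOn.mul ?_)
      fun_prop
    have c6 : ContinuousOn (fun p : ℝ × ℝ => lg (b s) c d κ (V p.1 p.2)) (Icc 0 1 ×ˢ Icc 0 1) :=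
      (lg_c1 (b s) c d κ).continuous.comp_continuousOn c5
    exact (c2.continuousOn.smul c1).add ((continuous_const.sub c2).continuousOn.smul c6)
  · intro x
    have e1 : m 0 = 1 := by simp [hm]
    show m 0 • γ x + (1 - m 0) • _ = _
    rw [e1, sub_self, zero_smul, add_zero, one_smul]
  · intro y hy
    obtain ⟨m0, m1⟩ := hm0 y hy
    obtain ⟨l0, l1⟩ := hl0 y hy
    refine ⟨?_, ?_, ?_⟩
    · have e1 : V y 0 = cv (b s) := by
        simp only [hV, g0]; ring
      show m y • γ 0 + (1 - m y) • lg (b s) c d κ (V y 0) = b s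
      rw [e1, lg_start, g0, ← add_smul]
      simp
    · have e1 : V y 1 = cv (b t) := by
        simp only [hV, g1, hH]; ring
      show m y • γ 1 + (1 - m y) • lg (b s) c d κ (V y 1) = b t
      rw [e1, lend, g1, ← add_smul]
      simp
    · intro x hx
      have hbd : ∀ x ∈ Icc (0:ℝ) 1, HasDerivAt (fun x => cv (γ x))
          ((t - s) * cv (_root_.deriv b (s + (t - s) * x))) x := fun x hx => (dγ x hx).snd.fst
      set p := (1 - l y) * ((t - s) * cv (_root_.deriv b (s + (t - s) * x))) + l y * H with hp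
      have hts : 0 < t - s := by linarith [ht.1]
      have hpv : 0 < (t - s) * cv (_root_.deriv b (s + (t - s) * x)) :=
        mul_pos hts (hb.pv _ (hτ x hx))
      have p0 : 0 < p := by
        rcases eq_or_lt_of_le l0 with h0 | h0
        · rw [hp, ← h0]; linarith
        · have := mul_pos h0 H0
          have := mul_nonneg (sub_nonneg.2 l1) hpv.le
          linarith
      have dV : HasDerivAt (V y) p x := by
        have k1 := (hbd x hx).const_mul (1 - l y)
        have k2 : HasDerivAt (fun x : ℝ => cv (b s) + H * x) H x := by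
          simpa using ((hasDerivAt_id x).const_mul H).const_add (cv (b s))
        exact k1.add (k2.const_mul (l y))
      have dl : HasDerivAt (fun x => lg (b s) c d κ (V y x)) (p • lv c d κ (V y x)) x :=
        HasDerivAt.scomp x (lg_deriv (b s) c d κ (V y x)) dV
      set w := m y • ((t - s) • _root_.deriv b (s + (t - s) * x)) +
        (1 - m y) • (p • lv c d κ (V y x)) with hw
      have dh : HasDerivAt (h y) w x := ((dγ x hx).const_smul (m y)).add (dl.const_smul (1 - m y))
      have ecv : cv (h y x) = V y x := by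
        have k1 : cv (h y x) = m y * cv (γ x) + (1 - m y) * V y x := rfl
        rw [k1]
        rcases hml y with h0 | h0
        · rw [h0]; ring
        · have : V y x = cv (γ x) := by simp only [hV, h0]; ring
          rw [this]; ring
      have hcv : ∀ x ∈ Icc (0:ℝ) 1, -1 < cv (γ x) ∧ cv (γ x) < 0 := by
        intro x _
        have := hb.mem (s + (t - s) * x)
        refine ⟨this.1, ?_⟩
        have h2 := this.2
        simpa using h2
      have hlin : -1 < cv (b s) + H * x ∧ cv (b s) + H * x < 0 := by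
        have k1 := (hb.mem s).1
        have k2 := (hb.mem t).2
        simp only [Nat.cast_zero] at k2
        constructor
        · have := mul_nonneg H0.le hx.1
          linarith
        · have : H * x ≤ H * 1 := mul_le_mul_of_nonneg_left hx.2 H0.le
          linarith
      have hmem : h y x ∈ Db 0 := by
        show -1 < cv (h y x) ∧ cv (h y x) < ((0:ℕ):ℝ)
        rw [ecv, Nat.cast_zero]
        obtain ⟨k1, k2⟩ := hcv x hx
        obtain ⟨k3, k4⟩ := hlin
        have hl1 : 0 ≤ 1 - l y := by linarith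
        constructor
        · have q1 := mul_le_mul_of_nonneg_left k1.le hl1
          rcases eq_or_lt_of_le l0 with h0 | h0
          · simp only [hV, ← h0]; linarith
          · have q2 := mul_lt_mul_of_pos_left k3 h0
            simp only [hV]
            linarith
        · have q1 := mul_le_mul_of_nonneg_left k2.le hl1
          rcases eq_or_lt_of_le l0 with h0 | h0
          · simp only [hV, ← h0]; linarith
          · have q2 := mul_lt_mul_of_pos_left k4 h0
            simp only [hV]
            linarith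
      have hlv : gg (h y x) (p • lv c d κ (V y x)) (p • lv c d κ (V y x)) = -(p ^ 2 * κ) := by
        rw [gg_smul, gg_lv ecv]; ring
      have hpk : 0 < p ^ 2 * κ := by positivity
      have hlvu : 0 < cu (lv c d κ (V y x)) := by
        have hA := (AA_bd (V y x)).1
        have hB := (BB_bd (V y x)).1
        show 0 < (c ^ 2 * (1 / AA (V y x)) + d ^ 2 * (1 / BB (V y x)) + κ) / 2
        have k1 : 0 ≤ c ^ 2 * (1 / AA (V y x)) := by positivity
        have k2 : 0 ≤ d ^ 2 * (1 / BB (V y x)) := by positivity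
        linarith
      refine ⟨?_, hmem, w, dh, ?_, ?_, ?_⟩
      · have k1 : ContDiffOn ℝ 1 (fun x => cv (γ x)) (Icc 0 1) := by
          have := (contDiff_fst (𝕜 := ℝ) (E := ℝ) (F := ℝ × ℝ) (n := 1)).comp
            (contDiff_snd (𝕜 := ℝ) (E := ℝ) (F := ℝ × ℝ × ℝ) (n := 1))
          exact this.comp_contDiffOn cγ
        have k2 : ContDiffOn ℝ 1 (V y) (Icc 0 1) := by
          refine (contDiffOn_const.mul k1).add (contDiffOn_const.mul ?_)
          fun_prop
        have k3 : ContDiffOn ℝ 1 (fun x => lg (b s) c d κ (V y x)) (Icc 0 1) :=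
          (lg_c1 (b s) c d κ).comp_contDiffOn k2
        exact ((cγ.const_smul (m y)).add (k3.const_smul (1 - m y))) x hx
      · rcases hml y with h0 | h0
        · have e1 : w = p • lv c d κ (V y x) := by rw [hw, h0]; simp
          rw [e1, hlv]
          linarith
        · have eV : V y x = cv (γ x) := by simp only [hV, h0]; ring
          have ep : p = (t - s) * cv (_root_.deriv b (s + (t - s) * x)) := by
            rw [hp, h0]; ring
          have k1 : cv ((t - s) • _root_.deriv b (s + (t - s) * x)) =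
              cv (p • lv c d κ (V y x)) := by
            have e1 : cv ((t - s) • _root_.deriv b (s + (t - s) * x)) =
              (t - s) * cv (_root_.deriv b (s + (t - s) * x)) := rfl
            have e2 : cv (p • lv c d κ (V y x)) = p * 1 := rfl
            rw [e1, e2, ep, mul_one]
          have k2 := gg_conv (h y x) k1 m0 m1
          have eb := gg_base (show cv (h y x) = cv (b (s + (t - s) * x)) by
            rw [ecv, eV]) (_root_.deriv b (s + (t - s) * x)) (_root_.deriv b (s + (t - s) * x))
          rw [hlv, gg_smul, eb] at k2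
          have k3 := hb.neg _ (hτ x hx)
          refine lt_of_le_of_lt k2 ?_
          have k4 : (t - s) ^ 2 * gg (b (s + (t - s) * x)) (_root_.deriv b (s + (t - s) * x))
              (_root_.deriv b (s + (t - s) * x)) < 0 := mul_neg_of_pos_of_neg (by positivity) k3
          rcases eq_or_lt_of_le m0 with h1 | h1
          · rw [← h1]; linarith
          · have k5 := mul_neg_of_pos_of_neg h1 k4
            have k6 : (1 - m y) * -(p ^ 2 * κ) ≤ 0 :=
              mul_nonpos_of_nonneg_of_nonpos (by linarith) (by linarith)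
            linarith
      · have e1 : gg (h y x) w (1, 1, 0, 0) = -(cu w + cv w) := by
          simp only [gg, cu, cv, c1, c2]; ring
        have e2 : cu w = m y * ((t - s) * cu (_root_.deriv b (s + (t - s) * x))) +
          (1 - m y) * (p * cu (lv c d κ (V y x))) := rfl
        have e3 : cv w = m y * ((t - s) * cv (_root_.deriv b (s + (t - s) * x))) +
          (1 - m y) * (p * 1) := rfl
        have k1 : 0 ≤ m y * ((t - s) * cu (_root_.deriv b (s + (t - s) * x))) :=
          mul_nonneg m0 (mul_pos hts (hb.pu _ (hτ x hx))).le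
        have k2 : 0 ≤ (1 - m y) * (p * cu (lv c d κ (V y x))) :=
          mul_nonneg (by linarith) (mul_pos p0 hlvu).le
        have k3 : 0 < m y * ((t - s) * cv (_root_.deriv b (s + (t - s) * x))) +
            (1 - m y) * (p * 1) := by
          rcases eq_or_lt_of_le m0 with h1 | h1
          · rw [← h1]; linarith
          · have := mul_pos h1 hpv
            have : 0 ≤ (1 - m y) * (p * 1) := mul_nonneg (by linarith) (by linarith)
            linarith
        rw [e1, e2, e3]
        linarith
      · intro hy1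
        have e0 : m y = 0 := by rw [hy1]; simp only [hm]; norm_num
        have e0' : l y = 1 := by rw [hy1]; simp only [hl]; norm_num
        have e1 : w = p • lv c d κ (V y x) := by rw [hw, e0]; simp
        have e2 : p = H := by rw [hp, e0']; ring
        rw [e1, hlv, e2, hκ]
        apply le_of_eq
        field_simp

end Vale.Agent.P354v
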