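import Vale.Agent.P354.H251.N2
import Vale.Agent.P354.H251.DefsN2

set_option linter.unusedSectionVars false

open scoped ContDiff
open MeasureTheory Set Filter Topology

namespace Vale.Agent.P354v.T.N

open Vale.Agent.P354n

variable {M N : Spc} {Reg : (R4 → ℝ) → Set R4 → Prop}

lemma rev_spacetime (h : IsSpacetime Reg M) : IsSpacetime Reg (rev M) :=
  isSpacetime_dn (rv_spacetime h.up)

lemma rev_isom {ι : M.pt → N.pt} (hN : IsSpacetime Reg N) (hc : Continuous ι) (h : IsIsom ι) :
    IsIsom (M := rev M) (N := rev N) ι :=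
  isIsom_dn (M := rv (Up M)) (N := rv (Up N)) hc (rv_isom hN.up h.up)

/-- **Two-sided inextendibility.** -/
theorem inext2 {p : ENNReal} (hp : 2 ≤ p) (hM : IsSpacetime IsSmooth M) (hne : Nonempty M.pt)
    (h1 : AllEnd p M) (h2 : AllEnd p (rev M)) : IsInext (IsC0W1 p) M := by
  intro N ι hN hc hemb hI
  by_contra hnu
  have hNu : P354p.IsSpacetime (IsC0W1 p) (Up N) := hN.up
  obtain ⟨c, hc1, hc2, hc3⟩ := bdry (N := Up N) (fun f D h => h.1) hNu hc hemb.isOpen_range
    (range_nonempty ι) hnu
  rcases hc3 with hc3 | hc3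
  · exact ((inext p hp).1 M hM).2 h1 N ι c
      { spacetime := hN
        embedding := hemb
        isometry := hI
        proper := hnu
        curve := isFutureCurve_dn (M := Up N) hc3
        curve_mem := hc1
        curve_end := hc2 }
  · exact ((inext p hp).1 (rev M) (rev_spacetime hM)).2 h2 (rev N) ι c
      { spacetime := rev_spacetime hN
        embedding := hemb
        isometry := rev_isom hN hemb.continuous hI
        proper := hnu
        curve := isFutureCurve_dn (M := rv (Up N)) hc3
        curve_mem := hc1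
        curve_end := hc2 }

lemma smooth_reg {p : ENNReal} {f : R4 → ℝ} {D : Set R4} (hD : IsOpen D) (hf : IsSmooth f D) :
    IsC0W1 p f D := by
  have h1 : LocallyLipschitzOn D f := by
    intro x hx
    have h2 : ContDiffAt ℝ 1 f x := (hf.contDiffAt (hD.mem_nhds hx)).of_le (by simp)
    obtain ⟨K, t, ht, hK⟩ := h2.exists_lipschitzOnWith
    exact ⟨K, t, mem_nhdsWithin_of_mem_nhds ht, hK⟩
  obtain ⟨h3, h4⟩ := P354k.isC0W1_of_locallyLipschitzOn hD h1
  refine ⟨h3, fun a => ?_⟩
  obtain ⟨h, k1, k2⟩ := h4 a
  refine ⟨h, fun Q hQ hQc => ?_, k2⟩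
  have hfin : IsFiniteMeasure (volume.restrict Q) := ⟨by
    rw [Measure.restrict_apply MeasurableSet.univ, univ_inter]
    exact hQc.measure_lt_top⟩
  exact (k1 Q hQ hQc).mono_exponent le_top

/-- **Maximality.** -/
theorem inext3 {p : ENNReal} (h : IsInext (IsC0W1 p) M) : IsInext IsSmooth M := by
  intro N ι hN hc hemb hI
  refine h N ι ?_ hc hemb hI
  exact
    { tensor := hN.tensor
      signature := hN.signature
      timelike := hN.timelike
      continuous := hN.continuous
      regular := fun e a b => smooth_reg (N.toE e).open_target (hN.regular e a b) }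

end Vale.Agent.P354v.T.N
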