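import Vale.Agent.P354.H251.Hom2

set_option linter.unusedSectionVars false

open scoped ContDiff
open MeasureTheory Set Filter Topology

namespace Vale.Agent.P354v.T

open Vale.Agent.P354p
open Vale.Agent.P354p.Ex (LLe mono_lim)

variable [PD]

/-- the data of a future curve in the example -/
lemma curve_data {a : ℝ → (VV 0).pt} (ha : IsFutureCurve (VV 0) 0 (Ico 0 1) a) :
    CD (fun t => (a t).1) ∧ ∀ t ∈ Ioo (0:ℝ) 1,
      |c1 (_root_.deriv (fun t => (a t).1) t)| ≤ cu (_root_.deriv (fun t => (a t).1) t) +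
        cv (_root_.deriv (fun t => (a t).1) t) ∧
      |c2 (_root_.deriv (fun t => (a t).1) t)| ≤ cu (_root_.deriv (fun t => (a t).1) t) +
        cv (_root_.deriv (fun t => (a t).1) t) := by
  set b : ℝ → R4 := fun t => (a t).1 with hb
  have hd : ∀ t ∈ Ioo (0:ℝ) 1, (HasDerivAt b (_root_.deriv b t) t ∧
      gg (b t) (_root_.deriv b t) (_root_.deriv b t) < 0) ∧
      0 < cu (_root_.deriv b t) ∧ 0 < cv (_root_.deriv b t) ∧
      |c1 (_root_.deriv b t)| ≤ cu (_root_.deriv b t) + cv (_root_.deriv b t) ∧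
      |c2 (_root_.deriv b t)| ≤ cu (_root_.deriv b t) + cv (_root_.deriv b t) := by
    intro t ht
    have htI : t ∈ Ico (0:ℝ) 1 := ⟨ht.1.le, ht.2⟩
    have hnb : Ico (0:ℝ) 1 ∈ 𝓝 t := Ico_mem_nhds ht.1 ht.2
    obtain ⟨h1, h2⟩ := ha.2 t htI () (mem_univ _)
    have h3 : DifferentiableAt ℝ b t :=
      (h1.differentiableWithinAt (by norm_num)).differentiableAt hnb
    have h4 : derivWithin (fun s => co (M := VV 0) () (a s)) (Ico 0 1) t = _root_.deriv b t :=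
      derivWithin_of_mem_nhds hnb
    obtain ⟨h5, -, h6⟩ := h2 _ _ rfl rfl
    rw [h4] at h5 h6
    have h7 : gg (b t) (_root_.deriv b t) (_root_.deriv b t) < 0 := h5
    have h8 : gg (b t) (_root_.deriv b t) (1, 1, 0, 0) < 0 := h6
    refine ⟨⟨h3.hasDerivAt, h7⟩, ?_⟩
    exact cone2 (AA_bd _).1 (BB_bd _).1 h7 h8
  refine ⟨⟨?_, fun t => (a t).2, fun t ht => (hd t ht).1.1, fun t ht => (hd t ht).1.2,
    fun t ht => (hd t ht).2.1, fun t ht => (hd t ht).2.2.1⟩, fun t ht => (hd t ht).2.2.2⟩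
  intro t ht
  have htI : t ∈ Ico (0:ℝ) 1 := ⟨ht.1.le, ht.2⟩
  exact ((ha.2 t htI () (mem_univ _)).1).mono Ioo_subset_Ico_self

/-- limits of future curves -/
lemma lim_exists {a : ℝ → (VV 0).pt} (ha : IsFutureCurve (VV 0) 0 (Ico 0 1) a) {B : ℝ}
    (hB : ∀ t ∈ Ioo (1 / 2 : ℝ) 1, cu (a t).1 ≤ B) :
    ∃ z : R4, Tendsto (fun t => (a t).1) (𝓝[<] 1) (𝓝 z) ∧ -1 < cv z ∧ cv z ≤ 0 := by
  obtain ⟨hb, hb2⟩ := curve_data ha
  set b : ℝ → R4 := fun t => (a t).1 with hbdef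
  have hsub : ∀ t ∈ Ioo (1/2:ℝ) 1, t ∈ Ioo (0:ℝ) 1 := fun t ht => ⟨by linarith [ht.1], ht.2⟩
  have hv0 : ∀ t, cv (b t) ≤ 0 := by
    intro t
    have := (hb.mem t).2
    simp only [Nat.cast_zero] at this
    exact this.le
  have du' : ∀ t ∈ Ioo (1/2:ℝ) 1, HasDerivAt (fun t => cu (b t)) (cu (_root_.deriv b t)) t :=
    fun t ht => hb.du (hsub t ht)
  have dv' : ∀ t ∈ Ioo (1/2:ℝ) 1, HasDerivAt (fun t => cv (b t)) (cv (_root_.deriv b t)) t :=
    fun t ht => hb.dv (hsub t ht)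
  have d1' : ∀ t ∈ Ioo (1/2:ℝ) 1, HasDerivAt (fun t => c1 (b t)) (c1 (_root_.deriv b t)) t :=
    fun t ht => hb.d1 (hsub t ht)
  have d2' : ∀ t ∈ Ioo (1/2:ℝ) 1, HasDerivAt (fun t => c2 (b t)) (c2 (_root_.deriv b t)) t :=
    fun t ht => hb.d2 (hsub t ht)
  obtain ⟨Lu, hLu, hLu'⟩ := mono_lim (B := B) du' (fun t ht => (hb.pu t (hsub t ht)).le)
    (fun t ht => hB t ht)
  obtain ⟨Lv, hLv, hLv'⟩ := mono_lim (B := 0) dv' (fun t ht => (hb.pv t (hsub t ht)).le)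
    (fun t _ => hv0 t)
  -- the angular coordinates
  have key : ∀ g g' : ℝ → ℝ, (∀ t ∈ Ioo (1/2:ℝ) 1, HasDerivAt g (g' t) t) →
      (∀ t ∈ Ioo (1/2:ℝ) 1, |g' t| ≤ cu (_root_.deriv b t) + cv (_root_.deriv b t)) →
      ∃ L, Tendsto g (𝓝[<] 1) (𝓝 L) := by
    intro g g' hg hg'
    have hs : ∀ t ∈ Ioo (1/2:ℝ) 1, HasDerivAt (fun t => cu (b t) + cv (b t))
        (cu (_root_.deriv b t) + cv (_root_.deriv b t)) t :=
      fun t ht => (du' t ht).add (dv' t ht)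
    have hneg : ∀ t ∈ Ioo (1/2:ℝ) 1, cu (b t) + cv (b t) ≤ B := fun t ht => by
      have h1 : cu (b t) ≤ B := hB t ht
      have h2 := hv0 t
      linarith
    have hm : MonotoneOn (fun t => (cu (b t) + cv (b t)) - g t) (Ioo (1/2:ℝ) 1) := by
      have hdd : ∀ t ∈ Ioo (1/2:ℝ) 1, HasDerivAt (fun t => (cu (b t) + cv (b t)) - g t)
          ((cu (_root_.deriv b t) + cv (_root_.deriv b t)) - g' t) t :=
        fun t ht => (hs t ht).sub (hg t ht)
      apply monotoneOn_of_deriv_nonneg (convex_Ioo _ _)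
      · exact fun t ht => (hdd t ht).continuousAt.continuousWithinAt
      · rw [interior_Ioo]
        exact fun t ht => (hdd t ht).differentiableAt.differentiableWithinAt
      · rw [interior_Ioo]
        intro t ht
        rw [(hdd t ht).deriv]
        have := (abs_le.1 (hg' t ht)).2
        linarith only [this]
    have hm2 : MonotoneOn (fun t => (cu (b t) + cv (b t)) + g t) (Ioo (1/2:ℝ) 1) := by
      have hdd : ∀ t ∈ Ioo (1/2:ℝ) 1, HasDerivAt (fun t => (cu (b t) + cv (b t)) + g t)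
          ((cu (_root_.deriv b t) + cv (_root_.deriv b t)) + g' t) t :=
        fun t ht => (hs t ht).add (hg t ht)
      apply monotoneOn_of_deriv_nonneg (convex_Ioo _ _)
      · exact fun t ht => (hdd t ht).continuousAt.continuousWithinAt
      · rw [interior_Ioo]
        exact fun t ht => (hdd t ht).differentiableAt.differentiableWithinAt
      · rw [interior_Ioo]
        intro t ht
        rw [(hdd t ht).deriv]
        have := (abs_le.1 (hg' t ht)).1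
        linarith only [this]
    have h34 : (3/4:ℝ) ∈ Ioo (1/2:ℝ) 1 := ⟨by norm_num, by norm_num⟩
    have hmono : MonotoneOn (fun t => (cu (b t) + cv (b t)) + g t) (Ioo (3/4:ℝ) 1) :=
      hm2.mono (Ioo_subset_Ioo_left (by norm_num))
    have hbdd : BddAbove ((fun t => (cu (b t) + cv (b t)) + g t) '' Ioo (3/4:ℝ) 1) := by
      refine ⟨2 * B - ((cu (b (3/4)) + cv (b (3/4))) - g (3/4)), ?_⟩
      rintro _ ⟨t, ht, rfl⟩
      have h1 := hm h34 ⟨by linarith only [ht.1], ht.2⟩ ht.1.le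
      have h2 := hneg t ⟨by linarith only [ht.1], ht.2⟩
      simp only at h1 ⊢
      linarith
    have hlim := MonotoneOn.tendsto_nhdsWithin_Ioo_left
      (⟨7/8, by norm_num, by norm_num⟩ : (Ioo (3/4:ℝ) 1).Nonempty) hmono hbdd
    refine ⟨_, ((hlim.sub (hLu.add hLv)).congr fun t => ?_)⟩
    ring
  obtain ⟨L1, hL1⟩ := key _ _ d1' (fun t ht => (hb2 t (hsub t ht)).1)
  obtain ⟨L2, hL2⟩ := key _ _ d2' (fun t ht => (hb2 t (hsub t ht)).2)
  have h34 : (3/4:ℝ) ∈ Ioo (1/2:ℝ) 1 := ⟨by norm_num, by norm_num⟩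
  refine ⟨(Lu, Lv, L1, L2), ?_, ?_, ?_⟩
  · exact hLu.prodMk_nhds (hLv.prodMk_nhds (hL1.prodMk_nhds hL2))
  · exact lt_of_lt_of_le (hb.mem (3/4)).1 (hLv' _ h34)
  · exact le_of_tendsto hLv (Eventually.of_forall fun t => hv0 t)

/-- **Curves along which u is unbounded.** -/
lemma far_raw {a : ℝ → (VV 0).pt} (hb : CD (fun t => (a t).1))
    (hun : ∀ C, ∃ t ∈ Ioo (0:ℝ) 1, C < cu (a t).1) {s : ℝ} (hs : s ∈ Ioo (0:ℝ) 1) (L : ℝ) :
    ∃ t ∈ Ioo s 1, ∃ H : ℝ → ℝ → Pb 0,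
      ContinuousOn (fun p : ℝ × ℝ => H p.1 p.2) (Icc 0 1 ×ˢ Icc 0 1) ∧
      (∀ x, H 0 x = a (s + (t - s) * x)) ∧ ∀ y ∈ Icc (0:ℝ) 1, H y 0 = a s ∧ H y 1 = a t ∧
      ∀ x ∈ Icc (0:ℝ) 1, ContDiffWithinAt ℝ 1 (fun x => (H y x).1) (Icc 0 1) x ∧
        ∀ w, w = derivWithin (fun x => (H y x).1) (Icc 0 1) x → gg (H y x).1 w w < 0 ∧
          gg (H y x).1 w (1, 1, 0, 0) < 0 ∧ (y = 1 → gg (H y x).1 w w < -L) := by
  obtain ⟨t, ht, hE, hL⟩ := En_top hb hun hs L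
  obtain ⟨h, hc, h0, h1⟩ := hom_core hb hs ht hE
  classical
  refine ⟨t, ht, fun y x => if x ∈ Icc (0:ℝ) 1 then mk 0 (h y x) else a (s + (t - s) * x),
    ?_, ?_, ?_⟩
  · have k1 : ContinuousOn (fun p : ℝ × ℝ => mk 0 (h p.1 p.2)) (Icc 0 1 ×ˢ Icc 0 1) :=
      continuousOn_mk.comp hc fun p hp => ((h1 p.1 hp.1).2.2 p.2 hp.2).2.1
    refine k1.congr fun p hp => ?_
    simp only
    rw [if_pos hp.2]
  · intro x
    simp only
    split_ifs with hx
    · rw [h0]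
      exact mk_self _
    · rfl
  · intro y hy
    obtain ⟨e0, e1, h2⟩ := h1 y hy
    have m0 : (0:ℝ) ∈ Icc (0:ℝ) 1 := ⟨le_rfl, zero_le_one⟩
    have m1 : (1:ℝ) ∈ Icc (0:ℝ) 1 := ⟨zero_le_one, le_rfl⟩
    refine ⟨?_, ?_, ?_⟩
    · simp only [if_pos m0, e0]
      exact mk_self _
    · simp only [if_pos m1, e1]
      exact mk_self _
    · intro x hx
      obtain ⟨k1, k2, w, k3, k4, k5, k6⟩ := h2 x hx
      have hval : ∀ x ∈ Icc (0:ℝ) 1,
          (if x ∈ Icc (0:ℝ) 1 then mk 0 (h y x) else a (s + (t - s) * x)).1 = h y x := by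
        intro x hx
        rw [if_pos hx]
        exact mk_val (h2 x hx).2.1
      refine ⟨k1.congr hval (hval x hx), ?_⟩
      intro w' hw'
      have k7 : HasDerivWithinAt
          (fun x => (if x ∈ Icc (0:ℝ) 1 then mk 0 (h y x) else a (s + (t - s) * x)).1) w
          (Icc 0 1) x := k3.hasDerivWithinAt.congr hval (hval x hx)
      rw [k7.derivWithin ((uniqueDiffOn_Icc zero_lt_one) x hx)] at hw'
      rw [hw', hval x hx]
      refine ⟨k4, k5, fun hy1 => lt_of_le_of_lt (k6 hy1) ?_⟩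
      linarith

/-- line derivatives of functions of v, tangential and transversal -/
lemma ld_tan (F : ℝ → ℝ) (x : R4) {a : R4} (ha : cv a = 0) :
    lineDeriv ℝ (fun y : R4 => F (cv y)) x a = 0 := by
  have h3 : HasDerivAt (fun t : ℝ => F (cv (x + t • a))) 0 0 := by
    have e : (fun t : ℝ => F (cv (x + t • a))) = fun _ => F (cv x) := by
      funext t
      have : cv (x + t • a) = cv x + t * cv a := rfl
      rw [this, ha, mul_zero, add_zero]
    rw [e]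
    exact hasDerivAt_const _ _
  exact HasLineDerivAt.lineDeriv h3

lemma ld_dv (F : ℝ → ℝ) (x : R4) : lineDeriv ℝ (fun y : R4 => F (cv y)) x (0, 1, 0, 0) =
    _root_.deriv F (cv x) := by
  show _root_.deriv (fun t : ℝ => F (cv (x + t • ((0, 1, 0, 0) : R4)))) 0 = _
  have e : (fun t : ℝ => F (cv (x + t • ((0, 1, 0, 0) : R4)))) = fun t => F (cv x + t) := by
    funext t
    have : cv (x + t • ((0, 1, 0, 0) : R4)) = cv x + t * 1 := rfl
    rw [this, mul_one]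
  rw [e, deriv_comp_const_add, add_zero]

end Vale.Agent.P354v.T
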