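import Vale.Agent.P354.H251.Vac2
import Vale.Agent.P354.H251.Cau2

set_option linter.unusedSectionVars false

open scoped ContDiff
open MeasureTheory Set Filter Topology

namespace Vale.Agent.P354v.T

open Vale.Agent.P354p
open Vale.Agent.P354p.Ex (LLe)

/-- the space S is, in the chart e, the plane wave on -1 < v < 0 -/
structure Mod [PD] (S : Spc) (e : S.Chart) (φ : S.pt → Pb 0) (ψ : Pb 0 → S.pt) : Prop where
  sp : IsSpacetime IsSmooth S
  cφ : Continuous φ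
  cψ : Continuous ψ
  l : ∀ p, ψ (φ p) = p
  r : ∀ q, φ (ψ q) = q
  on : ∀ p, On e p
  co : ∀ p, co e p = (φ p).1
  tg : ∀ y, y ∈ Db 0 → y ∈ tgt e
  tg' : ∀ y, y ∈ tgt e → y ∈ Db 0
  g : ∀ y a b, S.g e y a b = gg y a b
  X : ∀ y, S.X e y = (1, 1, 0, 0)

variable [PD] {S : Spc} {e : S.Chart} {φ : S.pt → Pb 0} {ψ : Pb 0 → S.pt}

/-- future curves of S are future curves of the plane wave -/
lemma Mod.to (h : Mod S e φ ψ) {m : ℝ} {I : Set ℝ} {a : ℝ → S.pt} (ha : IsFutureCurve S m I a) :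
    IsFutureCurve (VV 0) m I (fun t => φ (a t)) := by
  refine ⟨h.cφ.comp_continuousOn ha.1, ?_⟩
  rintro t ht ⟨⟩ _
  obtain ⟨h1, h2⟩ := ha.2 t ht e (h.on _)
  have e1 : (fun s => P354p.co e (a s)) = fun s => P354p.co (M := VV 0) () (φ (a s)) :=
    funext fun s => h.co _
  rw [e1] at h1 h2
  refine ⟨h1, fun y w hy hw => ?_⟩
  have h3 := h2 y w (by rw [h.co]; exact hy) hw
  rw [h.g, h.g, h.X] at h3
  exact h3

/-- future curves of the plane wave are future curves of S -/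
lemma Mod.of (h : Mod S e φ ψ) {m : ℝ} {I : Set ℝ} {b : ℝ → Pb 0}
    (hb : IsFutureCurve (VV 0) m I b) (hu : UniqueDiffOn ℝ I) :
    IsFutureCurve S m I (fun t => ψ (b t)) := by
  have e1 : (fun s => P354p.co e (ψ (b s))) = fun s => P354p.co (M := VV 0) () (b s) :=
    funext fun s => by rw [h.co, h.r]; rfl
  refine isFutureCurve_of_charts h.sp (h.cψ.comp_continuousOn hb.1) hu fun t ht => ⟨e, h.on _, ?_⟩
  obtain ⟨h1, h2⟩ := hb.2 t ht () (mem_univ _)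
  rw [e1]
  refine ⟨h1, fun y w hy hw => ?_⟩
  have h3 := h2 y w (by rw [hy, h.co, h.r]; rfl) hw
  rw [h.g, h.g, h.X]
  exact h3

lemma Mod.tendsto (h : Mod S e φ ψ) {a : ℝ → S.pt} {F : Filter ℝ} {q : Pb 0}
    (hq : Tendsto (fun t => φ (a t)) F (𝓝 q)) : Tendsto a F (𝓝 (ψ q)) := by
  have h1 := (h.cψ.tendsto q).comp hq
  refine h1.congr fun t => ?_
  exact h.l _

/-- **Curves along which u is unbounded.** -/
lemma Mod.far (h : Mod S e φ ψ) {a : ℝ → S.pt} (hb : CD (fun t => (φ (a t)).1))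
    (hun : ∀ C, ∃ t ∈ Ioo (0:ℝ) 1, C < cu (φ (a t)).1) {s : ℝ} (hs : s ∈ Ioo (0:ℝ) 1) (L : ℝ) :
    ∃ t ∈ Ioo s 1, ∃ H : ℝ → ℝ → S.pt,
      ContinuousOn (fun p : ℝ × ℝ => H p.1 p.2) (Icc 0 1 ×ˢ Icc 0 1) ∧
      (∀ x, H 0 x = a (s + (t - s) * x)) ∧ (∀ y ∈ Icc (0:ℝ) 1, H y 0 = a s ∧ H y 1 = a t ∧
        IsFutureCurve S 0 (Icc 0 1) (H y)) ∧ IsFutureCurve S L (Icc 0 1) (H 1) := by
  obtain ⟨t, ht, H, h1, h2, h3⟩ := far_raw hb hun hs L
  have hcont : ∀ y ∈ Icc (0:ℝ) 1, ContinuousOn (fun x => H y x) (Icc 0 1) := by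
    intro y hy
    exact h1.comp (f := fun x : ℝ => (y, x)) (by fun_prop) fun x hx => ⟨hy, hx⟩
  have hfc : ∀ y ∈ Icc (0:ℝ) 1, ∀ m, (∀ x ∈ Icc (0:ℝ) 1, ∀ w,
      w = derivWithin (fun x => (H y x).1) (Icc 0 1) x → gg (H y x).1 w w ≤ -m) →
      IsFutureCurve (VV 0) m (Icc 0 1) (H y) := by
    intro y hy m hm
    refine ⟨hcont y hy, ?_⟩
    rintro x hx ⟨⟩ _
    obtain ⟨k1, k2⟩ := (h3 y hy).2.2 x hx
    refine ⟨k1, ?_⟩
    rintro _ w rfl hw
    obtain ⟨k3, k4, -⟩ := k2 w hw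
    exact ⟨k3, hm x hx w hw, k4⟩
  refine ⟨t, ht, fun y x => ψ (H y x), h.cψ.comp_continuousOn h1, ?_, ?_, ?_⟩
  · intro x
    show ψ (H 0 x) = _
    rw [h2, h.l]
  · intro y hy
    refine ⟨?_, ?_, ?_⟩
    · show ψ (H y 0) = _
      rw [(h3 y hy).1, h.l]
    · show ψ (H y 1) = _
      rw [(h3 y hy).2.1, h.l]
    · refine h.of (hfc y hy 0 ?_) (uniqueDiffOn_Icc zero_lt_one)
      intro x hx w hw
      rw [neg_zero]
      exact (((h3 y hy).2.2 x hx).2 w hw).1.le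
  · have m1 : (1:ℝ) ∈ Icc (0:ℝ) 1 := ⟨zero_le_one, le_rfl⟩
    refine h.of (hfc 1 m1 L ?_) (uniqueDiffOn_Icc zero_lt_one)
    intro x hx w hw
    exact ((((h3 1 m1).2.2 x hx).2 w hw).2.2 rfl).le

/-- **The Cauchy hypersurface.** -/
lemma Mod.cauchy (h : Mod S e φ ψ) {a : ℝ → S.pt} (ha : IsFutureCurve S 0 (Ioo 0 1) a)
    (h1 : ∀ x, ¬ Tendsto a (𝓝[<] 1) (𝓝 x)) (h0 : ∀ x, ¬ Tendsto a (𝓝[>] 0) (𝓝 x)) :
    ∃! t, t ∈ Ioo (0:ℝ) 1 ∧ a t ∈ {p | φ p ∈ SS} :=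
  T.cauchy (h.to ha) (fun x hx => h1 _ (h.tendsto hx)) fun x hx => h0 _ (h.tendsto hx)

/-- the two-sided example -/
lemma mod_true : Mod MM true (fun p => p) (fun p => p) where
  sp := spacetime_mm
  cφ := continuous_id
  cψ := continuous_id
  l := fun _ => rfl
  r := fun _ => rfl
  on := fun p => mem_univ p
  co := fun _ => rfl
  tg := fun _ h => h
  tg' := fun _ h => h
  g := fun _ _ _ => rfl
  X := fun _ => rfl

/-- the reflection of points -/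
def rp (p : Pb 0) : Pb 0 := ⟨ro false p.1, ro_mem false p.2⟩

lemma rp_rp (p : Pb 0) : rp (rp p) = p := Subtype.ext (ro_ro false p.1)

lemma rp_cont : Continuous rp :=
  ((ro_smooth false).continuous.comp continuous_subtype_val).subtype_mk _

lemma gg_rev (P : PD) (y a b : R4) :
    @gg P (ro false y) (rl false a) (rl false b) = @gg P.rev y a b := by
  unfold gg
  have e1 : @AA P.rev (cv y) = @AA P (cv (ro false y)) := rfl
  have e2 : @BB P.rev (cv y) = @BB P (cv (ro false y)) := rfl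
  rw [e1, e2]
  generalize @AA P (cv (ro false y)) = A
  generalize @BB P (cv (ro false y)) = B
  simp only [rl, cond_false, cu, cv, c1, c2]
  ring

/-- the time reversed example -/
lemma mod_false (P : PD) : @Mod P.rev (rv (@MM P)) false rp rp := by
  refine @Mod.mk P.rev _ _ _ _ (rv_spacetime spacetime_mm) rp_cont rp_cont rp_rp rp_rp
    (fun p => mem_univ p) (fun _ => rfl) (fun _ h => h) (fun _ h => h)
    (fun y a b => gg_rev P y a b) fun y => ?_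
  show -rl false (1, 1, 0, 0) = (1, 1, 0, 0)
  simp [rl]

end Vale.Agent.P354v.T
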