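import Vale.Agent.P354.H251.Mod
import Vale.Agent.P354.H251.DefsN2

set_option linter.unusedSectionVars false

open scoped ContDiff
open MeasureTheory Set Filter Topology

namespace Vale.Agent.P354v.T.N

open Vale.Agent.P354n
open Vale.Agent.P354p.Ex (Prm LLe kk kk_meas kk_int kk_not norm_R4_lt LLe_nonneg LLe_meas)

section

variable [PD]

/-- the coefficients -/
noncomputable def CN : ℕ → R4 → ℝ
  | 0 => fun x => AA (cv x)
  | 2 => fun x => BB (cv x)
  | 3 => fun _ => 2
  | _ => fun _ => 0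

lemma CN_smooth (i : ℕ) : ContDiffOn ℝ ∞ (CN i) (Db 0) := by
  match i with
  | 0 => exact A_smooth
  | 1 => exact contDiffOn_const
  | 2 => exact B_smooth
  | 3 => exact contDiffOn_const
  | (n + 4) => exact contDiffOn_const

lemma form_CN (x a : R4) : gg x a a = form CN x a := by
  simp only [gg, form, h1, h2, CN, P354p.cu, P354p.cv, P354p.c1, P354p.c2, cu, cv, c1, c2]
  ring

/-- the weight -/
noncomputable def kw (v : ℝ) : ℝ := PD.C * WW PD.a v

lemma kw_meas : Measurable kw := WW_meas.const_mul _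

lemma kw_nonneg (v : ℝ) : 0 ≤ kw v := mul_nonneg PD.ok.C0 (WW_nonneg v)

lemma kw_int : Integrable kw := by
  have h : Integrable (WW PD.a) :=
    ⟨WW_meas.aestronglyMeasurable, lt_top_iff_ne_top.2 (WW_int PD.ok.a0 PD.ok.a1)⟩
  exact h.const_mul _

lemma LL_not {pp : ENNReal} (hp : 2 ≤ pp) (hpp : PD.a = pp.toReal⁻¹) {b : ℝ} (hb : b < 0) :
    ¬ eLpNorm (LLe PD.a 0) pp (volume.restrict (Ioo b 0)) < ⊤ := by
  let _ : Prm := ⟨PD.a, PD.ok.a0, PD.ok.a1⟩
  exact kk_not hp hpp hb

/-- a derivative which is large near v = 0 is not in L^p -/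
lemma not_in {f : ℝ → ℝ} (hf : Measurable f)
    (hlow : ∀ v ∈ Ioo (-(1 / 2) : ℝ) 0, LLe PD.a 0 v / 5 ≤ -f v) {pp : ENNReal} (hp : 2 ≤ pp)
    (hpp : PD.a = pp.toReal⁻¹) {b : ℝ} (hb : b < 0) :
    ¬ eLpNorm f pp (volume.restrict (Ioo b 0)) < ⊤ := by
  intro hin
  have hb' : max b (-(1 / 2)) < 0 := max_lt hb (by norm_num)
  refine LL_not hp hpp hb' ?_
  have h1 : eLpNorm f pp (volume.restrict (Ioo (max b (-(1 / 2))) 0)) < ⊤ :=
    (eLpNorm_mono_measure _ (Measure.restrict_mono (Ioo_subset_Ioo_left (le_max_left _ _))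
      le_rfl)).trans_lt hin
  have h4 : eLpNorm (fun v => 5 * f v) pp (volume.restrict (Ioo (max b (-(1 / 2))) 0)) < ⊤ :=
    (MemLp.const_mul (⟨hf.aestronglyMeasurable, h1⟩ :
      MemLp f pp (volume.restrict (Ioo (max b (-(1 / 2))) 0))) 5).2
  refine lt_of_le_of_lt (eLpNorm_mono_ae ?_) h4
  rw [ae_restrict_iff' measurableSet_Ioo]
  refine Eventually.of_forall fun v hv => ?_
  have hv1 : -(1 / 2) < v := (le_max_right _ _).trans_lt hv.1
  rw [Real.norm_eq_abs, Real.norm_eq_abs, abs_of_nonneg (LLe_nonneg le_rfl v), abs_mul,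
    abs_of_pos (by norm_num : (0:ℝ) < 5)]
  have k1 := hlow v ⟨hv1, hv.2⟩
  have k2 := neg_le_abs (f v)
  linarith

end

section

variable [PD] {S : P354p.Spc} {e : S.Chart} {φ : S.pt → Pb 0} {ψ : Pb 0 → S.pt}

lemma box_sub {z : R4} (hz : cv z = 0) : nullBox z (1 / 2) ⊆ Db 0 := by
  rintro x ⟨hx, hxv⟩
  let _ : Prm := ⟨PD.a, PD.ok.a0, PD.ok.a1⟩
  obtain ⟨h3, h4⟩ := norm_R4_lt hx
  have e2 : cv (x - z) = cv x - cv z := rfl
  have h4' : |cv (x - z)| < 1 / 2 := h4
  rw [e2, hz, sub_zero, abs_lt] at h4'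
  refine ⟨show -1 < cv x by linarith only [h4'], ?_⟩
  rw [Nat.cast_zero]
  exact hxv

lemma dd (i : ℕ) (x a : R4) (h : cv a = 0) : deriv (CN i) x a = 0 := by
  match i with
  | 0 => exact ld_tan AA x h
  | 1 => exact ld_tan (fun _ => 0) x h
  | 2 => exact ld_tan BB x h
  | 3 => exact ld_tan (fun _ => 2) x h
  | (n + 4) => exact ld_tan (fun _ => 0) x h

lemma dnbox (h : Mod S e φ ψ) {z : R4} (hz : cv z = 0) :
    IsDNBox (Dn S) e CN (nullBox z (1 / 2)) (1 / 2) PD.K kw (fun _ => PD.K) where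
  subset := fun x hx => h.tg x (box_sub hz hx)
  smooth := fun i => (CN_smooth i).mono (box_sub hz)
  metric := by
    intro x hx
    have hx0 := box_sub hz hx
    have hx1 : -1 < cv x := hx0.1
    have hx2 : cv x < 0 := hx.2
    have hA := AA_bd (cv x)
    have hB := BB_bd (cv x)
    have hK := PD.ok.K2
    have hkw : 0 ≤ kw (cv x) := kw_nonneg _
    refine ⟨fun a => (h.g x a a).trans (form_CN x a), ?_, ?_, ?_, ?_, ?_⟩
    · show 0 < cv (S.X e x)
      rw [h.X]
      show (0:ℝ) < 1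
      norm_num1
    · show 1 ≤ PD.K * 2
      linarith
    · intro a ha hb
      refine ⟨?_, ?_⟩
      · have e1 : form CN x a = AA (cv x) * c1 a ^ 2 + BB (cv x) * c2 a ^ 2 := by
          simp only [form, CN, h1, hb, ha, h2]
          ring
        have e2 : ‖a‖ ^ 2 ≤ c1 a ^ 2 + c2 a ^ 2 := by
          have h1 : ‖a‖ = max |c1 a| |c2 a| := by
            have k1 : ‖a‖ = max |cu a| (max |cv a| (max |c1 a| |c2 a|)) := rfl
            rw [k1, ha, hb, abs_zero, max_eq_right (le_max_of_le_left (abs_nonneg (c1 a))),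
              max_eq_right (le_max_of_le_left (abs_nonneg (c1 a)))]
          rw [h1]
          rcases max_cases |c1 a| |c2 a| with ⟨h2, _⟩ | ⟨h2, _⟩
          · rw [h2, sq_abs]; linarith only [sq_nonneg (c2 a)]
          · rw [h2, sq_abs]; linarith only [sq_nonneg (c1 a)]
        rw [e1]
        have h1 : 1 ≤ PD.K * AA (cv x) := by nlinarith only [hK, hA.1]
        have h2 : 1 ≤ PD.K * BB (cv x) := by nlinarith only [hK, hB.1]
        have h3 := mul_le_mul_of_nonneg_right h1 (sq_nonneg (c1 a))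
        have h4 := mul_le_mul_of_nonneg_right h2 (sq_nonneg (c2 a))
        linarith
      · intro i hi
        have hKa : 0 ≤ PD.K * ‖a‖ := by positivity
        have hc' : |deriv (CN i) x a| ≤ PD.K * ‖a‖ := by
          rw [dd i x a hb, abs_zero]
          exact hKa
        refine ⟨?_, hc'⟩
        have h0 : |(0:ℝ)| ≤ PD.K := by rw [abs_zero]; linarith only [hK]
        have h2 : |(2:ℝ)| ≤ PD.K := by rw [abs_of_pos (by norm_num : (0:ℝ) < 2)]; exact hK
        have hAb : |AA (cv x)| ≤ PD.K := by rw [abs_of_nonneg (by linarith)]; exact hA.2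
        have hBb : |BB (cv x)| ≤ PD.K := by rw [abs_of_nonneg (by linarith)]; exact hB.2
        interval_cases i
        · exact hAb
        · exact h0
        · exact hBb
        · exact h2
        · exact h0
        · exact h0
        · exact h0
        · exact h0
    · have h0 : deriv (fun _ => (0:ℝ)) x du - deriv (fun _ => (0:ℝ)) x dv = 0 := by
        have k1 : ∀ a : R4, deriv (fun _ => (0:ℝ)) x a = 0 := fun a =>
          HasLineDerivAt.lineDeriv (hasDerivAt_const (0:ℝ) (0:ℝ))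
        rw [k1, k1, sub_zero]
      rintro i (rfl | rfl)
      · show |deriv (fun _ => 0) x du - deriv (fun _ => 0) x dv| ≤ PD.K
        rw [h0, abs_zero]; linarith
      · show |deriv (fun _ => 0) x du - deriv (fun _ => 0) x dv| ≤ PD.K
        rw [h0, abs_zero]; linarith
    · intro i hi
      constructor
      · have kA : |deriv (CN 0) x dv| ≤ kw (cv x) := by
          have : deriv (CN 0) x dv = DA (cv x) := ld_dv AA x
          rw [this]
          exact PD.ok.dA _ hx1.ne' hx2.ne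
        have kB : |deriv (CN 2) x dv| ≤ kw (cv x) := by
          have : deriv (CN 2) x dv = DB (cv x) := ld_dv BB x
          rw [this]
          exact PD.ok.dB _ hx1.ne' hx2.ne
        have h2 : ∀ c : ℝ, |deriv (fun _ => c) x dv| ≤ kw (cv x) := by
          intro c
          have k1 : deriv (fun _ => c) x dv = 0 :=
            HasLineDerivAt.lineDeriv (hasDerivAt_const (0:ℝ) c)
          rw [k1, abs_zero]; exact hkw
        interval_cases i
        · exact kA
        · exact h2 0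
        · exact kB
        · exact h2 2
      · rw [dd i x du rfl, abs_zero]
        linarith
  integrable := by
    rintro f (rfl | rfl)
    · refine ⟨kw_meas, ?_⟩
      exact (memLp_one_iff_integrable.2 (kw_int.integrableOn (s := Ioo (-(1 / 2)) 0))).2
    · refine ⟨measurable_const, ?_⟩
      exact (memLp_one_iff_integrable.2 (by simp only [ne_eq, enorm_ne_top, not_false_eq_true, integrable_const_enorm])).2

/-- curves which tend to a point of v = 0 -/
lemma front (h : Mod S e φ ψ) {pp : ENNReal} (hp : 2 ≤ pp) (hpp : PD.a = pp.toReal⁻¹)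
    {a : ℝ → S.pt} {z : R4} (hz : cv z = 0)
    (ht : Tendsto (fun t => (φ (a t)).1) (𝓝[<] 1) (𝓝 z)) : EndsAtFront pp (Dn S) a := by
  refine ⟨e, CN, z, 1 / 2, PD.K, kw, fun _ => 0, dnbox h hz, hz, ?_, measurable_const, ?_,
    fun x hx => ⟨rfl, rfl, fun c hc => Or.inl ?_⟩⟩
  · refine ⟨?_, ?_⟩
    · have h3 : ∀ᶠ t in 𝓝[<] (1:ℝ), (φ (a t)).1 ∈ Metric.ball z (1 / 2) :=
        ht.eventually (Metric.ball_mem_nhds _ (by norm_num))
      filter_upwards [h3] with t ht'
      rw [mem_ball_iff_norm] at ht'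
      have h4 := (φ (a t)).2.2
      rw [Nat.cast_zero] at h4
      refine ⟨h.on _, ?_⟩
      show P354p.co e (a t) ∈ nullBox z (1 / 2)
      rw [h.co]
      exact ⟨ht', h4⟩
    · refine ht.congr fun t => ?_
      exact (h.co (a t)).symm
  · show eLpNorm (fun _ => (0:ℝ)) (pp / 2) (volume.restrict (Ioo (-(1 / 2)) 0)) < ⊤
    have : eLpNorm (fun _ : ℝ => (0:ℝ)) (pp / 2) (volume.restrict (Ioo (-(1 / 2)) 0)) = 0 :=
      eLpNorm_zero
    rw [this]
    exact ENNReal.zero_lt_top
  · have hopen : IsOpen (nullBox x c) := by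
      have h1 : Continuous fun y : R4 => ‖y - x‖ := by fun_prop
      have h2 : Continuous fun y : R4 => cv y := continuous_fst.comp continuous_snd
      exact (isOpen_lt h1 continuous_const).inter (isOpen_lt h2 continuous_const)
    have hmem : x ∈ nullBox x c := ⟨by rw [sub_self, norm_zero]; exact hc, hx.2⟩
    refine ((hopen.measure_pos volume ⟨x, hmem⟩).trans_le (measure_mono ?_)).ne'
    intro y hy
    refine ⟨hy, fun b hb => ?_, 1 / 2, by norm_num,
      fun w hw b hb i hi => ⟨0, by norm_num, ?_⟩⟩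
    · have key : ∀ F : ℝ → ℝ, ¬ eLpNorm (_root_.deriv F) pp (volume.restrict (Ioo b 0)) < ⊤ →
          ¬ InLp pp (fun v => deriv (fun x => F (cv x)) (y.1, v, y.2.2) dv) b := by
        intro F hF hin
        refine hF (lt_of_le_of_lt (le_of_eq ?_) hin)
        congr 1
        funext v
        exact (ld_dv F (y.1, v, y.2.2)).symm
      rcases PD.ok.low0 with k | k
      · exact ⟨0, by norm_num, key AA (not_in DA_meas k hp hpp hb)⟩
      · exact ⟨2, by norm_num, key BB (not_in DB_meas k hp hpp hb)⟩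
    · have h0 : deriv (fun y => deriv (CN i) y dv) w b = 0 := by
        have key : ∀ F : ℝ → ℝ, deriv (fun y => deriv (fun x => F (cv x)) y dv) w b = 0 := by
          intro F
          have e : (fun y : R4 => deriv (fun x => F (cv x)) y dv) =
              fun y => _root_.deriv F (cv y) := by
            funext y
            exact ld_dv F y
          rw [e]
          exact ld_tan (_root_.deriv F) w hb
        interval_cases i
        · exact key AA
        · exact key fun _ => 0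
        · exact key BB
      rw [h0, abs_zero, mul_zero]
      positivity

/-- curves along which u is unbounded -/
lemma far (h : Mod S e φ ψ) {a : ℝ → S.pt} (hb : CD (fun t => (φ (a t)).1))
    (hun : ∀ C, ∃ t ∈ Ioo (0:ℝ) 1, C < cu (φ (a t)).1) : IsFar (Dn S) a := by
  intro b hb1
  set s : ℝ := (max b 0 + 1) / 2 with hs
  have hmax : max b 0 < 1 := max_lt hb1 one_pos
  have hs0 : 0 < s := by have := le_max_right b 0; linarith
  have hs1 : s < 1 := by linarith
  have hbs : b < s := by have := le_max_left b 0; linarith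
  refine ⟨s, ⟨hbs, hs1⟩, fun L => ?_⟩
  obtain ⟨t, ht, H, h1, h2, h3, h4⟩ := h.far hb hun ⟨hs0, hs1⟩ (L + 1)
  refine ⟨t, ht, fun p => H p.1 p.2, h1, h2, fun y hy => ⟨isFutureCurve_dn (h3 y hy).2.2,
    (h3 y hy).1, (h3 y hy).2.1⟩, ⟨h4.1, fun t ht e he => ⟨(h4.2 t ht e he).1,
      fun y w hy hw => ?_⟩⟩⟩
  obtain ⟨k1, k2, k3⟩ := (h4.2 t ht e he).2 y w hy hw
  exact ⟨lt_of_le_of_lt k2 (by linarith), k3⟩

/-- all curves end -/
theorem ends (h : Mod S e φ ψ) {pp : ENNReal} (hp : 2 ≤ pp) (hpp : PD.a = pp.toReal⁻¹)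
    {a : ℝ → S.pt} (ha : IsFutureCurve (Dn S) 0 (Ico 0 1) a)
    (hno : ∀ p, ¬ Tendsto a (𝓝[<] 1) (𝓝 p)) : Ends pp (Dn S) a := by
  have ha' : P354p.IsFutureCurve S 0 (Ico 0 1) a := ha.up le_rfl
  have hb' := h.to ha'
  by_cases hbd : ∃ B, ∀ t ∈ Ioo (1 / 2 : ℝ) 1, cu (φ (a t)).1 ≤ B
  · obtain ⟨B, hB⟩ := hbd
    obtain ⟨z, hz, h1, h2⟩ := lim_exists hb' hB
    rcases lt_or_eq_of_le h2 with h2 | h2
    · exfalso
      have hz0 : z ∈ Db 0 := ⟨h1, by rw [Nat.cast_zero]; exact h2⟩
      exact hno _ (h.tendsto (q := ⟨z, hz0⟩) (tendsto_subtype_rng.2 hz))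
    · exact Or.inl (front h hp hpp h2 hz)
  · push Not at hbd
    refine Or.inr (Or.inr (far h (curve_data hb').1 fun C => ?_))
    obtain ⟨t, ht, h⟩ := hbd C
    exact ⟨t, ⟨by linarith [ht.1], ht.2⟩, h⟩

/-- global hyperbolicity -/
theorem gh (h : Mod S e φ ψ) : IsGH (Dn S) :=
  ⟨{p | φ p ∈ SS}, fun _ h1 h2 => h.cauchy (h1.up le_rfl) (fun x => (h2 x).1) fun x => (h2 x).2⟩

/-- vacuum in one chart -/
theorem vac1 (h : Mod S e φ ψ) : ∃ G, ∀ y ∈ P354p.tgt e, IsConn (S.g e) G y ∧
    ∃ E E' : Fin 4 → R4, (∀ i j, S.g e y (E i) (E' j) = if i = j then 1 else 0) ∧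
    ∀ b c, ∑ i, Riem (S.g e) G y (E i) b c (E' i) = 0 := by
  have hg : S.g e = gg := funext fun y => funext fun a => funext fun b => h.g y a b
  rw [hg]
  refine ⟨GC, fun y hy => ⟨?_, fun i => E1 i, fun i => E2 y i, ?_, ?_⟩⟩
  · intro a b c
    have h := conn (h.tg' y hy) a b c
    rw [two_mul]
    exact h
  · intro i j
    have h := dual y i.1 i.2 j.1 j.2
    have e : (if i = j then (1:ℝ) else 0) = if i.1 = j.1 then 1 else 0 := by
      by_cases hij : i = j
      · rw [if_pos hij, if_pos (by rw [hij])]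
      · rw [if_neg hij, if_neg (fun h => hij (Fin.ext h))]
    rw [e]
    exact h
  · intro b c
    have h := ricci (h.tg' y hy) b c
    rw [Finset.sum_range] at h
    exact h

end

/-- vacuum -/
theorem vacuum (P : PD) : IsVacuum (Dn (@MM P)) := by
  intro e
  cases e
  · obtain ⟨G, hG⟩ := @vac1 P.rev _ _ _ _ (mod_false P)
    exact ⟨G, hG⟩
  · obtain ⟨G, hG⟩ := @vac1 P _ _ _ _ mod_true
    exact ⟨G, hG⟩

lemma conn_pb (n : ℕ) : ConnectedSpace (Pb n) := by
  rw [← isConnected_iff_connectedSpace]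
  refine (Convex.isPathConnected ?_ ⟨_, (pb n).2⟩).isConnected
  intro x hx y hy a b ha hb hab
  obtain ⟨h1, h2⟩ := hx
  obtain ⟨h3, h4⟩ := hy
  have e : P354p.cv (a • x + b • y) = a * P354p.cv x + b * P354p.cv y := rfl
  refine ⟨?_, ?_⟩
  · rw [e]
    rcases eq_or_lt_of_le ha with h | h
    · have : b = 1 := by linarith
      rw [← h, this]; linarith
    · nlinarith
  · rw [e]
    rcases eq_or_lt_of_le ha with h | h
    · have : b = 1 := by linarith
      rw [← h, this]; linarith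
    · nlinarith

/-- **Sharpness in vacuum, two-sided.** -/
theorem sharp {p : ENNReal} (hp : 2 ≤ p) : ∃ M N ι c, IsSpacetime IsSmooth M ∧ IsVacuum M ∧
    IsGH M ∧ AllEnd p M ∧ AllEnd p (rev M) ∧ ConnectedSpace M.pt ∧ ConnectedSpace N.pt ∧
      ∀ q < p, IsFutureExtension (IsC0W1 q) M N ι c := by
  have ha : p.toReal⁻¹ ≤ 1 / 2 := by
    by_cases ht : p = ⊤
    · rw [ht]; simp only [ENNReal.toReal_top, inv_zero, one_div, inv_nonneg, Nat.ofNat_nonneg]
    · have hr : 2 ≤ p.toReal := by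
        have := ENNReal.toReal_mono ht hp
        simpa only [ge_iff_le, ENNReal.toReal_ofNat] using this
      rw [inv_le_comm₀ (by linarith) (by norm_num)]
      simpa only [one_div, inv_inv] using hr
  let P : PD := ⟨p.toReal⁻¹, K2, 34 * K2, F2 p.toReal⁻¹ 1, F2 p.toReal⁻¹ (-1),
    pdat (inv_nonneg.2 ENNReal.toReal_nonneg) ha⟩
  refine ⟨Dn (@MM P), Dn (@VV P 1), @io P, @c0 P, isSpacetime_dn (@spacetime_mm P), vacuum P,
    @gh P _ _ _ _ mod_true, fun _ h1 h2 => @ends P _ _ _ _ mod_true _ hp rfl _ h1 h2,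
    fun _ h1 h2 => @ends P.rev _ _ _ _ (mod_false P) _ hp rfl _ h1 h2, conn_pb 0, conn_pb 1,
    fun q hq => ?_⟩
  have hqt : q ≠ ⊤ := ne_top_of_lt hq
  refine isFutureExtension_dn (@extension P _ (max 1 q.toReal) (le_max_left _ _) ?_ ?_)
  · rw [ENNReal.le_ofReal_iff_toReal_le hqt (by positivity)]
    exact le_max_right _ _
  · show p.toReal⁻¹ * max 1 q.toReal < 1
    by_cases ht : p = ⊤
    · rw [ht]; simp only [ENNReal.toReal_top, inv_zero, zero_mul, zero_lt_one]
    · have hr : 2 ≤ p.toReal := by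
        have := ENNReal.toReal_mono ht hp
        simpa only [ge_iff_le, ENNReal.toReal_ofNat] using this
      have hlt : q.toReal < p.toReal := (ENNReal.toReal_lt_toReal hqt ht).2 hq
      rw [inv_mul_lt_iff₀ (by linarith only [hr]), mul_one]
      exact max_lt (by linarith only [hr]) hlt

end Vale.Agent.P354v.T.N
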