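import Vale.Agent.P354.H251.ModG
import Vale.Agent.P354.H251.DefsW

set_option linter.unusedSectionVars false

open scoped ContDiff
open MeasureTheory Set Filter Topology

namespace Vale.Agent.P354v.G.N

open Vale.Agent.P354n (IsSmooth IsSpacetime IsC0W1 IsFutureCurve IsFutureExtension IsDNBox nullBox IsIsom Spc deriv du dv form h1 h2 InLp EndsAtFront EndsAt IsFar Ends AllEnd IsGH IsVacuum IsConn Riem rev IsInext IsMax isFutureCurve_dn isFutureExtension_dn isSpacetime_dn Dn Up inext cu cv c1 c2 R4 wave coef IsData)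
open Vale.Agent.P354p.Ex (Prm LLe kk kk_meas kk_int kk_not norm_R4_lt LLe_nonneg LLe_meas)

section

variable [PG]

/-- the coefficients -/
noncomputable def CN : ℕ → R4 → ℝ
  | 0 => fun x => AA (cv x)
  | 2 => fun x => BB (cv x)
  | 3 => fun _ => 2
  | _ => fun _ => 0

lemma CN_smooth (i : ℕ) : ContDiffOn ℝ ∞ (CN i) (Db 0) := by
  match i with
  | 0 => exact A_smooth
  | 1 => exact contDiffOn_const
  | 2 => exact B_smooth
  | 3 => exact contDiffOn_const
  | (n + 4) => exact contDiffOn_const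

lemma form_CN (x a : R4) : gg x a a = form CN x a := by
  simp only [gg, form, h1, h2, CN, P354p.cu, P354p.cv, P354p.c1, P354p.c2, cu, cv, c1, c2]
  ring

/-- the weight -/
noncomputable abbrev kw : ℝ → ℝ := PG.W

lemma kw_int : Integrable kw :=
  ⟨PG.ok.Wm.aestronglyMeasurable, lt_top_iff_ne_top.2 PG.ok.W1⟩

end

section

variable [PG] {S : P354p.Spc} {e : S.Chart} {φ : S.pt → Pb 0} {ψ : Pb 0 → S.pt}

lemma box_sub {z : R4} (hz : cv z = 0) : nullBox z (1 / 2) ⊆ Db 0 := by
  rintro x ⟨hx, hxv⟩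
  let _ : Prm := ⟨0, le_rfl, by norm_num⟩
  obtain ⟨h3, h4⟩ := norm_R4_lt hx
  have e2 : cv (x - z) = cv x - cv z := rfl
  have h4' : |cv (x - z)| < 1 / 2 := h4
  rw [e2, hz, sub_zero, abs_lt] at h4'
  refine ⟨show -1 < cv x by linarith only [h4'], ?_⟩
  rw [Nat.cast_zero]
  exact hxv

lemma dd (i : ℕ) (x a : R4) (h : cv a = 0) : deriv (CN i) x a = 0 := by
  match i with
  | 0 => exact ld_tan AA x h
  | 1 => exact ld_tan (fun _ => 0) x h
  | 2 => exact ld_tan BB x h
  | 3 => exact ld_tan (fun _ => 2) x h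
  | (n + 4) => exact ld_tan (fun _ => 0) x h

lemma dnbox (h : Mod S e φ ψ) {z : R4} (hz : cv z = 0) :
    IsDNBox (Dn S) e CN (nullBox z (1 / 2)) (1 / 2) PG.K kw (fun _ => PG.K) where
  subset := fun x hx => h.tg x (box_sub hz hx)
  smooth := fun i => (CN_smooth i).mono (box_sub hz)
  metric := by
    intro x hx
    have hx0 := box_sub hz hx
    have hx1 : -1 < cv x := hx0.1
    have hx2 : cv x < 0 := hx.2
    have hA := AA_bd (cv x)
    have hB := BB_bd (cv x)
    have hK := PG.ok.K2
    have hkw : 0 ≤ kw (cv x) := PG.ok.W0 _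
    refine ⟨fun a => (h.g x a a).trans (form_CN x a), ?_, ?_, ?_, ?_, ?_⟩
    · show 0 < cv (S.X e x)
      rw [h.X]
      show (0:ℝ) < 1
      norm_num1
    · show 1 ≤ PG.K * 2
      linarith
    · intro a ha hb
      refine ⟨?_, ?_⟩
      · have e1 : form CN x a = AA (cv x) * c1 a ^ 2 + BB (cv x) * c2 a ^ 2 := by
          simp only [form, CN, h1, hb, ha, h2]
          ring
        have e2 : ‖a‖ ^ 2 ≤ c1 a ^ 2 + c2 a ^ 2 := by
          have h1 : ‖a‖ = max |c1 a| |c2 a| := by
            have k1 : ‖a‖ = max |cu a| (max |cv a| (max |c1 a| |c2 a|)) := rfl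
            rw [k1, ha, hb, abs_zero, max_eq_right (le_max_of_le_left (abs_nonneg (c1 a))),
              max_eq_right (le_max_of_le_left (abs_nonneg (c1 a)))]
          rw [h1]
          rcases max_cases |c1 a| |c2 a| with ⟨h2, _⟩ | ⟨h2, _⟩
          · rw [h2, sq_abs]; linarith only [sq_nonneg (c2 a)]
          · rw [h2, sq_abs]; linarith only [sq_nonneg (c1 a)]
        rw [e1]
        have h1 : 1 ≤ PG.K * AA (cv x) := by nlinarith only [hK, hA.1]
        have h2 : 1 ≤ PG.K * BB (cv x) := by nlinarith only [hK, hB.1]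
        have h3 := mul_le_mul_of_nonneg_right h1 (sq_nonneg (c1 a))
        have h4 := mul_le_mul_of_nonneg_right h2 (sq_nonneg (c2 a))
        linarith
      · intro i hi
        have hKa : 0 ≤ PG.K * ‖a‖ := by positivity
        have hc' : |deriv (CN i) x a| ≤ PG.K * ‖a‖ := by
          rw [dd i x a hb, abs_zero]
          exact hKa
        refine ⟨?_, hc'⟩
        have h0 : |(0:ℝ)| ≤ PG.K := by rw [abs_zero]; linarith only [hK]
        have h2 : |(2:ℝ)| ≤ PG.K := by rw [abs_of_pos (by norm_num : (0:ℝ) < 2)]; exact hK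
        have hAb : |AA (cv x)| ≤ PG.K := by rw [abs_of_nonneg (by linarith)]; exact hA.2
        have hBb : |BB (cv x)| ≤ PG.K := by rw [abs_of_nonneg (by linarith)]; exact hB.2
        interval_cases i
        · exact hAb
        · exact h0
        · exact hBb
        · exact h2
        · exact h0
        · exact h0
        · exact h0
        · exact h0
    · have h0 : deriv (fun _ => (0:ℝ)) x du - deriv (fun _ => (0:ℝ)) x dv = 0 := by
        have k1 : ∀ a : R4, deriv (fun _ => (0:ℝ)) x a = 0 := fun a =>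
          HasLineDerivAt.lineDeriv (hasDerivAt_const (0:ℝ) (0:ℝ))
        rw [k1, k1, sub_zero]
      rintro i (rfl | rfl)
      · show |deriv (fun _ => 0) x du - deriv (fun _ => 0) x dv| ≤ PG.K
        rw [h0, abs_zero]; linarith
      · show |deriv (fun _ => 0) x du - deriv (fun _ => 0) x dv| ≤ PG.K
        rw [h0, abs_zero]; linarith
    · intro i hi
      constructor
      · have kA : |deriv (CN 0) x dv| ≤ kw (cv x) := by
          have : deriv (CN 0) x dv = DA (cv x) := ld_dv AA x
          rw [this]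
          exact PG.ok.dA _ hx1.ne' hx2.ne
        have kB : |deriv (CN 2) x dv| ≤ kw (cv x) := by
          have : deriv (CN 2) x dv = DB (cv x) := ld_dv BB x
          rw [this]
          exact PG.ok.dB _ hx1.ne' hx2.ne
        have h2 : ∀ c : ℝ, |deriv (fun _ => c) x dv| ≤ kw (cv x) := by
          intro c
          have k1 : deriv (fun _ => c) x dv = 0 :=
            HasLineDerivAt.lineDeriv (hasDerivAt_const (0:ℝ) c)
          rw [k1, abs_zero]; exact hkw
        interval_cases i
        · exact kA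
        · exact h2 0
        · exact kB
        · exact h2 2
      · rw [dd i x du rfl, abs_zero]
        linarith
  integrable := by
    rintro f (rfl | rfl)
    · refine ⟨PG.ok.Wm, ?_⟩
      exact (memLp_one_iff_integrable.2 (kw_int.integrableOn (s := Ioo (-(1 / 2)) 0))).2
    · refine ⟨measurable_const, ?_⟩
      exact (memLp_one_iff_integrable.2 (by simp only [ne_eq, enorm_ne_top, not_false_eq_true, integrable_const_enorm])).2

/-- curves which tend to a point of v = 0 -/
lemma front (h : Mod S e φ ψ) {pp : ENNReal}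
    (hN : ∀ b < 0, ¬ eLpNorm DA pp (volume.restrict (Ioo b 0)) < ⊤ ∨
      ¬ eLpNorm DB pp (volume.restrict (Ioo b 0)) < ⊤)
    {a : ℝ → S.pt} {z : R4} (hz : cv z = 0)
    (ht : Tendsto (fun t => (φ (a t)).1) (𝓝[<] 1) (𝓝 z)) : EndsAtFront pp (Dn S) a := by
  refine ⟨e, CN, z, 1 / 2, PG.K, kw, fun _ => 0, dnbox h hz, hz, ?_, measurable_const, ?_,
    fun x hx => ⟨rfl, rfl, fun c hc => Or.inl ?_⟩⟩
  · refine ⟨?_, ?_⟩
    · have h3 : ∀ᶠ t in 𝓝[<] (1:ℝ), (φ (a t)).1 ∈ Metric.ball z (1 / 2) :=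
        ht.eventually (Metric.ball_mem_nhds _ (by norm_num))
      filter_upwards [h3] with t ht'
      rw [mem_ball_iff_norm] at ht'
      have h4 := (φ (a t)).2.2
      rw [Nat.cast_zero] at h4
      refine ⟨h.on _, ?_⟩
      show P354p.co e (a t) ∈ nullBox z (1 / 2)
      rw [h.co]
      exact ⟨ht', h4⟩
    · refine ht.congr fun t => ?_
      exact (h.co (a t)).symm
  · show eLpNorm (fun _ => (0:ℝ)) (pp / 2) (volume.restrict (Ioo (-(1 / 2)) 0)) < ⊤
    have : eLpNorm (fun _ : ℝ => (0:ℝ)) (pp / 2) (volume.restrict (Ioo (-(1 / 2)) 0)) = 0 :=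
      eLpNorm_zero
    rw [this]
    exact ENNReal.zero_lt_top
  · have hopen : IsOpen (nullBox x c) := by
      have h1 : Continuous fun y : R4 => ‖y - x‖ := by fun_prop
      have h2 : Continuous fun y : R4 => cv y := continuous_fst.comp continuous_snd
      exact (isOpen_lt h1 continuous_const).inter (isOpen_lt h2 continuous_const)
    have hmem : x ∈ nullBox x c := ⟨by rw [sub_self, norm_zero]; exact hc, hx.2⟩
    refine ((hopen.measure_pos volume ⟨x, hmem⟩).trans_le (measure_mono ?_)).ne'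
    intro y hy
    refine ⟨hy, fun b hb => ?_, 1 / 2, by norm_num,
      fun w hw b hb i hi => ⟨0, by norm_num, ?_⟩⟩
    · have key : ∀ F : ℝ → ℝ, ¬ eLpNorm (_root_.deriv F) pp (volume.restrict (Ioo b 0)) < ⊤ →
          ¬ InLp pp (fun v => deriv (fun x => F (cv x)) (y.1, v, y.2.2) dv) b := by
        intro F hF hin
        refine hF (lt_of_le_of_lt (le_of_eq ?_) hin)
        congr 1
        funext v
        exact (ld_dv F (y.1, v, y.2.2)).symm
      rcases hN b hb with k | k
      · exact ⟨0, by norm_num, key AA k⟩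
      · exact ⟨2, by norm_num, key BB k⟩
    · have h0 : deriv (fun y => deriv (CN i) y dv) w b = 0 := by
        have key : ∀ F : ℝ → ℝ, deriv (fun y => deriv (fun x => F (cv x)) y dv) w b = 0 := by
          intro F
          have e : (fun y : R4 => deriv (fun x => F (cv x)) y dv) =
              fun y => _root_.deriv F (cv y) := by
            funext y
            exact ld_dv F y
          rw [e]
          exact ld_tan (_root_.deriv F) w hb
        interval_cases i
        · exact key AA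
        · exact key fun _ => 0
        · exact key BB
      rw [h0, abs_zero, mul_zero]
      positivity

/-- curves along which u is unbounded -/
lemma far (h : Mod S e φ ψ) {a : ℝ → S.pt} (hb : CD (fun t => (φ (a t)).1))
    (hun : ∀ C, ∃ t ∈ Ioo (0:ℝ) 1, C < cu (φ (a t)).1) : IsFar (Dn S) a := by
  intro b hb1
  set s : ℝ := (max b 0 + 1) / 2 with hs
  have hmax : max b 0 < 1 := max_lt hb1 one_pos
  have hs0 : 0 < s := by have := le_max_right b 0; linarith
  have hs1 : s < 1 := by linarith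
  have hbs : b < s := by have := le_max_left b 0; linarith
  refine ⟨s, ⟨hbs, hs1⟩, fun L => ?_⟩
  obtain ⟨t, ht, H, h1, h2, h3, h4⟩ := h.far hb hun ⟨hs0, hs1⟩ (L + 1)
  refine ⟨t, ht, fun p => H p.1 p.2, h1, h2, fun y hy => ⟨isFutureCurve_dn (h3 y hy).2.2,
    (h3 y hy).1, (h3 y hy).2.1⟩, ⟨h4.1, fun t ht e he => ⟨(h4.2 t ht e he).1,
      fun y w hy hw => ?_⟩⟩⟩
  obtain ⟨k1, k2, k3⟩ := (h4.2 t ht e he).2 y w hy hw
  exact ⟨lt_of_le_of_lt k2 (by linarith), k3⟩

/-- all curves end -/
theorem ends (h : Mod S e φ ψ) {pp : ENNReal}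
    (hN : ∀ b < 0, ¬ eLpNorm DA pp (volume.restrict (Ioo b 0)) < ⊤ ∨
      ¬ eLpNorm DB pp (volume.restrict (Ioo b 0)) < ⊤)
    {a : ℝ → S.pt} (ha : IsFutureCurve (Dn S) 0 (Ico 0 1) a)
    (hno : ∀ p, ¬ Tendsto a (𝓝[<] 1) (𝓝 p)) : Ends pp (Dn S) a := by
  have ha' : P354p.IsFutureCurve S 0 (Ico 0 1) a := ha.up le_rfl
  have hb' := h.to ha'
  by_cases hbd : ∃ B, ∀ t ∈ Ioo (1 / 2 : ℝ) 1, cu (φ (a t)).1 ≤ B
  · obtain ⟨B, hB⟩ := hbd
    obtain ⟨z, hz, h1, h2⟩ := lim_exists hb' hB
    rcases lt_or_eq_of_le h2 with h2 | h2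
    · exfalso
      have hz0 : z ∈ Db 0 := ⟨h1, by rw [Nat.cast_zero]; exact h2⟩
      exact hno _ (h.tendsto (q := ⟨z, hz0⟩) (tendsto_subtype_rng.2 hz))
    · exact Or.inl (front h hN h2 hz)
  · push Not at hbd
    refine Or.inr (Or.inr (far h (curve_data hb').1 fun C => ?_))
    obtain ⟨t, ht, h⟩ := hbd C
    exact ⟨t, ⟨by linarith [ht.1], ht.2⟩, h⟩

/-- global hyperbolicity -/
theorem gh (h : Mod S e φ ψ) : IsGH (Dn S) :=
  ⟨{p | φ p ∈ SS}, fun _ h1 h2 => h.cauchy (h1.up le_rfl) (fun x => (h2 x).1) fun x => (h2 x).2⟩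

/-- vacuum in one chart -/
theorem vac1 (h : Mod S e φ ψ) : ∃ G, ∀ y ∈ P354p.tgt e, IsConn (S.g e) G y ∧
    ∃ E E' : Fin 4 → R4, (∀ i j, S.g e y (E i) (E' j) = if i = j then 1 else 0) ∧
    ∀ b c, ∑ i, Riem (S.g e) G y (E i) b c (E' i) = 0 := by
  have hg : S.g e = gg := funext fun y => funext fun a => funext fun b => h.g y a b
  rw [hg]
  refine ⟨GC, fun y hy => ⟨?_, fun i => E1 i, fun i => E2 y i, ?_, ?_⟩⟩
  · intro a b c
    have h := conn (h.tg' y hy) a b c
    rw [two_mul]
    exact h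
  · intro i j
    have h := dual y i.1 i.2 j.1 j.2
    have e : (if i = j then (1:ℝ) else 0) = if i.1 = j.1 then 1 else 0 := by
      by_cases hij : i = j
      · rw [if_pos hij, if_pos (by rw [hij])]
      · rw [if_neg hij, if_neg (fun h => hij (Fin.ext h))]
    rw [e]
    exact h
  · intro b c
    have h := ricci (h.tg' y hy) b c
    rw [Finset.sum_range] at h
    exact h

end

/-- vacuum -/
theorem vacuum (P : PG) : IsVacuum (Dn (@MM P)) := by
  intro e
  cases e
  · obtain ⟨G, hG⟩ := @vac1 P.rev _ _ _ _ (mod_false P)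
    exact ⟨G, hG⟩
  · obtain ⟨G, hG⟩ := @vac1 P _ _ _ _ mod_true
    exact ⟨G, hG⟩

lemma conn_pb (n : ℕ) : ConnectedSpace (Pb n) := by
  rw [← isConnected_iff_connectedSpace]
  refine (Convex.isPathConnected ?_ ⟨_, (pb n).2⟩).isConnected
  intro x hx y hy a b ha hb hab
  obtain ⟨h1, h2⟩ := hx
  obtain ⟨h3, h4⟩ := hy
  have e : P354p.cv (a • x + b • y) = a * P354p.cv x + b * P354p.cv y := rfl
  refine ⟨?_, ?_⟩
  · rw [e]
    rcases eq_or_lt_of_le ha with h | h
    · have : b = 1 := by linarith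
      rw [← h, this]; linarith
    · nlinarith
  · rw [e]
    rcases eq_or_lt_of_le ha with h | h
    · have : b = 1 := by linarith
      rw [← h, this]; linarith
    · nlinarith

end Vale.Agent.P354v.G.N
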