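import Vale.Agent.P354.H251.Wk

set_option linter.unusedSectionVars false

open scoped ContDiff
open MeasureTheory Set Filter Topology

namespace Vale.Agent.P354v

open Vale.Agent.P354p
open Vale.Agent.P354p.Ex (Prm LLe)

/-- the region -1 < v < n -/
def Db (n : ℕ) : Set R4 := {x | -1 < cv x ∧ cv x < n}

abbrev Pb (n : ℕ) : Type := {x : R4 // x ∈ Db n}

lemma isOpen_Db (n : ℕ) : IsOpen (Db n) := by
  have h2 : Continuous cv := by unfold cv; fun_prop
  exact (isOpen_lt continuous_const h2).inter (isOpen_lt h2 continuous_const)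

noncomputable def pb (n : ℕ) : Pb n := ⟨(0, -1 / 2, 0, 0), by
  simp only [Db, cv, mem_ofPred_eq]
  have : (0:ℝ) ≤ n := Nat.cast_nonneg n
  constructor <;> linarith⟩

open Classical in
/-- the point with given coordinates -/
noncomputable def mk (n : ℕ) (x : R4) : Pb n := if h : x ∈ Db n then ⟨x, h⟩ else pb n

variable {n m : ℕ}

lemma mk_val {x : R4} (h : x ∈ Db n) : (mk n x).1 = x := by
  rw [mk, dif_pos h]

lemma mk_self (p : Pb n) : mk n p.1 = p := Subtype.ext (mk_val p.2)

lemma continuousOn_mk : ContinuousOn (mk n) (Db n) := by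
  rw [continuousOn_iff_continuous_domRestrict]
  have : (Db n).domRestrict (mk n) = fun x : Db n => (x : Pb n) := by
    funext x
    exact mk_self x
  rw [this]
  exact continuous_id

/-- the chart -/
noncomputable def chb (n : ℕ) : OpenPartialHomeomorph (Pb n) R4 where
  toFun p := p.1
  invFun y := mk n y
  source := univ
  target := Db n
  map_source' p _ := p.2
  map_target' _ _ := mem_univ _
  left_inv' p _ := mk_self p
  right_inv' y hy := mk_val hy
  open_source := isOpen_univ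
  open_target := isOpen_Db n
  continuousOn_toFun := continuous_subtype_val.continuousOn
  continuousOn_invFun := continuousOn_mk

variable [Prm]

noncomputable def AA (v : ℝ) : ℝ := FF Prm.a 1 v
noncomputable def BB (v : ℝ) : ℝ := FF Prm.a (-1) v

/-- the metric -/
noncomputable def gg (x a b : R4) : ℝ :=
  AA (cv x) * (c1 a * c1 b) + BB (cv x) * (c2 a * c2 b) - (cu a * cv b + cv a * cu b)

lemma AA_bd (v : ℝ) : 2 ≤ AA v ∧ AA v ≤ KK := FF_bd Prm.a0 Prm.a1 (by simp) v
lemma BB_bd (v : ℝ) : 2 ≤ BB v ∧ BB v ≤ KK := FF_bd Prm.a0 Prm.a1 (by simp) v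

lemma AA_cont : Continuous AA := FF_cont Prm.a0 Prm.a1 1
lemma BB_cont : Continuous BB := FF_cont Prm.a0 Prm.a1 (-1)

/-- the region with the metric -/
@[reducible] noncomputable def VV (n : ℕ) : Spc where
  pt := Pb n
  Chart := Unit
  toE := fun _ => chb n
  cover p := ⟨(), mem_univ p⟩
  g := fun _ => gg
  X := fun _ _ => (1, 1, 0, 0)

lemma FF_smooth (e : ℝ) : ContDiffOn ℝ ∞ (fun y : R4 => FF Prm.a e (cv y)) (Db 0) := by
  have h0 := ff_smooth (a := Prm.a) Prm.a0 Prm.a1 e
  have h1 : ContDiffOn ℝ ∞ (fun y : R4 => ff Prm.a e (-cv y)) (Db 0) := by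
    have hv : ContDiffOn ℝ ∞ (fun x : R4 => -cv x) (Db 0) := by
      unfold cv; fun_prop
    refine h0.comp hv ?_
    intro x hx
    have h2 : cv x < 0 := by simpa using hx.2
    exact ⟨show 0 < -cv x by linarith, show -cv x < 1 by linarith [hx.1]⟩
  refine h1.congr fun x hx => ?_
  have h2 : cv x < 0 := by simpa using hx.2
  exact FF_in e hx.1 h2

lemma gg_smooth (a b : R4) : IsSmooth (fun y => gg y a b) (Db 0) :=
  (((FF_smooth 1).mul contDiffOn_const).add ((FF_smooth (-1)).mul contDiffOn_const)).sub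
    contDiffOn_const

lemma gg_sob {q : ENNReal} {r : ℝ} (hr : 1 ≤ r) (hq : q ≤ ENNReal.ofReal r)
    (har : Prm.a * r < 1) (D : Set R4) (a b : R4) : IsC0W1 q (fun y => gg y a b) D := by
  set α := c1 a * c1 b with hα
  set β := c2 a * c2 b with hβ
  set γ := cu a * cv b + cv a * cu b with hγ
  have hK := KK_ge
  refine sob (a := Prm.a) (f := fun v => AA v * α + BB v * β - γ)
    (d := fun v => DD Prm.a 1 v * α + DD Prm.a (-1) v * β) (C := 34 * KK * (|α| + |β|))
    Prm.a0 Prm.a1 ?_ ?_ ?_ (by positivity) ?_ hr hq har D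
  · exact ((AA_cont.mul continuous_const).add (BB_cont.mul continuous_const)).sub continuous_const
  · intro v h1 h2
    exact (((FF_hd Prm.a0 Prm.a1 1 h1 h2).mul_const α).add
      ((FF_hd Prm.a0 Prm.a1 (-1) h1 h2).mul_const β)).sub_const γ
  · exact ((DD_meas 1).mul_const α).add ((DD_meas (-1)).mul_const β)
  · intro v h1 h2
    have k1 := DD_le (a := Prm.a) (e := 1) Prm.a0 Prm.a1 (by simp) h1 h2
    have k2 := DD_le (a := Prm.a) (e := -1) Prm.a0 Prm.a1 (by simp) h1 h2
    refine (abs_add_le _ _).trans ?_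
    rw [abs_mul _ α, abs_mul _ β]
    have l1 := mul_le_mul_of_nonneg_right k1 (abs_nonneg α)
    have l2 := mul_le_mul_of_nonneg_right k2 (abs_nonneg β)
    linarith

lemma gg_XX (y : R4) : gg y (1, 1, 0, 0) (1, 1, 0, 0) = -2 := by
  simp only [gg, cu, cv, c1, c2]
  norm_num

section
variable {f : (VV m).pt → (VV n).pt} (hf : ∀ p, (f p).1 = p.1)
include hf

lemma rep_eq {y : R4} (hy : y ∈ Db m) : rep (M := VV m) (N := VV n) f () () y = y := by
  show (f (mk m y)).1 = y
  rw [hf, mk_val hy]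

lemma dom_eq : dom (M := VV m) (N := VV n) f () () = Db m := by
  ext y
  constructor
  · intro h; exact h.1
  · intro h; exact ⟨h, mem_univ _⟩

lemma push_eq {y : R4} (hy : y ∈ Db m) (a : R4) :
    push (M := VV m) (N := VV n) f () () y a = a := by
  have h2 : HasFDerivAt (rep (M := VV m) (N := VV n) f () ()) (ContinuousLinearMap.id ℝ R4) y := by
    refine (hasFDerivAt_id y).congr_of_eventuallyEq ?_
    filter_upwards [(isOpen_Db m).mem_nhds hy] with z hz
    exact rep_eq hf hz
  exact (h2.hasLineDerivAt a).lineDeriv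

lemma isom : IsIsom (M := VV m) (N := VV n) f := by
  apply IsIsom.mk'
  rintro ⟨⟩ ⟨⟩
  rw [dom_eq hf]
  refine ⟨?_, ?_⟩
  · have h1 : ContDiffOn ℝ ∞ (fun y : R4 => y) (Db m) := contDiffOn_id
    exact h1.congr (fun y hy => rep_eq hf hy)
  · intro y hy
    rw [rep_eq hf hy]
    refine ⟨fun a b => ?_, ?_⟩
    · rw [push_eq hf hy, push_eq hf hy]
    · rw [push_eq hf hy]
      show gg y (1, 1, 0, 0) (1, 1, 0, 0) < 0
      rw [gg_XX]
      norm_num

end

lemma spacetime {Reg : (R4 → ℝ) → Set R4 → Prop}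
    (hreg : ∀ a b, Reg (fun y => gg y a b) (Db n)) : IsSpacetime Reg (VV n) where
  tensor := isom (m := n) (n := n) (f := id) fun _ => rfl
  signature := by
    intro e y hy
    have hA := (AA_bd (cv y)).1
    have hB := (BB_bd (cv y)).1
    have hs : √(AA (cv y)) * √(AA (cv y)) = AA (cv y) := Real.mul_self_sqrt (by linarith only [hA])
    have hs0 : 0 < √(AA (cv y)) := Real.sqrt_pos.mpr (by linarith only [hA])
    have ht : √(BB (cv y)) * √(BB (cv y)) = BB (cv y) := Real.mul_self_sqrt (by linarith only [hB])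
    have ht0 : 0 < √(BB (cv y)) := Real.sqrt_pos.mpr (by linarith only [hB])
    refine ⟨fun a => (cu a + cv a / 2, cu a - cv a / 2, √(AA (cv y)) * c1 a, √(BB (cv y)) * c2 a),
      ⟨?_, ?_⟩, ?_, ?_⟩
    · intro a b
      ext <;> simp only [cu, Prod.fst_add, cv, Prod.snd_add, c1, c2, Prod.mk_add_mk] <;> ring
    · intro t a
      ext <;> simp only [cu, Prod.smul_fst, smul_eq_mul, cv, Prod.smul_snd, c1, c2, Prod.smul_mk] <;> ring
    · intro a b hab
      simp only [Prod.mk.injEq, cu, cv, c1, c2] at hab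
      obtain ⟨h1, h2, h3, h4⟩ := hab
      have k1 : a.1 = b.1 := by linarith only [h1, h2]
      have k2 : a.2.1 = b.2.1 := by linarith only [h1, h2]
      have k3 : a.2.2.1 = b.2.2.1 := mul_left_cancel₀ hs0.ne' h3
      have k4 : a.2.2.2 = b.2.2.2 := mul_left_cancel₀ ht0.ne' h4
      ext <;> assumption
    · intro a b
      show gg y a b = _
      simp only [mink, cu, cv, c1, c2, gg] at *
      linear_combination (-(a.2.2.1 * b.2.2.1)) * hs - a.2.2.2 * b.2.2.2 * ht
  timelike := by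
    intro e y hy
    show gg y (1, 1, 0, 0) (1, 1, 0, 0) < 0
    rw [gg_XX]; norm_num
  continuous := fun e => continuousOn_const
  regular := fun _ a b => hreg a b

/-- the inclusion -/
def io (p : (VV 0).pt) : (VV 1).pt := ⟨p.1, p.2.1, p.2.2.trans (by norm_num)⟩

lemma io_emb : IsOpenEmbedding io := by
  have h1 : IsOpenEmbedding (Subtype.val : Pb 1 → R4) := (isOpen_Db 1).isOpenEmbedding_subtypeVal
  have h2 : IsOpenEmbedding (Subtype.val ∘ io : Pb 0 → R4) :=
    (isOpen_Db 0).isOpenEmbedding_subtypeVal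
  exact IsOpenEmbedding.of_comp io h1 h2

/-- the line -/
noncomputable def li (t : ℝ) : R4 := (-1 / 2 + t / 4, -1 / 2 + t / 2, 0, 0)

/-- the curve -/
noncomputable def c0 (t : ℝ) : (VV 1).pt := mk 1 (li t)

lemma line_mem1 {t : ℝ} (ht : t ∈ Icc (0:ℝ) 1) : li t ∈ Db 1 := by
  simp only [Db, cv, mem_ofPred_eq, li, Nat.cast_one]
  obtain ⟨h1, h2⟩ := ht
  exact ⟨by linarith, by linarith⟩

lemma line_mem0 {t : ℝ} (ht : t ∈ Ico (0:ℝ) 1) : li t ∈ Db 0 := by
  simp only [Db, cv, mem_ofPred_eq, li, Nat.cast_zero]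
  obtain ⟨h1, h2⟩ := ht
  exact ⟨by linarith, by linarith⟩

lemma c0_val {t : ℝ} (ht : t ∈ Icc (0:ℝ) 1) : (c0 t).1 = li t := mk_val (line_mem1 ht)

lemma c0_cont : ContinuousOn c0 (Icc 0 1) := by
  show ContinuousOn (fun t => mk 1 (li t)) (Icc 0 1)
  exact continuousOn_mk.comp (by unfold li; fun_prop) (fun t ht => line_mem1 ht)

lemma c0_curve : IsFutureCurve (VV 1) 0 (Icc 0 1) c0 := by
  refine ⟨c0_cont, ?_⟩
  rintro t ht ⟨⟩ _
  have h1 : ∀ s ∈ Icc (0:ℝ) 1, co (M := VV 1) () (c0 s) = li s := fun s hs => c0_val hs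
  have h2 : HasDerivAt li (1 / 4, 1 / 2, 0, 0) t := by
    have k1 : HasDerivAt (fun s : ℝ => -1 / 2 + s / 4) (1 / 4) t := by
      simpa only [one_div, hasDerivAt_const_add_iff, id_eq] using ((hasDerivAt_id t).div_const 4).const_add (-1 / 2)
    have k2 : HasDerivAt (fun s : ℝ => -1 / 2 + s / 2) (1 / 2) t := by
      simpa only [one_div, hasDerivAt_const_add_iff, id_eq] using ((hasDerivAt_id t).div_const 2).const_add (-1 / 2)
    exact k1.prodMk (k2.prodMk ((hasDerivAt_const t (0:ℝ)).prodMk (hasDerivAt_const t (0:ℝ))))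
  refine ⟨?_, ?_⟩
  · have h5 : ContDiff ℝ 1 li := by unfold li; fun_prop
    exact h5.contDiffAt.contDiffWithinAt.congr (fun s hs => h1 s hs) (h1 t ht)
  · rintro y w hy hw
    have h4 : derivWithin (fun s => co (M := VV 1) () (c0 s)) (Icc 0 1) t =
        (1 / 4, 1 / 2, 0, 0) := by
      have h5 : HasDerivWithinAt (fun s => co (M := VV 1) () (c0 s)) (1 / 4, 1 / 2, 0, 0)
          (Icc 0 1) t := h2.hasDerivWithinAt.congr (fun s hs => h1 s hs) (h1 t ht)
      exact h5.derivWithin ((uniqueDiffOn_Icc zero_lt_one) t ht)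
    rw [h4] at hw
    rw [hw]
    have h6 : gg y (1 / 4, 1 / 2, 0, 0) (1 / 4, 1 / 2, 0, 0) = -1 / 4 := by
      simp only [gg, c1, mul_zero, c2, add_zero, cu, one_div, cv, zero_sub, neg_add_rev]
      norm_num
    have h7 : gg y (1 / 4, 1 / 2, 0, 0) (1, 1, 0, 0) = -3 / 4 := by
      simp only [gg, c1, mul_zero, c2, add_zero, cu, one_div, cv, mul_one, zero_sub, neg_add_rev]
      norm_num
    show gg y _ _ < 0 ∧ gg y _ _ ≤ -0 ∧ gg y _ (1, 1, 0, 0) < 0
    rw [h6, h7]
    norm_num

lemma c0_mem {t : ℝ} (ht : t ∈ Ico (0:ℝ) 1) : c0 t ∈ range io := by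
  refine ⟨mk 0 (li t), ?_⟩
  apply Subtype.ext
  rw [c0_val ⟨ht.1, ht.2.le⟩]
  exact mk_val (line_mem0 ht)

lemma notMem_range {p : (VV 1).pt} (h : cv p.1 = 0) : p ∉ range io := by
  rintro ⟨q, rfl⟩
  have h1 := q.2.2
  have h2 : cv (io q).1 = cv q.1 := rfl
  rw [h2] at h
  rw [h] at h1
  simp at h1

/-- the example has a future extension -/
theorem extension {q : ENNReal} {r : ℝ} (hr : 1 ≤ r) (hq : q ≤ ENNReal.ofReal r)
    (har : Prm.a * r < 1) : IsFutureExtension (IsC0W1 q) (VV 0) (VV 1) io c0 where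
  spacetime := spacetime fun a b => gg_sob hr hq har _ a b
  embedding := io_emb
  isometry := isom (m := 0) (n := 1) (f := io) fun _ => rfl
  proper := by
    intro h
    have h0 : ((0, 0, 0, 0) : R4) ∈ Db 1 := by
      simp only [Db, cv, mem_ofPred_eq]; norm_num
    have : (⟨(0, 0, 0, 0), h0⟩ : Pb 1) ∈ range io := by rw [h]; exact mem_univ _
    exact notMem_range rfl this
  curve := c0_curve
  curve_mem := fun t ht => c0_mem ht
  curve_end := by
    rw [io_emb.isOpen_range.frontier_eq]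
    refine ⟨?_, ?_⟩
    · have h1 : Tendsto c0 (𝓝[<] 1) (𝓝 (c0 1)) := by
        have h3 : ContinuousWithinAt c0 (Icc 0 1) 1 := c0_cont 1 (by constructor <;> norm_num)
        refine h3.mono_left ?_
        rw [← nhdsWithin_Ico_eq_nhdsLT (zero_lt_one (α := ℝ))]
        exact nhdsWithin_mono _ Ico_subset_Icc_self
      refine mem_closure_of_tendsto h1 ?_
      filter_upwards [Ico_mem_nhdsLT (zero_lt_one (α := ℝ))] with t ht
      exact c0_mem ht
    · apply notMem_range
      rw [c0_val (by constructor <;> norm_num)]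
      simp only [cv, li]
      norm_num

end Vale.Agent.P354v
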