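import Vale.Agent.P354.Bdl.B5

set_option linter.unusedSectionVars false

open scoped ContDiff
open MeasureTheory Set Filter Topology

namespace Vale.Agent.P354v

open Vale.Agent.P354p
open Vale.Agent.P354 (Bilin)

/-- time reversal -/
abbrev rv (M : Spc) : Spc where
  pt := M.pt
  top := M.top
  hausdorff := M.hausdorff
  Chart := M.Chart
  toE := M.toE
  cover := M.cover
  g := M.g
  X := fun e y => -M.X e y

section
variable {M N : Spc} {Reg : (R4 → ℝ) → Set R4 → Prop}

lemma bil_neg {B : R4 → R4 → ℝ} (hB : Bilin B) (a b : R4) : B (-a) (-b) = B a b := by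
  have h1 := hB.smul_left (-1) a (-b)
  have h2 := hB.smul_right (-1) a b
  rw [neg_one_smul] at h1 h2
  rw [h1, h2]
  ring

lemma rv_isom {f : M.pt → N.pt} (hN : IsSpacetime Reg N) (h : IsIsom f) :
    IsIsom (M := rv M) (N := rv N) f := by
  rintro e e' F D hF hD
  obtain ⟨h1, h2⟩ := h e e' F D hF hD
  refine ⟨h1, fun y hy => ⟨(h2 y hy).1, ?_⟩⟩
  have h3 := (h2 y hy).2
  have hy' : F y ∈ tgt e' := by
    rw [hD] at hy
    rw [hF]
    exact co_mem hy.2
  have h4 : lineDeriv ℝ F y (-M.X e y) = -lineDeriv ℝ F y (M.X e y) := lineDeriv_neg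
  show N.g e' (F y) (lineDeriv ℝ F y (-M.X e y)) (-N.X e' (F y)) < 0
  rw [h4, bil_neg (hN.bilin e' hy')]
  exact h3

lemma rv_spacetime (h : IsSpacetime Reg M) : IsSpacetime Reg (rv M) where
  tensor := rv_isom h h.tensor
  signature := h.signature
  timelike := by
    intro e y hy
    show M.g e y (-M.X e y) (-M.X e y) < 0
    rw [bil_neg (h.bilin e hy)]
    exact h.timelike e y hy
  continuous := fun e => (h.continuous e).neg
  regular := h.regular

/-- straight lines near a point -/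
lemma lines (hR : ∀ f D, Reg f D → ContinuousOn f D) (hN : IsSpacetime Reg N) (e : N.Chart) {y0 : R4}
    (hy0 : y0 ∈ tgt e) : ∃ δ > 0, Metric.ball y0 δ ⊆ tgt e ∧ ∀ w, ‖w - N.X e y0‖ < δ →
      ∀ (x : R4) (ε τ : ℝ), 0 < ε → 0 < τ → (∀ t ∈ Icc (0:ℝ) 1, x + (t * τ) • (ε • w) ∈ Metric.ball y0 δ) →
        IsFutureCurve N 0 (Icc 0 1) (fun t => inv e (x + (t * τ) • (ε • w))) := by
  have hopen : IsOpen (tgt e : Set R4) := (N.toE e).open_target
  have hT : (tgt e : Set R4) ∈ 𝓝 y0 := hopen.mem_nhds hy0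
  have hcg : ∀ a b, ContinuousAt (fun y => N.g e y a b) y0 := fun a b =>
    (hR _ _ (hN.regular e a b)).continuousAt hT
  have hX : ContinuousAt (N.X e) y0 := (hN.continuous e).continuousAt hT
  have hB0 := hN.bilin e hy0
  -- the two functions
  set V := N.X e y0 with hV
  have hexp : ∀ y ∈ (tgt e : Set R4), ∀ a b, N.g e y a b =
      ∑ i, ∑ j, crd i a * crd j b * N.g e y (bas i) (bas j) :=
    fun y hy a b => bilin_expand (hN.bilin e hy) a b
  have hcrd : ∀ i, Continuous (fun p : R4 × R4 => crd i p.2) := fun i =>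
    (crd i).continuous.comp continuous_snd
  have c1 : ContinuousAt (fun p : R4 × R4 => ∑ i, ∑ j, crd i p.2 * crd j p.2 *
      N.g e p.1 (bas i) (bas j)) (y0, V) := by
    refine tendsto_finsetSum _ fun i _ => tendsto_finsetSum _ fun j _ => ?_
    exact (((hcrd i).continuousAt).mul ((hcrd j).continuousAt)).mul
      (ContinuousAt.comp (g := fun y => N.g e y (bas i) (bas j)) (hcg _ _) continuousAt_fst)
  have c2 : ContinuousAt (fun p : R4 × R4 => ∑ i, ∑ j, crd i p.2 * crd j (N.X e p.1) *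
      N.g e p.1 (bas i) (bas j)) (y0, V) := by
    refine tendsto_finsetSum _ fun i _ => tendsto_finsetSum _ fun j _ => ?_
    have k1 : ContinuousAt (fun p : R4 × R4 => crd j (N.X e p.1)) (y0, V) :=
      ((crd j).continuous.continuousAt).comp
        (ContinuousAt.comp (g := N.X e) hX continuousAt_fst)
    exact (((hcrd i).continuousAt).mul k1).mul
      (ContinuousAt.comp (g := fun y => N.g e y (bas i) (bas j)) (hcg _ _) continuousAt_fst)
  have n1 : ∑ i, ∑ j, crd i V * crd j V * N.g e y0 (bas i) (bas j) < 0 := by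
    rw [← hexp y0 hy0]
    exact hN.timelike e y0 hy0
  have n2 : ∑ i, ∑ j, crd i V * crd j (N.X e y0) * N.g e y0 (bas i) (bas j) < 0 := n1
  have e1 := c1.eventually (gt_mem_nhds n1)
  have e2 := c2.eventually (gt_mem_nhds n2)
  have e3 : ∀ᶠ p : R4 × R4 in 𝓝 (y0, V), p.1 ∈ (tgt e : Set R4) :=
    continuousAt_fst.eventually hT
  obtain ⟨δ, hδ, hball⟩ := Metric.eventually_nhds_iff_ball.1 ((e1.and e2).and e3)
  have hin : ∀ y ∈ Metric.ball y0 δ, ∀ w, ‖w - V‖ < δ → (y, w) ∈ Metric.ball (y0, V) δ := by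
    intro y hy w hw
    rw [← ball_prod_same]
    exact ⟨hy, by rw [mem_ball_iff_norm]; exact hw⟩
  have hsub : Metric.ball y0 δ ⊆ (tgt e : Set R4) := fun y hy =>
    (hball _ (hin y hy V (by rw [sub_self, norm_zero]; exact hδ))).2
  refine ⟨δ, hδ, hsub, ?_⟩
  intro w hw x ε τ hε hτ hseg
  set z : ℝ → R4 := fun t => x + (t * τ) • (ε • w) with hz
  have hzd : ∀ t, HasDerivAt z ((τ * ε) • w) t := by
    intro t
    have k1 : HasDerivAt (fun t : ℝ => t * τ) τ t := by
      simpa using (hasDerivAt_id t).mul_const τ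
    have k2 := (k1.smul_const (ε • w)).const_add x
    rw [smul_smul] at k2
    exact k2
  have hzc : ContDiff ℝ 1 z := by
    simp only [hz]
    fun_prop
  refine isFutureCurve_of_charts hN ?_ (uniqueDiffOn_Icc zero_lt_one) ?_
  · exact (N.toE e).continuousOn_symm.comp hzc.continuous.continuousOn
      (fun t ht => hsub (hseg t ht))
  · intro t ht
    have heq : ∀ s ∈ Icc (0:ℝ) 1, co e (inv e (z s)) = z s := fun s hs => co_inv (hsub (hseg s hs))
    refine ⟨e, inv_mem (hsub (hseg t ht)), hzc.contDiffWithinAt.congr heq (heq t ht), ?_⟩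
    intro y u hy hu
    have hu' : u = (τ * ε) • w := by
      rw [hu, derivWithin_congr heq (heq t ht)]
      exact (hzd t).hasDerivWithinAt.derivWithin (uniqueDiffOn_Icc zero_lt_one t ht)
    have hy' : y = z t := by rw [hy]; exact heq t ht
    subst hy'
    have hzt := hseg t ht
    have hB := hN.bilin e (hsub hzt)
    obtain ⟨⟨k1, k2⟩, -⟩ := hball _ (hin _ hzt w hw)
    rw [← hexp _ (hsub hzt)] at k1 k2
    have hpos : 0 < τ * ε := mul_pos hτ hε
    rw [hu', hB.smul_left, hB.smul_right, hB.smul_left]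
    have h3 : (τ * ε) * ((τ * ε) * N.g e (z t) w w) < 0 :=
      mul_neg_of_pos_of_neg hpos (mul_neg_of_pos_of_neg hpos k1)
    exact ⟨h3, by linarith, mul_neg_of_pos_of_neg hpos k2⟩

/-- exit from an open set -/
lemma exit {X : Type*} [TopologicalSpace X] {U : Set X} (hU : IsOpen U) {γ : ℝ → X}
    (hγ : ContinuousOn γ (Icc 0 1)) (h0 : γ 0 ∈ U) (h1 : γ 1 ∉ U) :
    ∃ τ, 0 < τ ∧ τ ≤ 1 ∧ γ τ ∈ frontier U ∧ ∀ s, 0 ≤ s → s < τ → γ s ∈ U := by
  set S : Set ℝ := {t | t ∈ Icc (0:ℝ) 1 ∧ γ t ∉ U} with hS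
  have hSne : S.Nonempty := ⟨1, ⟨zero_le_one, le_rfl⟩, h1⟩
  have hSc : IsClosed S := by
    have := hγ.preimage_isClosed_of_isClosed isClosed_Icc hU.isClosed_compl
    exact this
  have hSb : BddBelow S := ⟨0, fun t ht => ht.1.1⟩
  have hmem : sInf S ∈ S := hSc.csInf_mem hSne hSb
  set τ := sInf S with hτ
  have hτ0 : 0 < τ := by
    rcases eq_or_lt_of_le hmem.1.1 with h | h
    · exfalso
      apply hmem.2
      rw [← h]
      exact h0
    · exact h
  have hlt : ∀ s, 0 ≤ s → s < τ → γ s ∈ U := by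
    intro s hs hsτ
    by_contra hcon
    have : s ∈ S := ⟨⟨hs, hsτ.le.trans hmem.1.2⟩, hcon⟩
    have := csInf_le hSb this
    linarith
  refine ⟨τ, hτ0, hmem.1.2, ?_, hlt⟩
  rw [hU.frontier_eq]
  refine ⟨?_, hmem.2⟩
  have h2 : Tendsto γ (𝓝[<] τ) (𝓝 (γ τ)) := by
    have h3 : ContinuousWithinAt γ (Icc 0 1) τ := hγ τ hmem.1
    refine h3.mono_left ?_
    rw [← nhdsWithin_Ioo_eq_nhdsLT hτ0]
    exact nhdsWithin_mono _ fun s hs => ⟨hs.1.le, hs.2.le.trans hmem.1.2⟩
  refine mem_closure_of_tendsto h2 ?_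
  filter_upwards [Ioo_mem_nhdsLT hτ0] with s hs
  exact hlt s hs.1.le hs.2

/-- **The boundary of an open part is reached by a timelike curve.** -/
theorem bdry (hR : ∀ f D, Reg f D → ContinuousOn f D) (hN : IsSpacetime Reg N)
    (hc : ConnectedSpace N.pt)
    {U : Set N.pt} (hU : IsOpen U) (hne : U.Nonempty) (hnu : U ≠ univ) :
    ∃ c : ℝ → N.pt, (∀ t ∈ Ico (0:ℝ) 1, c t ∈ U) ∧ c 1 ∈ frontier U ∧
      (IsFutureCurve N 0 (Icc 0 1) c ∨ IsFutureCurve (rv N) 0 (Icc 0 1) c) := by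
  have hfr : (frontier U).Nonempty := by
    rw [nonempty_iff_ne_empty]
    intro h
    have h1 : IsClopen U := isClopen_iff_frontier_eq_empty.2 h
    rcases isClopen_iff.1 h1 with h2 | h2
    · exact hne.ne_empty h2
    · exact hnu h2
  obtain ⟨q0, hq0⟩ := hfr
  have hq0' := hq0
  rw [hU.frontier_eq] at hq0'
  obtain ⟨e, he⟩ := N.cover q0
  replace he : On e q0 := he
  set y0 := co e q0 with hy0
  have hy0t : y0 ∈ tgt e := co_mem he
  obtain ⟨δ1, hδ1, hs1, hl1⟩ := lines hR hN e hy0t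
  obtain ⟨δ2, hδ2, hs2, hl2⟩ := lines hR (rv_spacetime hN) e hy0t
  set V := N.X e y0 with hV
  set δ := min δ1 δ2 with hδ
  have hδp : 0 < δ := lt_min hδ1 hδ2
  have hVp : 0 < ‖V‖ + 1 := by positivity
  set ε := δ / (2 * (‖V‖ + 1)) with hε
  have hεp : 0 < ε := by positivity
  have hεV : ε * ‖V‖ < δ / 2 := by
    have h1 : ε * (‖V‖ + 1) = δ / 2 := by rw [hε]; field_simp
    have : ε * ‖V‖ < ε * (‖V‖ + 1) := by nlinarith
    linarith
  set r := y0 + ε • V with hr
  have hrb : ‖r - y0‖ < δ / 2 := by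
    rw [hr, add_sub_cancel_left, norm_smul, Real.norm_eq_abs, abs_of_pos hεp]
    exact hεV
  -- a point of U near q0
  set ρ := min (δ / 2) (ε * δ) with hρ
  have hρp : 0 < ρ := lt_min (by linarith) (by positivity)
  have hnb : {p | On e p ∧ co e p ∈ Metric.ball y0 ρ} ∈ 𝓝 q0 := by
    have h1 : ContinuousAt (N.toE e) q0 := (N.toE e).continuousAt he
    have h2 : (N.toE e) ⁻¹' Metric.ball y0 ρ ∈ 𝓝 q0 := h1 (Metric.ball_mem_nhds _ hρp)
    filter_upwards [(N.toE e).open_source.mem_nhds he, h2] with p k1 k2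
    exact ⟨k1, k2⟩
  obtain ⟨p, ⟨hp1, hp2⟩, hpU⟩ := mem_closure_iff_nhds.1 hq0'.1 _ hnb
  set x := co e p with hx
  rw [mem_ball_iff_norm] at hp2
  have hxin : inv e x = p := inv_co hp1
  have hyin : inv e y0 = q0 := inv_co he
  have hconv : ∀ {a b : R4} {d : ℝ}, ‖a - y0‖ < d → ‖b - y0‖ < d → ∀ t ∈ Icc (0:ℝ) 1,
      a + t • (b - a) ∈ Metric.ball y0 d := by
    intro a b d ha hb t ht
    have h1 : a ∈ Metric.ball y0 d := by rw [mem_ball_iff_norm]; exact ha
    have h2 : b ∈ Metric.ball y0 d := by rw [mem_ball_iff_norm]; exact hb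
    have h3 := (convex_ball y0 d).add_smul_sub_mem h1 h2 ht
    exact h3
  by_cases hcase : inv e r ∈ U
  · -- a past curve from r to y0
    have hw : ε • (-V) = y0 - r := by rw [hr]; simp
    have hrd : ‖r - y0‖ < δ2 := by linarith [min_le_right δ1 δ2]
    have hyd : ‖y0 - y0‖ < δ2 := by rw [sub_self, norm_zero]; exact hδ2
    have hseg := hconv hrd hyd
    have hcont : ContinuousOn (fun t : ℝ => inv e (r + t • (y0 - r))) (Icc 0 1) :=
      (N.toE e).continuousOn_symm.comp (by fun_prop) (fun t ht => hs2 (hseg t ht))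
    obtain ⟨τ, t0, t1, hτf, hτl⟩ := exit hU hcont
      (by simp only [zero_smul, add_zero]; exact hcase)
      (by
        simp only [one_smul, add_sub_cancel]
        rw [hyin]; exact hq0'.2)
    have hcur := hl2 (-V) (by
      show ‖-V - -V‖ < δ2
      rw [sub_self, norm_zero]; exact hδ2) r ε τ hεp t0 (by
        intro t ht
        rw [hw]
        exact hseg _ ⟨mul_nonneg ht.1 t0.le, mul_le_one₀ ht.2 t0.le t1⟩)
    rw [hw] at hcur
    refine ⟨_, ?_, ?_, Or.inr hcur⟩
    · intro t ht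
      refine hτl (t * τ) (mul_nonneg ht.1 t0.le) ?_
      have := mul_lt_mul_of_pos_right ht.2 t0
      linarith
    · simp only [one_mul]
      exact hτf
  · -- a future curve from x to r
    have hxd : ‖x - y0‖ < δ / 2 := lt_of_lt_of_le hp2 (min_le_left _ _)
    have hx1 : ‖x - y0‖ < δ1 := by linarith [min_le_left δ1 δ2]
    have hr1 : ‖r - y0‖ < δ1 := by linarith [min_le_left δ1 δ2]
    have hseg := hconv hx1 hr1
    set w := ε⁻¹ • (r - x) with hwdef
    have hw : ε • w = r - x := by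
      rw [hwdef, smul_smul, mul_inv_cancel₀ hεp.ne', one_smul]
    have hwV : ‖w - V‖ < δ1 := by
      have k1 : w - V = ε⁻¹ • (y0 - x) := by
        have k2 : r - x = ε • V + (y0 - x) := by rw [hr]; abel
        rw [hwdef, k2, smul_add, smul_smul, inv_mul_cancel₀ hεp.ne', one_smul]
        abel
      rw [k1, norm_smul, norm_inv, Real.norm_eq_abs, abs_of_pos hεp, norm_sub_rev]
      have k3 : ‖x - y0‖ < ε * δ := lt_of_lt_of_le hp2 (min_le_right _ _)
      have k4 : ε⁻¹ * ‖x - y0‖ < δ := by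
        rw [inv_mul_lt_iff₀ hεp]; exact k3
      linarith [min_le_left δ1 δ2]
    have hcont : ContinuousOn (fun t : ℝ => inv e (x + t • (r - x))) (Icc 0 1) :=
      (N.toE e).continuousOn_symm.comp (by fun_prop) (fun t ht => hs1 (hseg t ht))
    obtain ⟨τ, t0, t1, hτf, hτl⟩ := exit hU hcont
      (by
        simp only [zero_smul, add_zero]
        rw [hxin]; exact hpU)
      (by simp only [one_smul, add_sub_cancel]; exact hcase)
    have hcur := hl1 w hwV x ε τ hεp t0 (by
        intro t ht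
        rw [hw]
        exact hseg _ ⟨mul_nonneg ht.1 t0.le, mul_le_one₀ ht.2 t0.le t1⟩)
    rw [hw] at hcur
    refine ⟨_, ?_, ?_, Or.inl hcur⟩
    · intro t ht
      refine hτl (t * τ) (mul_nonneg ht.1 t0.le) ?_
      have := mul_lt_mul_of_pos_right ht.2 t0
      linarith
    · simp only [one_mul]
      exact hτf

end

end Vale.Agent.P354v
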