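import Vale.Agent.P354.H251.Fn2

set_option linter.unusedSectionVars false

open scoped ContDiff
open MeasureTheory Set Filter Topology

namespace Vale.Agent.P354v.T

open Vale.Agent.P354p.Ex (ll E4 haar4 lint_ball LLe LLe_meas LLe_Lr LLe_nonneg)

variable {W : ℝ → ℝ}

/-- integrability of products with functions of compact support -/
lemma int_prod (hWm : Measurable W) (hW1 : ∫⁻ t, ‖W t‖ₑ ≠ ⊤) {d : ℝ → ℝ} (hm : Measurable d) {C : ℝ}
    (hb : ∀ v, v ≠ -1 → v ≠ 0 → |d v| ≤ C * W v) {φ : E4 → ℝ} (hφ : Continuous φ)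
    (hc : HasCompactSupport φ) : Integrable (fun x : E4 => d x.2.1 * φ x) := by
  obtain ⟨R, hR⟩ := hc.isCompact.isBounded.subset_closedBall (0:E4)
  obtain ⟨B, hB⟩ := hc.exists_bound_of_continuous hφ
  have hφ0 : ∀ x, x ∉ Metric.closedBall (0:E4) R → φ x = 0 := by
    intro x hx
    by_contra h
    exact hx (hR (subset_tsupport φ h))
  have h1 := (lint_ball (F := fun t => ‖W t‖ₑ) hWm.enorm hW1 R).2
  have h2 : IntegrableOn (fun x : E4 => W x.2.1) (Metric.closedBall (0:E4) R) := by
    refine ⟨(hWm.comp (measurable_fst.comp measurable_snd)).aestronglyMeasurable, ?_⟩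
    exact lt_top_iff_ne_top.2 h1
  have h3 : IntegrableOn (fun x : E4 => d x.2.1 * φ x) (Metric.closedBall (0:E4) R) := by
    refine Integrable.mono' (h2.const_mul (C * B)) ?_ ?_
    · exact ((hm.comp (measurable_fst.comp measurable_snd)).mul hφ.measurable).aestronglyMeasurable
    · have k1 := Vale.Agent.P354p.Ex.ae_ne (-1)
      have k2 := Vale.Agent.P354p.Ex.ae_ne 0
      have k3 : ∀ᵐ x : E4, ‖d x.2.1 * φ x‖ ≤ C * B * W x.2.1 := by
        filter_upwards [k1, k2] with x h1 h2
        rw [norm_mul, Real.norm_eq_abs]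
        have h4 := hb _ h1.2 h2.2
        have h5 := hB x
        have h6 : 0 ≤ C * W x.2.1 := (abs_nonneg _).trans h4
        calc |d x.2.1| * ‖φ x‖ ≤ (C * W x.2.1) * B :=
              mul_le_mul h4 h5 (norm_nonneg _) h6
          _ = _ := by ring
      exact ae_restrict_of_ae k3
  have h4 : (fun x : E4 => d x.2.1 * φ x) =
      (Metric.closedBall (0:E4) R).indicator (fun x : E4 => d x.2.1 * φ x) := by
    funext x
    by_cases hx : x ∈ Metric.closedBall (0:E4) R
    · rw [indicator_of_mem hx]
    · rw [indicator_of_notMem hx, hφ0 x hx, mul_zero]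
  rw [h4, integrable_indicator_iff Metric.isClosed_closedBall.measurableSet]
  exact h3

/-- **The weak derivative of a function of v.** -/
theorem weak_gen (hWm : Measurable W) (hW1 : ∫⁻ t, ‖W t‖ₑ ≠ ⊤) {f d : ℝ → ℝ} (hf : Continuous f)
    (hd : ∀ v, v ≠ -1 → v ≠ 0 → HasDerivAt f (d v) v) (hm : Measurable d) {C : ℝ}
    (hb : ∀ v, v ≠ -1 → v ≠ 0 → |d v| ≤ C * W v) (w : E4) {φ : E4 → ℝ}
    (hφ : ContDiff ℝ ∞ φ) (hc : HasCompactSupport φ) :
    ∫ x : E4, f x.2.1 * lineDeriv ℝ φ x w = - ∫ x : E4, d x.2.1 * w.2.1 * φ x := by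
  have hhaar := haar4
  have hdiff : ∀ x, DifferentiableAt ℝ φ x := fun x => (hφ.differentiable (by simp)).differentiableAt
  have hld : ∀ x v, lineDeriv ℝ φ x v = fderiv ℝ φ x v := fun x v => (hdiff x).lineDeriv_eq_fderiv
  have hfd : Continuous (fun x => fderiv ℝ φ x w) :=
    (hφ.continuous_fderiv (by simp)).clm_apply continuous_const
  have hfc : HasCompactSupport (fun x => fderiv ℝ φ x w) := by
    refine hc.mono' ?_
    intro x hx
    by_contra h
    apply hx
    have h0 : φ =ᶠ[𝓝 x] fun _ => 0 := notMem_tsupport_iff_eventuallyEq.1 h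
    show fderiv ℝ φ x w = 0
    rw [h0.fderiv_eq]
    simp only [fderiv_fun_const, Pi.zero_apply, zero_apply]
  have hfv : Continuous fun x : E4 => f x.2.1 := hf.comp (continuous_fst.comp continuous_snd)
  have i1 : Integrable (fun x : E4 => f x.2.1 * fderiv ℝ φ x w) :=
    (hfv.mul hfd).integrable_of_hasCompactSupport hfc.mul_left
  have i2 : Integrable (fun x : E4 => d x.2.1 * w.2.1 * φ x) := by
    have := (int_prod hWm hW1 hm hb hφ.continuous hc).const_mul w.2.1
    refine this.congr (Eventually.of_forall fun x => ?_)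
    simp only
    ring
  set S : E4 → ℝ := fun x => d x.2.1 * w.2.1 * φ x + f x.2.1 * fderiv ℝ φ x w with hS
  have iS : Integrable S := i2.add i1
  have mS : Measurable S := by
    have m1 : Measurable fun x : E4 => d x.2.1 := hm.comp (measurable_fst.comp measurable_snd)
    exact ((m1.mul_const _).mul hφ.continuous.measurable).add (hfv.mul hfd).measurable
  set g : E4 → ℝ := fun x => f x.2.1 * φ x with hg
  have cg : Continuous g := hfv.mul hφ.continuous
  have ig : Integrable g := cg.integrable_of_hasCompactSupport hc.mul_left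
  set μ : Measure ℝ := volume.restrict (Ioc (0:ℝ) 1) with hμ
  have hμf : IsFiniteMeasure μ := ⟨by
    rw [hμ, Measure.restrict_apply MeasurableSet.univ, univ_inter, Real.volume_Ioc]
    exact ENNReal.ofReal_lt_top⟩
  have iP : Integrable (fun p : ℝ × E4 => S (p.2 + p.1 • w)) (μ.prod (volume : Measure E4)) := by
    rw [integrable_prod_iff]
    · refine ⟨Eventually.of_forall fun t => iS.comp_add_right (t • w), ?_⟩
      have : (fun t : ℝ => ∫ y : E4, ‖S (y + t • w)‖) = fun _ => ∫ y : E4, ‖S y‖ := by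
        funext t
        exact integral_add_right_eq_self (fun y : E4 => ‖S y‖) (t • w)
      rw [this]
      exact integrable_const _
    · have : Measurable fun p : ℝ × E4 => p.2 + p.1 • w := by fun_prop
      exact (mS.comp this).aestronglyMeasurable
  have e1 : ∫ t : ℝ, (∫ x : E4, S (x + t • w)) ∂μ = ∫ x : E4, S x := by
    have : (fun t : ℝ => ∫ x : E4, S (x + t • w)) = fun _ => ∫ x : E4, S x := by
      funext t
      exact integral_add_right_eq_self (fun y : E4 => S y) (t • w)
    rw [this, hμ]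
    simp
  have e2 : ∫ t : ℝ, (∫ x : E4, S (x + t • w)) ∂μ = ∫ x : E4, (∫ t : ℝ, S (x + t • w) ∂μ) :=
    integral_integral_swap iP
  have hline : ∀ᵐ x : E4, ∫ t : ℝ, S (x + t • w) ∂μ = g (x + w) - g x := by
    filter_upwards [iP.prod_left_ae] with x hx
    have hii : IntervalIntegrable (fun t : ℝ => S (x + t • w)) volume 0 1 := by
      rw [intervalIntegrable_iff_integrableOn_Ioc_of_le zero_le_one]
      exact hx
    have hcd : Continuous fun t : ℝ => g (x + t • w) := cg.comp (by fun_prop)
    by_cases hw : w.2.1 = 0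
    · have h1 := integral_eq_of_hasDerivAt_off_countable_of_le (fun t : ℝ => g (x + t • w))
        (fun t : ℝ => S (x + t • w)) zero_le_one countable_empty hcd.continuousOn ?_ hii
      · rw [intervalIntegral.integral_of_le zero_le_one] at h1
        simpa using h1
      · intro t _
        have k1 : HasDerivAt (fun t : ℝ => φ (x + t • w)) (fderiv ℝ φ (x + t • w) w) t := by
          have k2 : HasDerivAt (fun t : ℝ => x + t • w) w t := by
            simpa using ((hasDerivAt_id t).smul_const w).const_add x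
          exact (hdiff _).hasFDerivAt.comp_hasDerivAt t k2
        have k3 : ∀ t : ℝ, f (x + t • w).2.1 = f x.2.1 := by
          intro t
          have : (x + t • w).2.1 = x.2.1 + t * w.2.1 := rfl
          rw [this, hw, mul_zero, add_zero]
        have k4 := k1.const_mul (f x.2.1)
        have k5 : S (x + t • w) = f x.2.1 * fderiv ℝ φ (x + t • w) w := by
          simp only [hS, hw, mul_zero, zero_mul, zero_add, k3]
        rw [k5]
        refine k4.congr_of_eventuallyEq (Eventually.of_forall fun t => ?_)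
        simp only [hg, k3]
    · have h1 := integral_eq_of_hasDerivAt_off_countable_of_le (fun t : ℝ => g (x + t • w))
        (fun t : ℝ => S (x + t • w)) (s := {(-1 - x.2.1) / w.2.1, (0 - x.2.1) / w.2.1})
        zero_le_one (by simp) hcd.continuousOn ?_ hii
      · rw [intervalIntegral.integral_of_le zero_le_one] at h1
        simpa using h1
      · rintro t ⟨_, ht⟩
        simp only [mem_insert_iff, mem_singleton_iff, not_or] at ht
        have ev : (x + t • w).2.1 = x.2.1 + t * w.2.1 := rfl
        have n1 : (x + t • w).2.1 ≠ -1 := by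
          rw [ev]
          intro h
          exact ht.1 (by rw [eq_div_iff hw]; linarith)
        have n2 : (x + t • w).2.1 ≠ 0 := by
          rw [ev]
          intro h
          exact ht.2 (by rw [eq_div_iff hw]; linarith)
        have k1 : HasDerivAt (fun t : ℝ => φ (x + t • w)) (fderiv ℝ φ (x + t • w) w) t := by
          have k2 : HasDerivAt (fun t : ℝ => x + t • w) w t := by
            simpa using ((hasDerivAt_id t).smul_const w).const_add x
          exact (hdiff _).hasFDerivAt.comp_hasDerivAt t k2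
        have k3 : HasDerivAt (fun t : ℝ => f (x + t • w).2.1)
            (d (x + t • w).2.1 * w.2.1) t := by
          have k4 : HasDerivAt (fun t : ℝ => (x + t • w).2.1) w.2.1 t := by
            have := ((hasDerivAt_id t).mul_const w.2.1).const_add x.2.1
            simp only [id_eq, one_mul] at this
            exact this
          exact HasDerivAt.comp t (hd _ n1 n2) k4
        exact k3.mul k1
  rw [e1, integral_congr_ae hline, integral_sub (ig.comp_add_right w) ig,
    integral_add_right_eq_self (fun y : E4 => g y) w, sub_self] at e2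
  simp only [hS] at e2
  rw [integral_add i2 i1] at e2
  simp only [hld]
  linarith

/-- membership in the Sobolev class -/
theorem sob (hWm : Measurable W) (hW0 : ∀ v, 0 ≤ W v) (hW1 : ∫⁻ t, ‖W t‖ₑ ≠ ⊤) {f d : ℝ → ℝ}
    (hf : Continuous f) (hd : ∀ v, v ≠ -1 → v ≠ 0 → HasDerivAt f (d v) v) (hm : Measurable d)
    {C : ℝ} (hC : 0 ≤ C) (hb : ∀ v, v ≠ -1 → v ≠ 0 → |d v| ≤ C * W v) {q : ENNReal} {r : ℝ}
    (hr : 1 ≤ r) (hq : q ≤ ENNReal.ofReal r) (hWr : ∫⁻ t, ‖W t‖ₑ ^ r ≠ ⊤) (D : Set E4) :
    Vale.Agent.P354p.IsC0W1 q (fun y => f y.2.1) D := by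
  refine ⟨(hf.comp (continuous_fst.comp continuous_snd)).continuousOn, fun w => ?_⟩
  refine ⟨fun x => d x.2.1 * w.2.1, fun Q _ hQ => ?_, fun φ hφ hc _ => ?_⟩
  · obtain ⟨R, hR⟩ := hQ.isBounded.subset_closedBall (0:E4)
    have hr0 : ENNReal.ofReal r ≠ 0 := by
      rw [Ne, ENNReal.ofReal_eq_zero, not_le]; linarith
    have h1 : MemLp (fun x : E4 => W x.2.1) (ENNReal.ofReal r)
        (volume.restrict (Metric.closedBall (0:E4) R)) := by
      refine ⟨(hWm.comp (measurable_fst.comp measurable_snd)).aestronglyMeasurable, ?_⟩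
      rw [eLpNorm_lt_top_iff_lintegral_rpow_enorm_lt_top hr0 ENNReal.ofReal_ne_top,
        ENNReal.toReal_ofReal (by linarith only [hr])]
      exact lt_top_iff_ne_top.2
        (lint_ball (F := fun t => ‖W t‖ₑ ^ r) (hWm.enorm.pow_const r) hWr R).2
    have h2 : MemLp (fun x : E4 => d x.2.1 * w.2.1) (ENNReal.ofReal r)
        (volume.restrict (Metric.closedBall (0:E4) R)) := by
      refine (h1.const_mul (C * |w.2.1|)).mono
        ((hm.comp (measurable_fst.comp measurable_snd)).mul_const _).aestronglyMeasurable ?_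
      have k1 := Vale.Agent.P354p.Ex.ae_ne (-1)
      have k2 := Vale.Agent.P354p.Ex.ae_ne 0
      have k3 : ∀ᵐ x : E4, ‖d x.2.1 * w.2.1‖ ≤ ‖C * |w.2.1| * W x.2.1‖ := by
        filter_upwards [k1, k2] with x h1 h2
        have h4 := hb _ h1.2 h2.2
        have h5 := hW0 x.2.1
        rw [norm_mul, Real.norm_eq_abs, Real.norm_eq_abs,
          Real.norm_of_nonneg (mul_nonneg (mul_nonneg hC (abs_nonneg _)) h5)]
        have h7 : |d x.2.1| * |w.2.1| ≤ C * W x.2.1 * |w.2.1| :=
          mul_le_mul_of_nonneg_right h4 (abs_nonneg _)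
        linarith
      exact ae_restrict_of_ae k3
    have h3 := h2.mono_measure (Measure.restrict_mono hR le_rfl)
    have hfin : IsFiniteMeasure (volume.restrict Q) := ⟨by
      rw [Measure.restrict_apply MeasurableSet.univ, univ_inter]
      exact hQ.measure_lt_top⟩
    exact h3.mono_exponent hq
  · exact weak_gen hWm hW1 hf hd hm hb w (contDiffOn_univ.1 hφ) hc

lemma WW_meas {a : ℝ} : Measurable (WW a) := by
  have h : Measurable fun v : ℝ => -1 - v := by fun_prop
  exact LLe_meas.add (LLe_meas.comp h)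

lemma WW_Lr {a : ℝ} (ha0 : 0 ≤ a) {r : ℝ} (hr : 1 ≤ r) (har : a * r < 1) :
    ∫⁻ t, ‖WW a t‖ₑ ^ r ≠ ⊤ := by
  have hr0 : ENNReal.ofReal r ≠ 0 := by
    rw [Ne, ENNReal.ofReal_eq_zero, not_le]; linarith
  have h1 : MemLp (LLe a 0) (ENNReal.ofReal r) volume := by
    refine ⟨LLe_meas.aestronglyMeasurable, ?_⟩
    rw [eLpNorm_lt_top_iff_lintegral_rpow_enorm_lt_top hr0 ENNReal.ofReal_ne_top,
      ENNReal.toReal_ofReal (by linarith only [hr])]
    exact lt_top_iff_ne_top.2 (LLe_Lr hr har ha0)
  have h2 : MemLp (fun t => LLe a 0 (-1 - t)) (ENNReal.ofReal r) volume :=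
    h1.comp_measurePreserving (Measure.measurePreserving_sub_left volume (-1))
  have h3 := (h1.add h2).2
  rw [eLpNorm_lt_top_iff_lintegral_rpow_enorm_lt_top hr0 ENNReal.ofReal_ne_top,
      ENNReal.toReal_ofReal (by linarith only [hr])] at h3
  exact lt_top_iff_ne_top.1 h3

lemma WW_int {a : ℝ} (ha0 : 0 ≤ a) (ha : a ≤ 1 / 2) : ∫⁻ t, ‖WW a t‖ₑ ≠ ⊤ := by
  have h1 := WW_Lr (a := a) ha0 le_rfl (by linarith : a * 1 < 1)
  simpa only [ENNReal.rpow_one] using h1

end Vale.Agent.P354v.T
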