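import Vale.Agent.P354.H251.Cau
import Vale.Agent.P354.H251.Wk2
import Vale.Agent.P354.H251.Two

set_option linter.unusedSectionVars false

open scoped ContDiff
open MeasureTheory Set Filter Topology

namespace Vale.Agent.P354v.T

open Vale.Agent.P354p
open Vale.Agent.P354p.Ex (LLe)

/-- data -/
class PD where
  a : ℝ
  K : ℝ
  C : ℝ
  A : ℝ → ℝ
  B : ℝ → ℝ
  ok : PDat a K C A B

/-- the data of the time reversed plane wave -/
abbrev PD.rev (P : PD) : PD where
  a := P.a
  K := P.K
  C := P.C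
  A := fun v => P.A (-1 - v)
  B := fun v => P.B (-1 - v)
  ok := P.ok.flip

variable {n m : ℕ} [PD]

noncomputable abbrev AA : ℝ → ℝ := PD.A
noncomputable abbrev BB : ℝ → ℝ := PD.B
noncomputable abbrev DA : ℝ → ℝ := _root_.deriv AA
noncomputable abbrev DB : ℝ → ℝ := _root_.deriv BB

/-- the metric -/
noncomputable def gg (x a b : R4) : ℝ :=
  AA (cv x) * (c1 a * c1 b) + BB (cv x) * (c2 a * c2 b) - (cu a * cv b + cv a * cu b)

lemma AA_bd (v : ℝ) : 2 ≤ AA v ∧ AA v ≤ PD.K := PD.ok.bA v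
lemma BB_bd (v : ℝ) : 2 ≤ BB v ∧ BB v ≤ PD.K := PD.ok.bB v

lemma AA_cont : Continuous AA := PD.ok.cA
lemma BB_cont : Continuous BB := PD.ok.cB

/-- the region with the metric -/
@[reducible] noncomputable def VV (n : ℕ) : Spc where
  pt := Pb n
  Chart := Unit
  toE := fun _ => chb n
  cover p := ⟨(), mem_univ p⟩
  g := fun _ => gg
  X := fun _ _ => (1, 1, 0, 0)

lemma cv_smooth {D : Set R4} : ContDiffOn ℝ ∞ (fun x : R4 => cv x) D := by
  unfold cv; fun_prop

lemma cv_mem {x : R4} (hx : x ∈ Db 0) : cv x ∈ Ioo (-1 : ℝ) 0 :=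
  ⟨hx.1, by simpa using hx.2⟩

lemma A_smooth : ContDiffOn ℝ ∞ (fun y : R4 => AA (cv y)) (Db 0) :=
  PD.ok.sA.comp cv_smooth fun _ hx => cv_mem hx

lemma B_smooth : ContDiffOn ℝ ∞ (fun y : R4 => BB (cv y)) (Db 0) :=
  PD.ok.sB.comp cv_smooth fun _ hx => cv_mem hx

lemma gg_smooth (a b : R4) : IsSmooth (fun y => gg y a b) (Db 0) :=
  ((A_smooth.mul contDiffOn_const).add (B_smooth.mul contDiffOn_const)).sub
    contDiffOn_const

lemma DA_meas : Measurable DA := measurable_deriv _
lemma DB_meas : Measurable DB := measurable_deriv _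

lemma gg_sob {q : ENNReal} {r : ℝ} (hr : 1 ≤ r) (hq : q ≤ ENNReal.ofReal r)
    (har : PD.a * r < 1) (D : Set R4) (a b : R4) : IsC0W1 q (fun y => gg y a b) D := by
  set α := c1 a * c1 b with hα
  set β := c2 a * c2 b with hβ
  set γ := cu a * cv b + cv a * cu b with hγ
  have hC := PD.ok.C0
  refine sob (W := WW PD.a) (f := fun v => AA v * α + BB v * β - γ)
    (d := fun v => DA v * α + DB v * β) (C := PD.C * (|α| + |β|))
    WW_meas WW_nonneg (WW_int PD.ok.a0 PD.ok.a1) ?_ ?_ ?_ (by positivity) ?_ hr hq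
    (WW_Lr PD.ok.a0 hr har) D
  · exact ((AA_cont.mul continuous_const).add (BB_cont.mul continuous_const)).sub continuous_const
  · intro v h1 h2
    exact (((PD.ok.hA v h1 h2).hasDerivAt.mul_const α).add
      ((PD.ok.hB v h1 h2).hasDerivAt.mul_const β)).sub_const γ
  · exact (DA_meas.mul_const α).add (DB_meas.mul_const β)
  · intro v h1 h2
    have k1 := PD.ok.dA v h1 h2
    have k2 := PD.ok.dB v h1 h2
    refine (abs_add_le _ _).trans ?_
    rw [abs_mul _ α, abs_mul _ β]
    have l1 := mul_le_mul_of_nonneg_right k1 (abs_nonneg α)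
    have l2 := mul_le_mul_of_nonneg_right k2 (abs_nonneg β)
    show |DA v| * |α| + |DB v| * |β| ≤ _
    have m1 : |DA v| * |α| ≤ PD.C * WW PD.a v * |α| := l1
    have m2 : |DB v| * |β| ≤ PD.C * WW PD.a v * |β| := l2
    linarith

lemma gg_XX (y : R4) : gg y (1, 1, 0, 0) (1, 1, 0, 0) = -2 := by
  simp only [gg, cu, cv, c1, c2]
  norm_num

section
variable {f : (VV m).pt → (VV n).pt} (hf : ∀ p, (f p).1 = p.1)
include hf

lemma rep_eq {y : R4} (hy : y ∈ Db m) : rep (M := VV m) (N := VV n) f () () y = y := by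
  show (f (mk m y)).1 = y
  rw [hf, mk_val hy]

lemma dom_eq : dom (M := VV m) (N := VV n) f () () = Db m := by
  ext y
  constructor
  · intro h; exact h.1
  · intro h; exact ⟨h, mem_univ _⟩

lemma push_eq {y : R4} (hy : y ∈ Db m) (a : R4) :
    push (M := VV m) (N := VV n) f () () y a = a := by
  have h2 : HasFDerivAt (rep (M := VV m) (N := VV n) f () ()) (ContinuousLinearMap.id ℝ R4) y := by
    refine (hasFDerivAt_id y).congr_of_eventuallyEq ?_
    filter_upwards [(isOpen_Db m).mem_nhds hy] with z hz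
    exact rep_eq hf hz
  exact (h2.hasLineDerivAt a).lineDeriv

lemma isom : IsIsom (M := VV m) (N := VV n) f := by
  apply IsIsom.mk'
  rintro ⟨⟩ ⟨⟩
  rw [dom_eq hf]
  refine ⟨?_, ?_⟩
  · have h1 : ContDiffOn ℝ ∞ (fun y : R4 => y) (Db m) := contDiffOn_id
    exact h1.congr (fun y hy => rep_eq hf hy)
  · intro y hy
    rw [rep_eq hf hy]
    refine ⟨fun a b => ?_, ?_⟩
    · rw [push_eq hf hy, push_eq hf hy]
    · rw [push_eq hf hy]
      show gg y (1, 1, 0, 0) (1, 1, 0, 0) < 0
      rw [gg_XX]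
      norm_num

end

lemma spacetime {Reg : (R4 → ℝ) → Set R4 → Prop}
    (hreg : ∀ a b, Reg (fun y => gg y a b) (Db n)) : IsSpacetime Reg (VV n) where
  tensor := isom (m := n) (n := n) (f := id) fun _ => rfl
  signature := by
    intro e y hy
    have hA := (AA_bd (cv y)).1
    have hB := (BB_bd (cv y)).1
    have hs : √(AA (cv y)) * √(AA (cv y)) = AA (cv y) := Real.mul_self_sqrt (by linarith only [hA])
    have hs0 : 0 < √(AA (cv y)) := Real.sqrt_pos.mpr (by linarith only [hA])
    have ht : √(BB (cv y)) * √(BB (cv y)) = BB (cv y) := Real.mul_self_sqrt (by linarith only [hB])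
    have ht0 : 0 < √(BB (cv y)) := Real.sqrt_pos.mpr (by linarith only [hB])
    refine ⟨fun a => (cu a + cv a / 2, cu a - cv a / 2, √(AA (cv y)) * c1 a, √(BB (cv y)) * c2 a),
      ⟨?_, ?_⟩, ?_, ?_⟩
    · intro a b
      ext <;> simp only [cu, Prod.fst_add, cv, Prod.snd_add, c1, c2, Prod.mk_add_mk] <;> ring
    · intro t a
      ext <;> simp only [cu, Prod.smul_fst, smul_eq_mul, cv, Prod.smul_snd, c1, c2, Prod.smul_mk] <;> ring
    · intro a b hab
      simp only [Prod.mk.injEq, cu, cv, c1, c2] at hab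
      obtain ⟨h1, h2, h3, h4⟩ := hab
      have k1 : a.1 = b.1 := by linarith only [h1, h2]
      have k2 : a.2.1 = b.2.1 := by linarith only [h1, h2]
      have k3 : a.2.2.1 = b.2.2.1 := mul_left_cancel₀ hs0.ne' h3
      have k4 : a.2.2.2 = b.2.2.2 := mul_left_cancel₀ ht0.ne' h4
      ext <;> assumption
    · intro a b
      show gg y a b = _
      simp only [mink, cu, cv, c1, c2, gg] at *
      linear_combination (-(a.2.2.1 * b.2.2.1)) * hs - a.2.2.2 * b.2.2.2 * ht
  timelike := by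
    intro e y hy
    show gg y (1, 1, 0, 0) (1, 1, 0, 0) < 0
    rw [gg_XX]; norm_num
  continuous := fun e => continuousOn_const
  regular := fun _ a b => hreg a b

/-- the reflection and its linear part -/
def ro (e : Bool) (x : R4) : R4 := bif e then x else (-x.1, -1 - x.2.1, x.2.2.1, x.2.2.2)
def rl (e : Bool) (x : R4) : R4 := bif e then x else (-x.1, -x.2.1, x.2.2.1, x.2.2.2)

lemma ro_ro (e : Bool) (x : R4) : ro e (ro e x) = x := by
  cases e
  · ext <;> simp [ro]
  · rfl

lemma rl_rl (e : Bool) (x : R4) : rl e (rl e x) = x := by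
  cases e
  · ext <;> simp [rl]
  · rfl

lemma ro_mem (e : Bool) {x : R4} (hx : x ∈ Db 0) : ro e x ∈ Db 0 := by
  cases e
  · have h := cv_mem hx
    have e1 : cv (ro false x) = -1 - cv x := rfl
    refine ⟨?_, ?_⟩
    · rw [e1]; linarith [h.2]
    · rw [e1, Nat.cast_zero]; linarith [h.1]
  · exact hx

/-- the linear part as a continuous linear map -/
noncomputable def rL (e : Bool) : R4 →L[ℝ] R4 :=
  bif e then ContinuousLinearMap.id ℝ R4 else
    (-(ContinuousLinearMap.fst ℝ ℝ (ℝ × ℝ × ℝ))).prod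
      (((-(ContinuousLinearMap.fst ℝ ℝ (ℝ × ℝ))).comp (ContinuousLinearMap.snd ℝ ℝ (ℝ × ℝ × ℝ))).prod
        ((ContinuousLinearMap.snd ℝ ℝ (ℝ × ℝ)).comp (ContinuousLinearMap.snd ℝ ℝ (ℝ × ℝ × ℝ))))

lemma rL_apply (e : Bool) (x : R4) : rL e x = rl e x := by
  cases e
  · rfl
  · rfl

lemma ro_eq (e : Bool) (x : R4) : ro e x = rL e x + ro e 0 := by
  rw [rL_apply]
  cases e
  · ext <;> simp [ro, rl]
    ring
  · ext <;> simp [ro, rl]

lemma ro_hd (e : Bool) (y : R4) : HasFDerivAt (ro e) (rL e) y := by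
  have h : ro e = fun x => rL e x + ro e 0 := funext (ro_eq e)
  rw [h]
  exact (rL e).hasFDerivAt.add_const _

lemma ro_smooth (e : Bool) : ContDiff ℝ ∞ (ro e) := by
  have h : ro e = fun x => rL e x + ro e 0 := funext (ro_eq e)
  rw [h]
  exact (rL e).contDiff.add contDiff_const

/-- the charts of the two-sided example -/
noncomputable def cht (e : Bool) : OpenPartialHomeomorph (Pb 0) R4 where
  toFun p := ro e p.1
  invFun y := mk 0 (ro e y)
  source := univ
  target := Db 0
  map_source' p _ := ro_mem e p.2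
  map_target' _ _ := mem_univ _
  left_inv' p _ := by rw [ro_ro]; exact mk_self p
  right_inv' y hy := by rw [mk_val (ro_mem e hy), ro_ro]
  open_source := isOpen_univ
  open_target := isOpen_Db 0
  continuousOn_toFun := ((ro_smooth e).continuous.comp continuous_subtype_val).continuousOn
  continuousOn_invFun := continuousOn_mk.comp (ro_smooth e).continuous.continuousOn
    fun _ hy => ro_mem e hy

/-- the two-sided example -/
@[reducible] noncomputable def MM : Spc where
  pt := Pb 0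
  Chart := Bool
  toE := cht
  cover p := ⟨true, mem_univ p⟩
  g := fun e y a b => gg (ro e y) (rl e a) (rl e b)
  X := fun e _ => rl e (1, 1, 0, 0)

lemma rep_mm {e e' : Bool} {y : R4} (hy : y ∈ Db 0) :
    rep (M := MM) (N := MM) id e e' y = ro e' (ro e y) := by
  show ro e' (mk 0 (ro e y)).1 = ro e' (ro e y)
  rw [mk_val (ro_mem e hy)]

lemma dom_mm {e e' : Bool} : dom (M := MM) (N := MM) id e e' = Db 0 := by
  ext y
  constructor
  · intro h; exact h.1
  · intro h; exact ⟨h, mem_univ _⟩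

lemma push_mm {e e' : Bool} {y : R4} (hy : y ∈ Db 0) (a : R4) :
    push (M := MM) (N := MM) id e e' y a = rl e' (rl e a) := by
  have h1 : HasFDerivAt (fun y => ro e' (ro e y)) ((rL e').comp (rL e)) y :=
    (ro_hd e' (ro e y)).comp y (ro_hd e y)
  have h2 : HasFDerivAt (rep (M := MM) (N := MM) id e e') ((rL e').comp (rL e)) y := by
    refine h1.congr_of_eventuallyEq ?_
    filter_upwards [(isOpen_Db 0).mem_nhds hy] with z hz
    exact rep_mm hz
  have h3 : ((rL e').comp (rL e)) a = rl e' (rl e a) := by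
    rw [ContinuousLinearMap.comp_apply, rL_apply, rL_apply]
  rw [← h3]
  exact (h2.hasLineDerivAt a).lineDeriv

lemma spacetime_mm : IsSpacetime IsSmooth MM where
  tensor := by
    apply IsIsom.mk'
    intro e e'
    rw [dom_mm]
    refine ⟨?_, ?_⟩
    · have h1 : ContDiffOn ℝ ∞ (fun y => ro e' (ro e y)) (Db 0) :=
        ((ro_smooth e').comp (ro_smooth e)).contDiffOn
      exact h1.congr (fun y hy => rep_mm hy)
    · intro y hy
      rw [rep_mm hy]
      refine ⟨fun a b => ?_, ?_⟩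
      · rw [push_mm hy, push_mm hy]
        show gg (ro e y) (rl e a) (rl e b) =
          gg (ro e' (ro e' (ro e y))) (rl e' (rl e' (rl e a))) (rl e' (rl e' (rl e b)))
        rw [ro_ro e', rl_rl e', rl_rl e']
      · rw [push_mm hy]
        show gg (ro e' (ro e' (ro e y))) (rl e' (rl e' (rl e (rl e (1, 1, 0, 0)))))
          (rl e' (rl e' (1, 1, 0, 0))) < 0
        rw [ro_ro e', rl_rl e', rl_rl e', rl_rl e, gg_XX]
        norm_num
  signature := by
    intro e y hy
    obtain ⟨L, h1, h2, h3⟩ := (spacetime (n := 0) fun a b => gg_smooth a b).signature ()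
      (ro e y) (ro_mem e hy)
    refine ⟨fun a => L (rL e a), ⟨?_, ?_⟩, ?_, ?_⟩
    · intro a b
      rw [map_add, h1.map_add]
    · intro t a
      rw [map_smul, h1.map_smul]
    · intro a b hab
      have h4 := h2 hab
      rw [rL_apply, rL_apply] at h4
      rw [← rl_rl e a, ← rl_rl e b, h4]
    · intro a b
      show gg (ro e y) (rl e a) (rl e b) = mink (L (rL e a)) (L (rL e b))
      rw [rL_apply, rL_apply]
      exact h3 _ _
  timelike := by
    intro e y hy
    show gg (ro e y) (rl e (rl e (1, 1, 0, 0))) (rl e (rl e (1, 1, 0, 0))) < 0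
    rw [rl_rl, gg_XX]; norm_num
  continuous := fun e => continuousOn_const
  regular := fun e a b => (gg_smooth (rl e a) (rl e b)).comp (ro_smooth e).contDiffOn
    fun _ hy => ro_mem e hy

/-- the inclusion -/
def io (p : MM.pt) : (VV 1).pt := ⟨p.1, p.2.1, p.2.2.trans (by norm_num)⟩

lemma io_emb : IsOpenEmbedding io := by
  have h1 : IsOpenEmbedding (Subtype.val : Pb 1 → R4) := (isOpen_Db 1).isOpenEmbedding_subtypeVal
  have h2 : IsOpenEmbedding (Subtype.val ∘ io : Pb 0 → R4) :=
    (isOpen_Db 0).isOpenEmbedding_subtypeVal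
  exact IsOpenEmbedding.of_comp io h1 h2

lemma rep_io {e : Bool} {y : R4} (hy : y ∈ Db 0) :
    rep (M := MM) (N := VV 1) io e () y = ro e y := by
  show (mk 0 (ro e y)).1 = ro e y
  exact mk_val (ro_mem e hy)

lemma dom_io {e : Bool} : dom (M := MM) (N := VV 1) io e () = Db 0 := by
  ext y
  constructor
  · intro h; exact h.1
  · intro h; exact ⟨h, mem_univ _⟩

lemma push_io {e : Bool} {y : R4} (hy : y ∈ Db 0) (a : R4) :
    push (M := MM) (N := VV 1) io e () y a = rl e a := by
  have h2 : HasFDerivAt (rep (M := MM) (N := VV 1) io e ()) (rL e) y := by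
    refine (ro_hd e y).congr_of_eventuallyEq ?_
    filter_upwards [(isOpen_Db 0).mem_nhds hy] with z hz
    exact rep_io hz
  rw [← rL_apply]
  exact (h2.hasLineDerivAt a).lineDeriv

lemma io_isom : IsIsom (M := MM) (N := VV 1) io := by
  apply IsIsom.mk'
  rintro e ⟨⟩
  rw [dom_io]
  refine ⟨?_, ?_⟩
  · exact (ro_smooth e).contDiffOn.congr (fun y hy => rep_io hy)
  · intro y hy
    rw [rep_io hy]
    refine ⟨fun a b => ?_, ?_⟩
    · rw [push_io hy, push_io hy]
    · rw [push_io hy]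
      show gg (ro e y) (rl e (rl e (1, 1, 0, 0))) (1, 1, 0, 0) < 0
      rw [rl_rl, gg_XX]
      norm_num

/-- the line -/
noncomputable def li (t : ℝ) : R4 := (-1 / 2 + t / 4, -1 / 2 + t / 2, 0, 0)

/-- the curve -/
noncomputable def c0 (t : ℝ) : (VV 1).pt := mk 1 (li t)

lemma line_mem1 {t : ℝ} (ht : t ∈ Icc (0:ℝ) 1) : li t ∈ Db 1 := by
  simp only [Db, cv, mem_ofPred_eq, li, Nat.cast_one]
  obtain ⟨h1, h2⟩ := ht
  exact ⟨by linarith, by linarith⟩

lemma line_mem0 {t : ℝ} (ht : t ∈ Ico (0:ℝ) 1) : li t ∈ Db 0 := by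
  simp only [Db, cv, mem_ofPred_eq, li, Nat.cast_zero]
  obtain ⟨h1, h2⟩ := ht
  exact ⟨by linarith, by linarith⟩

lemma c0_val {t : ℝ} (ht : t ∈ Icc (0:ℝ) 1) : (c0 t).1 = li t := mk_val (line_mem1 ht)

lemma c0_cont : ContinuousOn c0 (Icc 0 1) := by
  show ContinuousOn (fun t => mk 1 (li t)) (Icc 0 1)
  exact continuousOn_mk.comp (by unfold li; fun_prop) (fun t ht => line_mem1 ht)

lemma c0_curve : IsFutureCurve (VV 1) 0 (Icc 0 1) c0 := by
  refine ⟨c0_cont, ?_⟩
  rintro t ht ⟨⟩ _
  have h1 : ∀ s ∈ Icc (0:ℝ) 1, co (M := VV 1) () (c0 s) = li s := fun s hs => c0_val hs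
  have h2 : HasDerivAt li (1 / 4, 1 / 2, 0, 0) t := by
    have k1 : HasDerivAt (fun s : ℝ => -1 / 2 + s / 4) (1 / 4) t := by
      simpa only [one_div, hasDerivAt_const_add_iff, id_eq] using ((hasDerivAt_id t).div_const 4).const_add (-1 / 2)
    have k2 : HasDerivAt (fun s : ℝ => -1 / 2 + s / 2) (1 / 2) t := by
      simpa only [one_div, hasDerivAt_const_add_iff, id_eq] using ((hasDerivAt_id t).div_const 2).const_add (-1 / 2)
    exact k1.prodMk (k2.prodMk ((hasDerivAt_const t (0:ℝ)).prodMk (hasDerivAt_const t (0:ℝ))))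
  refine ⟨?_, ?_⟩
  · have h5 : ContDiff ℝ 1 li := by unfold li; fun_prop
    exact h5.contDiffAt.contDiffWithinAt.congr (fun s hs => h1 s hs) (h1 t ht)
  · rintro y w hy hw
    have h4 : derivWithin (fun s => co (M := VV 1) () (c0 s)) (Icc 0 1) t =
        (1 / 4, 1 / 2, 0, 0) := by
      have h5 : HasDerivWithinAt (fun s => co (M := VV 1) () (c0 s)) (1 / 4, 1 / 2, 0, 0)
          (Icc 0 1) t := h2.hasDerivWithinAt.congr (fun s hs => h1 s hs) (h1 t ht)
      exact h5.derivWithin ((uniqueDiffOn_Icc zero_lt_one) t ht)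
    rw [h4] at hw
    rw [hw]
    have h6 : gg y (1 / 4, 1 / 2, 0, 0) (1 / 4, 1 / 2, 0, 0) = -1 / 4 := by
      simp only [gg, c1, mul_zero, c2, add_zero, cu, one_div, cv, zero_sub, neg_add_rev]
      norm_num
    have h7 : gg y (1 / 4, 1 / 2, 0, 0) (1, 1, 0, 0) = -3 / 4 := by
      simp only [gg, c1, mul_zero, c2, add_zero, cu, one_div, cv, mul_one, zero_sub, neg_add_rev]
      norm_num
    show gg y _ _ < 0 ∧ gg y _ _ ≤ -0 ∧ gg y _ (1, 1, 0, 0) < 0
    rw [h6, h7]
    norm_num

lemma c0_mem {t : ℝ} (ht : t ∈ Ico (0:ℝ) 1) : c0 t ∈ range io := by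
  refine ⟨mk 0 (li t), ?_⟩
  apply Subtype.ext
  rw [c0_val ⟨ht.1, ht.2.le⟩]
  exact mk_val (line_mem0 ht)

lemma notMem_range {p : (VV 1).pt} (h : cv p.1 = 0) : p ∉ range io := by
  rintro ⟨q, rfl⟩
  have h1 := q.2.2
  have h2 : cv (io q).1 = cv q.1 := rfl
  rw [h2] at h
  rw [h] at h1
  simp at h1

/-- the example has a future extension -/
theorem extension {q : ENNReal} {r : ℝ} (hr : 1 ≤ r) (hq : q ≤ ENNReal.ofReal r)
    (har : PD.a * r < 1) : IsFutureExtension (IsC0W1 q) MM (VV 1) io c0 where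
  spacetime := spacetime fun a b => gg_sob hr hq har _ a b
  embedding := io_emb
  isometry := io_isom
  proper := by
    intro h
    have h0 : ((0, 0, 0, 0) : R4) ∈ Db 1 := by
      simp only [Db, cv, mem_ofPred_eq]; norm_num
    have : (⟨(0, 0, 0, 0), h0⟩ : Pb 1) ∈ range io := by rw [h]; exact mem_univ _
    exact notMem_range rfl this
  curve := c0_curve
  curve_mem := fun t ht => c0_mem ht
  curve_end := by
    rw [io_emb.isOpen_range.frontier_eq]
    refine ⟨?_, ?_⟩
    · have h1 : Tendsto c0 (𝓝[<] 1) (𝓝 (c0 1)) := by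
        have h3 : ContinuousWithinAt c0 (Icc 0 1) 1 := c0_cont 1 (by constructor <;> norm_num)
        refine h3.mono_left ?_
        rw [← nhdsWithin_Ico_eq_nhdsLT (zero_lt_one (α := ℝ))]
        exact nhdsWithin_mono _ Ico_subset_Icc_self
      refine mem_closure_of_tendsto h1 ?_
      filter_upwards [Ico_mem_nhdsLT (zero_lt_one (α := ℝ))] with t ht
      exact c0_mem ht
    · apply notMem_range
      rw [c0_val (by constructor <;> norm_num)]
      simp only [cv, li]
      norm_num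

end Vale.Agent.P354v.T
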