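import Vale.Agent.P354.H251.Wk2
import Vale.Agent.P354.H251.Sp

set_option linter.unusedSectionVars false

open scoped ContDiff
open MeasureTheory Set Filter Topology

namespace Vale.Agent.P354v.G

open Vale.Agent.P354p.Ex (E4)


/-- membership in the Sobolev class of the region -1 < v < 1 -/
theorem sobG {W : ℝ → ℝ} (hWm : Measurable W) (hW1 : ∫⁻ t, ‖W t‖ₑ ≠ ⊤) {f d : ℝ → ℝ}
    (hf : Continuous f) (hd : ∀ v, v ≠ -1 → v ≠ 0 → HasDerivAt f (d v) v) (hm : Measurable d)
    {C : ℝ} (hb : ∀ v, v ≠ -1 → v ≠ 0 → |d v| ≤ C * W v) {q : ENNReal}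
    (hq : ∀ b > (-1 : ℝ), MemLp d q (volume.restrict (Ioi b))) :
    Vale.Agent.P354p.IsC0W1 q (fun y => f y.2.1) (Db 1) := by
  refine ⟨(hf.comp (continuous_fst.comp continuous_snd)).continuousOn, fun w => ?_⟩
  refine ⟨fun x => d x.2.1 * w.2.1, fun Q hQD hQ => ?_, fun φ hφ hc _ => ?_⟩
  · rcases Q.eq_empty_or_nonempty with rfl | hne
    · rw [Measure.restrict_empty]
      exact ⟨aestronglyMeasurable_zero_measure _, by
        rw [eLpNorm_measure_zero]; exact ENNReal.zero_lt_top⟩
    obtain ⟨R, hR⟩ := hQ.isBounded.subset_closedBall (0:E4)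
    have hcv : Continuous fun x : E4 => x.2.1 := continuous_fst.comp continuous_snd
    obtain ⟨x0, hx0, hmin⟩ := hQ.exists_isMinOn hne hcv.continuousOn
    have hx1 : -1 < x0.2.1 := (hQD hx0).1
    set b := (-1 + x0.2.1) / 2 with hbdef
    have hb1 : -1 < b := by rw [hbdef]; linarith
    have hb2 : b < x0.2.1 := by rw [hbdef]; linarith
    have i1 : IsFiniteMeasure ((volume : Measure ℝ).restrict (Metric.closedBall (0:ℝ) R)) := ⟨by
      rw [Measure.restrict_apply MeasurableSet.univ, univ_inter]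
      exact (isCompact_closedBall _ _).measure_lt_top⟩
    have i2 : IsFiniteMeasure ((volume : Measure (ℝ × ℝ)).restrict
        (Metric.closedBall (0:ℝ × ℝ) R)) := ⟨by
      rw [Measure.restrict_apply MeasurableSet.univ, univ_inter]
      exact (isCompact_closedBall _ _).measure_lt_top⟩
    have h1 := ((hq b hb1).comp_fst ((volume : Measure (ℝ × ℝ)).restrict
      (Metric.closedBall (0:ℝ × ℝ) R))).comp_snd
        ((volume : Measure ℝ).restrict (Metric.closedBall (0:ℝ) R))
    rw [Measure.prod_restrict, Measure.prod_restrict] at h1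
    have h2 : MemLp (fun x : E4 => d x.2.1) q ((volume : Measure E4).restrict
        (Metric.closedBall (0:ℝ) R ×ˢ Ioi b ×ˢ Metric.closedBall (0:ℝ × ℝ) R)) := h1
    have h3 := h2.mono_measure (Measure.restrict_mono (s := Q) ?_ le_rfl)
    · exact h3.mul_const w.2.1
    · intro x hx
      have k1 := hR hx
      rw [mem_closedBall_zero_iff] at k1
      have k2 : ‖x‖ = max ‖x.1‖ (max ‖x.2.1‖ ‖x.2.2‖) := rfl
      rw [k2, max_le_iff, max_le_iff] at k1
      refine ⟨mem_closedBall_zero_iff.2 k1.1, hb2.trans_le (hmin hx), mem_closedBall_zero_iff.2 k1.2.2⟩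
  · exact T.weak_gen hWm hW1 hf hd hm hb w (contDiffOn_univ.1 hφ) hc

end Vale.Agent.P354v.G
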