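import Vale.Agent.P354.H251.Sp

set_option linter.unusedSectionVars false

open scoped ContDiff
open MeasureTheory Set Filter Topology

namespace Vale.Agent.P354v

open Vale.Agent.P354p
open Vale.Agent.P354p.Ex (Prm LLe)

def rConn (g : R4 → R4 → R4 → ℝ) (G : R4 → R4 → R4 → R4) (x : R4) : Prop :=
  ∀ a b c, g x (G x a b) c + g x (G x a b) c =
    lineDeriv ℝ (fun y => g y b c) x a + lineDeriv ℝ (fun y => g y a c) x b -
      lineDeriv ℝ (fun y => g y a b) x c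

noncomputable def rRiem (g : R4 → R4 → R4 → ℝ) (G : R4 → R4 → R4 → R4) (x a b c d : R4) : ℝ :=
  lineDeriv ℝ (fun y => g y (G y b c) d) x a - lineDeriv ℝ (fun y => g y (G y a c) d) x b -
    g x (G x b c) (G x a d) + g x (G x a c) (G x b d)

/-- line derivatives of functions of v -/
lemma ld {F : ℝ → ℝ} {F' : ℝ} {x : R4} (h : HasDerivAt F F' (cv x)) (a : R4) :
    lineDeriv ℝ (fun y => F (cv y)) x a = F' * cv a := by
  have h1 : HasDerivAt (fun t : ℝ => F (cv (x + t • a))) (F' * cv a) 0 := by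
    have h2 : HasDerivAt (fun t : ℝ => cv (x + t • a)) (cv a) 0 := by
      have := ((hasDerivAt_id (0:ℝ)).mul_const (cv a)).const_add (cv x)
      simp only [id_eq, one_mul] at this
      exact this
    have h3 : HasDerivAt F F' (cv (x + (0:ℝ) • a)) := by
      rw [zero_smul, add_zero]; exact h
    exact HasDerivAt.comp (0:ℝ) h3 h2
  exact HasLineDerivAt.lineDeriv h1

variable [Prm]

/-- the connection -/
noncomputable def GC (x a b : R4) : R4 :=
  (DD Prm.a 1 (cv x) / 2 * (c1 a * c1 b) + DD Prm.a (-1) (cv x) / 2 * (c2 a * c2 b), 0,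
    DD Prm.a 1 (cv x) / (2 * AA (cv x)) * (cv a * c1 b + c1 a * cv b),
    DD Prm.a (-1) (cv x) / (2 * BB (cv x)) * (cv a * c2 b + c2 a * cv b))

lemma gg_GC (x b c d : R4) : gg x (GC x b c) d =
    DD Prm.a 1 (cv x) / 2 * (cv b * c1 c * c1 d + c1 b * cv c * c1 d - c1 b * c1 c * cv d) +
    DD Prm.a (-1) (cv x) / 2 * (cv b * c2 c * c2 d + c2 b * cv c * c2 d - c2 b * c2 c * cv d) := by
  have hA := (AA_bd (cv x)).1
  have hB := (BB_bd (cv x)).1
  have hA0 : AA (cv x) ≠ 0 := by linarith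
  have hB0 : BB (cv x) ≠ 0 := by linarith
  have e1 : c1 (GC x b c) = DD Prm.a 1 (cv x) / (2 * AA (cv x)) * (cv b * c1 c + c1 b * cv c) := rfl
  have e2 : c2 (GC x b c) = DD Prm.a (-1) (cv x) / (2 * BB (cv x)) * (cv b * c2 c + c2 b * cv c) :=
    rfl
  have e3 : cu (GC x b c) = DD Prm.a 1 (cv x) / 2 * (c1 b * c1 c) +
    DD Prm.a (-1) (cv x) / 2 * (c2 b * c2 c) := rfl
  have e4 : cv (GC x b c) = 0 := rfl
  unfold gg
  rw [e1, e2, e3, e4]
  field_simp
  ring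

lemma gg_GG (x b c a d : R4) : gg x (GC x b c) (GC x a d) =
    (DD Prm.a 1 (cv x)) ^ 2 / (4 * AA (cv x)) * (cv b * c1 c + c1 b * cv c) *
      (cv a * c1 d + c1 a * cv d) +
    (DD Prm.a (-1) (cv x)) ^ 2 / (4 * BB (cv x)) * (cv b * c2 c + c2 b * cv c) *
      (cv a * c2 d + c2 a * cv d) := by
  have hA := (AA_bd (cv x)).1
  have hB := (BB_bd (cv x)).1
  have hA0 : AA (cv x) ≠ 0 := by linarith
  have hB0 : BB (cv x) ≠ 0 := by linarith
  have e1 : c1 (GC x a d) = DD Prm.a 1 (cv x) / (2 * AA (cv x)) * (cv a * c1 d + c1 a * cv d) := rfl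
  have e2 : c2 (GC x a d) = DD Prm.a (-1) (cv x) / (2 * BB (cv x)) * (cv a * c2 d + c2 a * cv d) :=
    rfl
  have e4 : cv (GC x a d) = 0 := rfl
  rw [gg_GC, e1, e2, e4]
  field_simp
  ring

lemma ld_gg {x : R4} (hx : x ∈ Db 0) (b c a : R4) : lineDeriv ℝ (fun y => gg y b c) x a =
    (DD Prm.a 1 (cv x) * (c1 b * c1 c) + DD Prm.a (-1) (cv x) * (c2 b * c2 c)) * cv a := by
  have h0 : cv x < 0 := by simpa using hx.2
  have h1 := FF_hd (a := Prm.a) Prm.a0 Prm.a1 1 hx.1.ne' h0.ne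
  have h2 := FF_hd (a := Prm.a) Prm.a0 Prm.a1 (-1) hx.1.ne' h0.ne
  exact ld (F := fun v => AA v * (c1 b * c1 c) + BB v * (c2 b * c2 c) - (cu b * cv c + cv b * cu c))
    (((h1.mul_const _).add (h2.mul_const _)).sub_const _) a

lemma conn {x : R4} (hx : x ∈ Db 0) : rConn gg GC x := by
  intro a b c
  rw [ld_gg hx, ld_gg hx, ld_gg hx, gg_GC]
  ring

/-- second derivatives -/
lemma DD_deriv (e : ℝ) {v z : ℝ} (h1 : -1 < v) (h2 : v < 0)
    (hz : HasDerivAt (yy Prm.a) z (-v)) : HasDerivAt (DD Prm.a e)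
      (2 * ff Prm.a e (-v) * (2 * (xx Prm.a e (-v)) ^ 2 +
        (-(yy Prm.a (-v)) ^ 2 - (qq Prm.a (-v) / ph Prm.a (-v)) ^ 2 + e * z))) v := by
  have k1 := ff_deriv (a := Prm.a) Prm.a0 Prm.a1 e (show 0 < -v by linarith)
    (show -v < 1 by linarith)
  have k0 := xx_deriv (a := Prm.a) Prm.a0 Prm.a1 e (show 0 < -v by linarith)
    (show -v < 1 by linarith) hz
  have k2 : HasDerivAt (fun v : ℝ => -v) (-1) v := (hasDerivAt_id v).neg
  have k3 := (HasDerivAt.comp v ((k1.const_mul 2).mul k0) k2).neg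
  have k4 : DD Prm.a e =ᶠ[𝓝 v] (-((fun y => 2 * ff Prm.a e y) * xx Prm.a e) ∘ Neg.neg) := by
    filter_upwards [Ioo_mem_nhds h1 h2] with w hw
    exact DD_in Prm.a0 Prm.a1 e hw.1 hw.2
  refine (k3.congr_of_eventuallyEq k4).congr_deriv ?_
  ring

lemma riem {x : R4} (hx : x ∈ Db 0) {A2 B2 : ℝ} (hA : HasDerivAt (DD Prm.a 1) A2 (cv x))
    (hB : HasDerivAt (DD Prm.a (-1)) B2 (cv x)) (a b c d : R4) : rRiem gg GC x a b c d =
      (A2 / 2 * (cv b * c1 c * c1 d + c1 b * cv c * c1 d - c1 b * c1 c * cv d) +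
      B2 / 2 * (cv b * c2 c * c2 d + c2 b * cv c * c2 d - c2 b * c2 c * cv d)) * cv a -
      (A2 / 2 * (cv a * c1 c * c1 d + c1 a * cv c * c1 d - c1 a * c1 c * cv d) +
      B2 / 2 * (cv a * c2 c * c2 d + c2 a * cv c * c2 d - c2 a * c2 c * cv d)) * cv b -
      gg x (GC x b c) (GC x a d) + gg x (GC x a c) (GC x b d) := by
  have key : ∀ b c d a : R4, lineDeriv ℝ (fun y => gg y (GC y b c) d) x a =
      (A2 / 2 * (cv b * c1 c * c1 d + c1 b * cv c * c1 d - c1 b * c1 c * cv d) +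
      B2 / 2 * (cv b * c2 c * c2 d + c2 b * cv c * c2 d - c2 b * c2 c * cv d)) * cv a := by
    intro b c d a
    simp only [gg_GC]
    exact ld (F := fun v =>
      DD Prm.a 1 v / 2 * (cv b * c1 c * c1 d + c1 b * cv c * c1 d - c1 b * c1 c * cv d) +
      DD Prm.a (-1) v / 2 * (cv b * c2 c * c2 d + c2 b * cv c * c2 d - c2 b * c2 c * cv d))
      (((hA.div_const 2).mul_const _).add ((hB.div_const 2).mul_const _)) a
  unfold rRiem
  rw [key, key]

/-- dual bases -/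
noncomputable def E1 : ℕ → R4
  | 0 => (1, 0, 0, 0)
  | 1 => (0, 1, 0, 0)
  | 2 => (0, 0, 1, 0)
  | _ => (0, 0, 0, 1)

noncomputable def E2 (x : R4) : ℕ → R4
  | 0 => (0, -1, 0, 0)
  | 1 => (-1, 0, 0, 0)
  | 2 => (0, 0, 1 / AA (cv x), 0)
  | _ => (0, 0, 0, 1 / BB (cv x))

lemma dual (x : R4) : ∀ i < 4, ∀ j < 4, gg x (E1 i) (E2 x j) = if i = j then 1 else 0 := by
  have hA := (AA_bd (cv x)).1
  have hB := (BB_bd (cv x)).1
  have hA0 : AA (cv x) ≠ 0 := by linarith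
  have hB0 : BB (cv x) ≠ 0 := by linarith
  intro i hi j hj
  interval_cases i <;> interval_cases j <;> simp [gg, E1, E2, cu, cv, c1, c2] <;>
    first
      | exact mul_inv_cancel₀ hA0
      | exact mul_inv_cancel₀ hB0

/-- **The Ricci curvature vanishes.** -/
lemma ricci {x : R4} (hx : x ∈ Db 0) (b c : R4) :
    ∑ i ∈ Finset.range 4, rRiem gg GC x (E1 i) b c (E2 x i) = 0 := by
  have h0 : cv x < 0 := by simpa using hx.2
  have h1 : -1 < cv x := hx.1
  obtain ⟨z, hz⟩ := yy_deriv (a := Prm.a) Prm.a0 Prm.a1 (show 0 < -cv x by linarith)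
    (show -cv x < 1 by linarith)
  have hA2 := DD_deriv 1 h1 h0 hz
  have hB2 := DD_deriv (-1) h1 h0 hz
  have hA1 := DD_in (a := Prm.a) Prm.a0 Prm.a1 1 h1 h0
  have hB1 := DD_in (a := Prm.a) Prm.a0 Prm.a1 (-1) h1 h0
  have eA : AA (cv x) = ff Prm.a 1 (-cv x) := FF_in 1 h1 h0
  have eB : BB (cv x) = ff Prm.a (-1) (-cv x) := FF_in (-1) h1 h0
  have hA := (AA_bd (cv x)).1
  have hB := (BB_bd (cv x)).1
  rw [eA] at hA
  rw [eB] at hB
  have hA0 : ff Prm.a 1 (-cv x) ≠ 0 := by linarith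
  have hB0 : ff Prm.a (-1) (-cv x) ≠ 0 := by linarith
  simp only [riem hx hA2 hB2, gg_GG, hA1, hB1, eA, eB, Finset.sum_range_succ, Finset.sum_range_zero,
    zero_add]
  simp only [E1, E2, eA, eB]
  generalize ff Prm.a 1 (-cv x) = A at *
  generalize ff Prm.a (-1) (-cv x) = B at *
  simp only [cu, cv, c1, c2]
  unfold xx
  field_simp
  ring

end Vale.Agent.P354v
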