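import Vale.Agent.P354.H251.Sp2

set_option linter.unusedSectionVars false

open scoped ContDiff
open MeasureTheory Set Filter Topology

namespace Vale.Agent.P354v.T

open Vale.Agent.P354p
open Vale.Agent.P354p.Ex (LLe)

variable [PD]

/-- the connection -/
noncomputable def GC (x a b : R4) : R4 :=
  (DA (cv x) / 2 * (c1 a * c1 b) + DB (cv x) / 2 * (c2 a * c2 b), 0,
    DA (cv x) / (2 * AA (cv x)) * (cv a * c1 b + c1 a * cv b),
    DB (cv x) / (2 * BB (cv x)) * (cv a * c2 b + c2 a * cv b))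

lemma gg_GC (x b c d : R4) : gg x (GC x b c) d =
    DA (cv x) / 2 * (cv b * c1 c * c1 d + c1 b * cv c * c1 d - c1 b * c1 c * cv d) +
    DB (cv x) / 2 * (cv b * c2 c * c2 d + c2 b * cv c * c2 d - c2 b * c2 c * cv d) := by
  have hA := (AA_bd (cv x)).1
  have hB := (BB_bd (cv x)).1
  have hA0 : AA (cv x) ≠ 0 := by linarith
  have hB0 : BB (cv x) ≠ 0 := by linarith
  have e1 : c1 (GC x b c) = DA (cv x) / (2 * AA (cv x)) * (cv b * c1 c + c1 b * cv c) := rfl
  have e2 : c2 (GC x b c) = DB (cv x) / (2 * BB (cv x)) * (cv b * c2 c + c2 b * cv c) :=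
    rfl
  have e3 : cu (GC x b c) = DA (cv x) / 2 * (c1 b * c1 c) +
    DB (cv x) / 2 * (c2 b * c2 c) := rfl
  have e4 : cv (GC x b c) = 0 := rfl
  unfold gg
  rw [e1, e2, e3, e4]
  field_simp
  ring

lemma gg_GG (x b c a d : R4) : gg x (GC x b c) (GC x a d) =
    (DA (cv x)) ^ 2 / (4 * AA (cv x)) * (cv b * c1 c + c1 b * cv c) *
      (cv a * c1 d + c1 a * cv d) +
    (DB (cv x)) ^ 2 / (4 * BB (cv x)) * (cv b * c2 c + c2 b * cv c) *
      (cv a * c2 d + c2 a * cv d) := by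
  have hA := (AA_bd (cv x)).1
  have hB := (BB_bd (cv x)).1
  have hA0 : AA (cv x) ≠ 0 := by linarith
  have hB0 : BB (cv x) ≠ 0 := by linarith
  have e1 : c1 (GC x a d) = DA (cv x) / (2 * AA (cv x)) * (cv a * c1 d + c1 a * cv d) := rfl
  have e2 : c2 (GC x a d) = DB (cv x) / (2 * BB (cv x)) * (cv a * c2 d + c2 a * cv d) :=
    rfl
  have e4 : cv (GC x a d) = 0 := rfl
  rw [gg_GC, e1, e2, e4]
  field_simp
  ring

lemma ld_gg {x : R4} (hx : x ∈ Db 0) (b c a : R4) : lineDeriv ℝ (fun y => gg y b c) x a =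
    (DA (cv x) * (c1 b * c1 c) + DB (cv x) * (c2 b * c2 c)) * cv a := by
  have h0 : cv x < 0 := by simpa using hx.2
  have h1 := (PD.ok.hA (cv x) hx.1.ne' h0.ne).hasDerivAt
  have h2 := (PD.ok.hB (cv x) hx.1.ne' h0.ne).hasDerivAt
  exact ld (F := fun v => AA v * (c1 b * c1 c) + BB v * (c2 b * c2 c) - (cu b * cv c + cv b * cu c))
    (((h1.mul_const _).add (h2.mul_const _)).sub_const _) a

lemma conn {x : R4} (hx : x ∈ Db 0) : rConn gg GC x := by
  intro a b c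
  rw [ld_gg hx, ld_gg hx, ld_gg hx, gg_GC]
  ring

lemma riem {x : R4} (hx : x ∈ Db 0) {A2 B2 : ℝ} (hA : HasDerivAt (DA) A2 (cv x))
    (hB : HasDerivAt (DB) B2 (cv x)) (a b c d : R4) : rRiem gg GC x a b c d =
      (A2 / 2 * (cv b * c1 c * c1 d + c1 b * cv c * c1 d - c1 b * c1 c * cv d) +
      B2 / 2 * (cv b * c2 c * c2 d + c2 b * cv c * c2 d - c2 b * c2 c * cv d)) * cv a -
      (A2 / 2 * (cv a * c1 c * c1 d + c1 a * cv c * c1 d - c1 a * c1 c * cv d) +
      B2 / 2 * (cv a * c2 c * c2 d + c2 a * cv c * c2 d - c2 a * c2 c * cv d)) * cv b -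
      gg x (GC x b c) (GC x a d) + gg x (GC x a c) (GC x b d) := by
  have key : ∀ b c d a : R4, lineDeriv ℝ (fun y => gg y (GC y b c) d) x a =
      (A2 / 2 * (cv b * c1 c * c1 d + c1 b * cv c * c1 d - c1 b * c1 c * cv d) +
      B2 / 2 * (cv b * c2 c * c2 d + c2 b * cv c * c2 d - c2 b * c2 c * cv d)) * cv a := by
    intro b c d a
    simp only [gg_GC]
    exact ld (F := fun v =>
      DA v / 2 * (cv b * c1 c * c1 d + c1 b * cv c * c1 d - c1 b * c1 c * cv d) +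
      DB v / 2 * (cv b * c2 c * c2 d + c2 b * cv c * c2 d - c2 b * c2 c * cv d))
      (((hA.div_const 2).mul_const _).add ((hB.div_const 2).mul_const _)) a
  unfold rRiem
  rw [key, key]

/-- dual bases -/
noncomputable def E1 : ℕ → R4
  | 0 => (1, 0, 0, 0)
  | 1 => (0, 1, 0, 0)
  | 2 => (0, 0, 1, 0)
  | _ => (0, 0, 0, 1)

noncomputable def E2 (x : R4) : ℕ → R4
  | 0 => (0, -1, 0, 0)
  | 1 => (-1, 0, 0, 0)
  | 2 => (0, 0, 1 / AA (cv x), 0)
  | _ => (0, 0, 0, 1 / BB (cv x))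

lemma dual (x : R4) : ∀ i < 4, ∀ j < 4, gg x (E1 i) (E2 x j) = if i = j then 1 else 0 := by
  have hA := (AA_bd (cv x)).1
  have hB := (BB_bd (cv x)).1
  have hA0 : AA (cv x) ≠ 0 := by linarith
  have hB0 : BB (cv x) ≠ 0 := by linarith
  intro i hi j hj
  interval_cases i <;> interval_cases j <;> simp [gg, E1, E2, cu, cv, c1, c2] <;>
    first
      | exact mul_inv_cancel₀ hA0
      | exact mul_inv_cancel₀ hB0

/-- **The Ricci curvature vanishes.** -/
lemma ricci {x : R4} (hx : x ∈ Db 0) (b c : R4) :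
    ∑ i ∈ Finset.range 4, rRiem gg GC x (E1 i) b c (E2 x i) = 0 := by
  have hA := (AA_bd (cv x)).1
  have hB := (BB_bd (cv x)).1
  obtain ⟨A2, B2, hA2, hB2, hvac⟩ := PD.ok.vac (cv x) (cv_mem hx)
  have hA0 : AA (cv x) ≠ 0 := by linarith
  have hB0 : BB (cv x) ≠ 0 := by linarith
  have hvac' : A2 / (2 * AA (cv x)) - (DA (cv x)) ^ 2 / (4 * (AA (cv x)) ^ 2) +
      (B2 / (2 * BB (cv x)) - (DB (cv x)) ^ 2 / (4 * (BB (cv x)) ^ 2)) = 0 := hvac
  simp only [riem hx hA2 hB2, gg_GG, Finset.sum_range_succ, Finset.sum_range_zero,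
    zero_add]
  simp only [E1, E2]
  generalize AA (cv x) = A at *
  generalize BB (cv x) = B at *
  generalize DA (cv x) = A1 at *
  generalize DB (cv x) = B1 at *
  simp only [cu, cv, c1, c2]
  refine Eq.trans (b := -(b.2.1 * c.2.1) * (A2 / (2 * A) - A1 ^ 2 / (4 * A ^ 2) +
      (B2 / (2 * B) - B1 ^ 2 / (4 * B ^ 2)))) ?_ (by rw [hvac', mul_zero])
  field_simp
  ring

end Vale.Agent.P354v.T
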