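import Vale.Agent.P354.H251.NG
import Vale.Agent.P354.H251.Inx

set_option linter.unusedSectionVars false

open scoped ContDiff
open MeasureTheory Set Filter Topology

namespace Vale.Agent.P354v.G.N

open Vale.Agent.P354n (IsSmooth IsSpacetime IsC0W1 IsFutureCurve IsFutureExtension InLp Ends AllEnd
  IsGH IsVacuum rev IsInext IsMax isFutureExtension_dn isSpacetime_dn Dn inext wave coef IsData phi)

/-! ### functions in L^p -/

lemma glue {g : ℝ → ℝ} {p : ENNReal} {a b c : ℝ} (h1 : MemLp g p (volume.restrict (Icc a b)))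
    (h2 : MemLp g p (volume.restrict (Ioo b c))) : MemLp g p (volume.restrict (Ioo a c)) := by
  have k1 := (memLp_indicator_iff_restrict (f := g) (p := p) (μ := volume)
    (measurableSet_Icc (a := a) (b := b))).2 h1
  have k2 := (memLp_indicator_iff_restrict (f := g) (p := p) (μ := volume)
    (measurableSet_Ioo (a := b) (b := c))).2 h2
  have hd : Disjoint (Icc a b) (Ioo b c) := by
    rw [Set.disjoint_left]
    rintro x ⟨-, hx⟩ ⟨hx', -⟩
    linarith
  have k3 := k1.add k2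
  have e : (Icc a b).indicator g + (Ioo b c).indicator g = (Icc a b ∪ Ioo b c).indicator g :=
    (indicator_union_of_disjoint hd g).symm
  rw [e] at k3
  have k4 := (memLp_indicator_iff_restrict (measurableSet_Icc.union measurableSet_Ioo)).1 k3
  refine k4.mono_measure (Measure.restrict_mono ?_ le_rfl)
  intro x hx
  by_cases h : x ≤ b
  · exact Or.inl ⟨hx.1.le, h⟩
  · exact Or.inr ⟨not_le.1 h, hx.2⟩

lemma cmem {g : ℝ → ℝ} {p : ENNReal} {a b : ℝ} (hc : ContinuousOn g (Icc a b)) :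
    MemLp g p (volume.restrict (Icc a b)) := by
  obtain ⟨C, hC⟩ := isCompact_Icc.exists_bound_of_continuousOn hc
  have hfin : IsFiniteMeasure (volume.restrict (Icc a b)) := ⟨by
    rw [Measure.restrict_apply MeasurableSet.univ, univ_inter]
    exact isCompact_Icc.measure_lt_top⟩
  refine MemLp.of_bound (hc.aestronglyMeasurable measurableSet_Icc) C ?_
  rw [ae_restrict_iff' measurableSet_Icc]
  exact Eventually.of_forall hC

lemma ae1 : ∀ᵐ v : ℝ, v ≠ -1 := compl_mem_ae_iff.2 (measure_singleton _)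
lemma ae0 : ∀ᵐ v : ℝ, v ≠ 0 := compl_mem_ae_iff.2 (measure_singleton _)

/-- functions controlled by a and b -/
lemma low {g a b : ℝ → ℝ} {C : ℝ} {p : ENNReal} (hg : ContinuousOn g (Ioo (-1) 0))
    (hb : ∀ v ∈ Ioo (-1 : ℝ) 0, |g v| ≤ C * (|a v| + |b v|))
    (hn : ¬ eLpNorm g p (volume.restrict (Ioo (-(1 / 2)) 0)) < ⊤) (ha : Measurable a)
    (hbm : Measurable b) :
    ∀ c < 0, ¬ eLpNorm a p (volume.restrict (Ioo c 0)) < ⊤ ∨
      ¬ eLpNorm b p (volume.restrict (Ioo c 0)) < ⊤ := by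
  intro c hc
  by_contra hcon
  push Not at hcon
  obtain ⟨k1, k2⟩ := hcon
  set c' := max c (-(1 / 2)) with hc'
  have hc0 : c' < 0 := max_lt hc (by norm_num)
  have hc1 : -(1 / 2) ≤ c' := le_max_right _ _
  have n1 : MemLp a p (volume.restrict (Ioo c 0)) := ⟨ha.aestronglyMeasurable, k1⟩
  have n2 : MemLp b p (volume.restrict (Ioo c 0)) := ⟨hbm.aestronglyMeasurable, k2⟩
  have m1 : MemLp a p (volume.restrict (Ioo c' 0)) :=
    n1.mono_measure (Measure.restrict_mono (Ioo_subset_Ioo_left (le_max_left _ _)) le_rfl)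
  have m2 : MemLp b p (volume.restrict (Ioo c' 0)) :=
    n2.mono_measure (Measure.restrict_mono (Ioo_subset_Ioo_left (le_max_left _ _)) le_rfl)
  have m3 : MemLp g p (volume.restrict (Ioo c' 0)) := by
    refine ((m1.norm.add m2.norm).const_mul C).mono
      ((hg.mono (Ioo_subset_Ioo_left (by linarith))).aestronglyMeasurable measurableSet_Ioo) ?_
    rw [ae_restrict_iff' measurableSet_Ioo]
    refine Eventually.of_forall fun v hv => ?_
    have h1 := hb v ⟨by linarith [hv.1], hv.2⟩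
    rw [Real.norm_eq_abs]
    refine h1.trans ?_
    simp only [Pi.add_apply, Real.norm_eq_abs]
    exact le_abs_self _
  have m4 : MemLp g p (volume.restrict (Icc (-(1 / 2)) c')) :=
    cmem (hg.mono fun v hv => ⟨by linarith [hv.1], hv.2.trans_lt hc0⟩)
  exact hn (glue m4 m3).2

/-! ### the plane wave of f -/

section

variable {f : ℝ → ℝ} (hf : IsData f)
include hf

noncomputable abbrev pg : PG := ⟨Wt f, KK1 f, coef 1 f, coef (-1) f, dat hf⟩

lemma wave_eq : wave f = Dn (@MM (pg hf)) := rfl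

lemma f_le {v : ℝ} (hv : v ∈ Ioo (-1 : ℝ) 0) :
    |f v| ≤ √(1 + 2 * S1 f) * (|_root_.deriv (coef 1 f) v| + |_root_.deriv (coef (-1) f) v|) := by
  obtain ⟨h1, h2⟩ := phi_bd hf (Ioo_subset_Icc_self hv)
  have hp : 0 < √(phi f v) := Real.sqrt_pos.2 (by linarith)
  have hs : √(phi f v) ≤ √(1 + 2 * S1 f) := Real.sqrt_le_sqrt h2
  obtain ⟨a1, -⟩ := fc_bd hf (e := 1) (by simp) (Ioo_subset_Icc_self hv)
  obtain ⟨b1, -⟩ := fc_bd hf (e := -1) (by simp) (Ioo_subset_Icc_self hv)
  rw [(coef_deriv hf 1 hv).deriv, (coef_deriv hf (-1) hv).deriv]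
  have e1 : f v = √(phi f v) * ((xe 1 f v - xe (-1) f v) / 2) := by
    unfold xe qf
    field_simp
    ring
  have k1 : |xe 1 f v| ≤ |2 * fc 1 f v * xe 1 f v| := by
    rw [abs_mul]
    have : 1 ≤ |2 * fc 1 f v| := by rw [abs_of_pos (by linarith)]; linarith
    nlinarith [abs_nonneg (xe 1 f v)]
  have k2 : |xe (-1) f v| ≤ |2 * fc (-1) f v * xe (-1) f v| := by
    rw [abs_mul]
    have : 1 ≤ |2 * fc (-1) f v| := by rw [abs_of_pos (by linarith)]; linarith
    nlinarith [abs_nonneg (xe (-1) f v)]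
  have k3 : |f v| ≤ √(phi f v) * (|xe 1 f v| + |xe (-1) f v|) := by
    conv_lhs => rw [e1]
    rw [abs_mul, abs_of_pos hp, abs_div, abs_of_pos (by norm_num : (0:ℝ) < 2)]
    have h5 := abs_sub (xe 1 f v) (xe (-1) f v)
    have h6 := abs_nonneg (xe 1 f v)
    have h7 := abs_nonneg (xe (-1) f v)
    refine mul_le_mul_of_nonneg_left ?_ hp.le
    linarith
  refine k3.trans ?_
  have h6 := abs_nonneg (xe 1 f v)
  have h7 := abs_nonneg (xe (-1) f v)
  exact mul_le_mul hs (add_le_add k1 k2) (by positivity) (Real.sqrt_nonneg _)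

/-- the future end -/
theorem future_end {p : ENNReal} (hn : ¬ InLp p f (-(1 / 2))) : AllEnd p (wave f) := by
  have hN := low (cf hf) (fun v hv => f_le hf hv) hn (measurable_deriv _) (measurable_deriv _)
  intro a h1 h2
  exact @ends (pg hf) _ _ _ _ (@mod_true (pg hf)) p hN a h1 h2

/-- the past end -/
theorem past_end {p : ENNReal} (hn : ¬ InLp p (fun v => f (-1 - v)) (-(1 / 2))) :
    AllEnd p (rev (wave f)) := by
  have hm : ∀ {v : ℝ}, v ∈ Ioo (-1 : ℝ) 0 → -1 - v ∈ Ioo (-1 : ℝ) 0 := fun hv =>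
    ⟨by linarith [hv.2], by linarith [hv.1]⟩
  have hg : ContinuousOn (fun v => f (-1 - v)) (Ioo (-1) 0) :=
    (cf hf).comp (by fun_prop) fun v hv => hm hv
  have d1 : ∀ (f : ℝ → ℝ) (v : ℝ), _root_.deriv (fun v => f (-1 - v)) v =
      -_root_.deriv f (-1 - v) := fun f v => deriv_comp_const_sub f (-1) v
  have hN := low (a := _root_.deriv fun v => coef 1 f (-1 - v))
    (b := _root_.deriv fun v => coef (-1) f (-1 - v)) hg (fun v hv => by
      rw [d1, d1, abs_neg, abs_neg]
      exact f_le hf (hm hv)) hn (measurable_deriv _) (measurable_deriv _)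
  intro a h1 h2
  exact @ends (pg hf).rev _ _ _ _ (@mod_false (pg hf) (pg hf)) p hN a h1 h2

lemma Wt_mem {p : ENNReal} (hp : 2 ≤ p) (hin : InLp p f (-(1 / 2))) {b : ℝ} (hb : -1 < b) :
    MemLp (Wt f) p (volume.restrict (Ioi b)) := by
  set c := min b (-(3 / 4)) with hc
  have hc1 : -1 < c := lt_min hb (by norm_num)
  have hc2 : c ≤ -(3 / 4) := min_le_right _ _
  have hfin : IsFiniteMeasure (volume.restrict (Ioo (-(1 / 2) : ℝ) 0)) := ⟨by
    rw [Measure.restrict_apply MeasurableSet.univ, univ_inter, Real.volume_Ioo]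
    exact ENNReal.ofReal_lt_top⟩
  have hfm : MemLp f p (volume.restrict (Ioo (-(1 / 2)) 0)) :=
    ⟨((cf hf).mono (Ioo_subset_Ioo_left (by norm_num))).aestronglyMeasurable measurableSet_Ioo, hin⟩
  have hf2 : MemLp f 2 (volume.restrict (Ioo (-(1 / 2)) 0)) := hfm.mono_exponent hp
  have hsq : IntegrableOn (fun t => f t ^ 2) (Ioo (-(1 / 2)) 0) := hf2.integrable_sq
  -- the bound for d1
  have hd : ∀ v ∈ Ioo (-(1 / 2) : ℝ) 0, |d1 f v| ≤ ∫ t in Ioo (-(1 / 2) : ℝ) 0, f t ^ 2 := by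
    intro v hv
    rw [abs_of_nonneg (d1_nonneg hv.1.le)]
    unfold d1
    rw [intervalIntegral.integral_of_le hv.1.le]
    exact setIntegral_mono_set hsq (Eventually.of_forall fun _ => sq_nonneg _)
      (Ioc_subset_Ioo_right hv.2).eventuallyLE
  have hdm : MemLp (d1 f) p (volume.restrict (Ioo (-(1 / 2)) 0)) := by
    refine MemLp.of_bound (((d1_cont hf).mono (Ioo_subset_Ioo_left
      (by norm_num))).aestronglyMeasurable measurableSet_Ioo)
      (∫ t in Ioo (-(1 / 2) : ℝ) 0, f t ^ 2) ?_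
    rw [ae_restrict_iff' measurableSet_Ioo]
    exact Eventually.of_forall hd
  have hsub : Icc c (-(1 / 2)) ⊆ Ioo (-1 : ℝ) 0 := fun v hv =>
    ⟨hc1.trans_le hv.1, by linarith [hv.2]⟩
  have m1 : MemLp (fun v => 2 * KK1 f * (|d1 f v| + |f v|)) p (volume.restrict (Ioo c 0)) := by
    refine glue (b := -(1 / 2)) ?_ ?_
    · exact cmem (continuousOn_const.mul
        ((((d1_cont hf).mono hsub).abs).add ((cf hf).mono hsub).abs))
    · exact (hdm.norm.add hfm.norm).const_mul _
  have m2 : MemLp (Wt f) p (volume.restrict (Ioi c)) := by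
    refine (memLp_indicator_iff_restrict measurableSet_Ioo).2 ?_
    rw [Measure.restrict_restrict measurableSet_Ioo]
    refine m1.mono_measure (Measure.restrict_mono ?_ le_rfl)
    rintro v ⟨h1, h2⟩
    exact ⟨h2, h1.2⟩
  exact m2.mono_measure (Measure.restrict_mono (Ioi_subset_Ioi (min_le_left _ _)) le_rfl)

lemma deriv_mem {p : ENNReal} {e : ℝ} (he : |e| ≤ 1) {b : ℝ}
    (h : MemLp (Wt f) p (volume.restrict (Ioi b))) :
    MemLp (_root_.deriv (coef e f)) p (volume.restrict (Ioi b)) := by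
  refine h.mono (measurable_deriv _).aestronglyMeasurable (ae_restrict_of_ae ?_)
  filter_upwards [ae1, ae0] with v h1 h0
  rw [Real.norm_eq_abs, Real.norm_eq_abs, abs_of_nonneg (Wt_nonneg hf v)]
  exact coef_le hf he h1 h0

/-- extensions -/
theorem ext_of {p : ENNReal} (h : ∀ b > (-1 : ℝ), MemLp (Wt f) p (volume.restrict (Ioi b))) :
    ∃ N ι c, ConnectedSpace N.pt ∧ IsFutureExtension (IsC0W1 p) (wave f) N ι c :=
  ⟨Dn (@VV (pg hf) 1), @io (pg hf), @c0 (pg hf), conn_pb 1, isFutureExtension_dn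
    (@extension (pg hf) p (fun b hb => deriv_mem hf (by simp) (h b hb))
      fun b hb => deriv_mem hf (by simp) (h b hb))⟩

theorem ext_one : ∃ N ι c, ConnectedSpace N.pt ∧ IsFutureExtension (IsC0W1 1) (wave f) N ι c :=
  ext_of hf fun _ _ => memLp_one_iff_integrable.2 (Wt_int hf).integrableOn

theorem ext_p {p : ENNReal} (hp : 2 ≤ p) (hin : InLp p f (-(1 / 2))) :
    ∃ N ι c, ConnectedSpace N.pt ∧ IsFutureExtension (IsC0W1 p) (wave f) N ι c :=
  ext_of hf fun _ hb => Wt_mem hf hp hin hb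

theorem wave_spacetime : IsSpacetime IsSmooth (wave f) := isSpacetime_dn (@spacetime_mm (pg hf))

theorem wave_vacuum : IsVacuum (wave f) := vacuum (pg hf)

theorem wave_gh : IsGH (wave f) := @gh (pg hf) _ _ _ _ (@mod_true (pg hf))

omit hf in
theorem wave_conn : ConnectedSpace (wave f).pt := conn_pb 0

/-- inextendibility -/
theorem wave_inext {p : ENNReal} (hp : 2 ≤ p) (h1 : ¬ InLp p f (-(1 / 2)))
    (h2 : ¬ InLp p (fun v => f (-1 - v)) (-(1 / 2))) :
    IsInext (IsC0W1 p) (wave f) ∧ IsMax (wave f) := by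
  have hc : ConnectedSpace (wave f).pt := wave_conn
  have h3 := T.N.inext2 hp (wave_spacetime hf) inferInstance (future_end hf h1) (past_end hf h2)
  exact ⟨h3, wave_spacetime hf, hc, wave_vacuum hf, wave_gh hf, T.N.inext3 h3⟩

/-- **The dichotomy.** -/
theorem wave_iff {p : ENNReal} (hp : 2 ≤ p) :
    (∃ N ι c, IsFutureExtension (IsC0W1 p) (wave f) N ι c) ↔ InLp p f (-(1 / 2)) := by
  constructor
  · rintro ⟨N, ι, c, h⟩
    by_contra hn
    exact ((inext p hp).1 _ (wave_spacetime hf)).2 (future_end hf hn) N ι c h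
  · intro h
    obtain ⟨N, ι, c, -, h⟩ := ext_p hf hp h
    exact ⟨N, ι, c, h⟩

end

end Vale.Agent.P354v.G.N
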